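import Crest.Agent.X212.Sw.Brk

/-!
# Row 212, layer AN-S (helper2): isomorphisms and splittings of pieces

`Bg.Iso` : a partial diffeomorphism with a rotation of the frame, a unitary map of the modules and a
shift of the reference connection.  `BIso` : isomorphic pieces, with gauges at
the necks.  `Sp2` : a piece is cut along a neck into two pieces.
-/

set_option autoImplicit false
set_option linter.unusedSectionVars false
noncomputable section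
open scoped Manifold ContDiff Topology InnerProductSpace
open MeasureTheory Set Function Filter

namespace Crest.Agent.X212.Sw
open An Cyf70
open Nd18 (Jv)
open M (Mf)

variable {κ lam ν : Type} [Fintype κ] [Fintype lam] [Fintype ν] [DecidableEq ν]
  {X X' X₁ X₂ : Mf 4} {nc nc' nc₁ nc₂ : ℕ}

namespace Bg

/-- the fields correspond on the source of `φ`; the reference connection is shifted by `α` -/
structure Iso (b : Bg X.I X.M κ lam ν nc) (b' : Bg X'.I X'.M κ lam ν nc')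
    (φ : OpenPartialHomeomorph X.M X'.M) (U : X.M → Option κ → Option κ → ℝ) (u : X.M → En ν)
    (α : Option κ → X.M → ℝ) : Prop where
  g : ∃ v, GEq b.B b.G b'.B b'.G φ U v
  su : ContMDiffOn X.I 𝓘(ℝ, En ν) ∞ u φ.source
  sα : ∀ a, ContMDiffOn X.I 𝓘(ℝ, ℝ) ∞ (α a) φ.source
  pα : ∀ x ∈ φ.source, ∀ a, ∑ j, b.B.P a j x * α j x = α a x
  uu : ∀ x ∈ φ.source, trn (u x) ∘L u x = b.m.p x
  uu' : ∀ x ∈ φ.source, u x ∘L trn (u x) = b'.m.p (φ x)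
  J : ∀ x ∈ φ.source, u x * b.m.J = b'.m.J * u x
  ρ : ∀ x ∈ φ.source, ∀ j, b'.m.ρ j (φ x) * u x = u x * ∑ a, U x j a • b.m.ρ a x
  A : ∀ x ∈ φ.source, ∀ a, b.F.D a u x + (∑ j, U x j a • b'.A j (φ x)) * u x -
    u x * (b.A a x + α a x • b.jp x) = 0
  ms : ∀ x ∈ φ.source, b'.ms (φ x) * u x = u x * b.ms x
  om : ∀ x ∈ φ.source, ∀ s, b'.om (φ x) s = ∑ a, ∑ a', U x s.1 a * U x s.2 a' * b.om x (a, a')
  w : b'.w = b.w

/-- the test spinor `η'` of the box `j'` is the image of the test spinor `η` of the box `j` -/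
def TI (b : Bg X.I X.M κ lam ν nc) (u : X.M → En ν) (α : Option κ → X.M → ℝ) (j : Fin nc)
    (η η' : R4 → Eu ν) : Prop := ∀ y, η' y = u ((b.ct j).Ξ y) (cs b.m.J
      (Complex.exp (-(Kop92.K (leb R4) (b.ct j).ρ (b.ta j ⟨α, 0⟩) y * Complex.I))) (η y))

end Bg

/-- the necks `K`, `K'` of one type correspond under `φ`, up to the translation `δ` -/
def Nk.Cor {e : En3 κ lam ν} {b : Bg X.I X.M κ lam ν nc} {b' : Bg X'.I X'.M κ lam ν nc'}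
    (K : Nk e b) (K' : Nk e b') (φ : OpenPartialHomeomorph X.M X'.M) (δ : ℝ) : Prop :=
  K'.p = K.p.map (· + δ) ∧ K'.q = K.q.map (· + δ) ∧
    ∀ x ∈ K.ψ.source, K.ψ x ∈ φ.source ∧ K'.ψ (x.1, x.2 + δ) = φ (K.ψ x)

variable {N N' N₁ N₂ : Type} [Fintype N] [Fintype N'] [Fintype N₁] [Fintype N₂]
  {𝓔 : Type*} {en : 𝓔 → En3 κ lam ν}
  {ty : N → 𝓔} {ty' : N' → 𝓔} {ty₁ : N₁ → 𝓔} {ty₂ : N₂ → 𝓔}

/-- the neck `i` of `P` is the neck `i'` of `P'`, or both are switched off -/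
def NC (P : Pz X nc fun i => en (ty i)) (P' : Pz X' nc' fun i => en (ty' i))
    (φ : OpenPartialHomeomorph X.M X'.M) (i : N) (i' : N') (δ : ℝ) : Prop :=
  (P.Off i ∧ P'.Off i') ∨ ∃ h : ty' i' = ty i, ∃ K ∈ P.nk i, ∃ K' ∈ P'.nk i',
    K.Cor (h ▸ K' : Nk (en (ty i)) P'.bg) φ δ

/-- isomorphic pieces: `r` matches the necks that are not switched off; on the neck `i` the
isomorphism is the gauge transformation `g i` -/
structure BIso (P : Pz X nc fun i => en (ty i)) (P' : Pz X' nc fun i => en (ty' i))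
    (φ : OpenPartialHomeomorph X.M X'.M) (r : N → N' → Prop)
    (g : ∀ i, (en (ty i)).Y.M → ℂ) (U : X.M → Option κ → Option κ → ℝ) (u : X.M → En ν)
    (α : Option κ → X.M → ℝ) : Prop where
  src : φ.source = univ
  tgt : φ.target = univ
  iso : P.bg.Iso P'.bg φ U u α
  Ξ : ∀ j y, (P'.bg.ct j).Ξ y = φ ((P.bg.ct j).Ξ y)
  ρ : ∀ j, (P'.bg.ct j).ρ = (P.bg.ct j).ρ
  η : ∀ j, P.bg.TI u α j (P.bg.ct j).η (P'.bg.ct j).η
  nc : ∀ i i', r i i' → ∃ δ, NC P P' φ i i' δ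
  inj : ∀ i i' j j', r i i' → r j j' → (i = j ↔ i' = j')
  l : ∀ i, P.Off i ∨ ∃ i', r i i'
  r' : ∀ i', P'.Off i' ∨ ∃ i, r i i'
  gau : ∀ i, Gau (en (ty i)).Y.I (g i)
  U : ∀ i, ¬P.Off i → ∀ K ∈ P.nk i, ∀ x ∈ K.ψ.source, ∀ a a',
    U (K.ψ x) a a' = P.bg.B.P a a' (K.ψ x)
  u : ∀ i, ¬P.Off i → ∀ K ∈ P.nk i, ∀ x ∈ K.ψ.source, ∀ v,
    u (K.ψ x) v = cs P.bg.m.J (g i x.1) (P.bg.m.p (K.ψ x) v)

/-- one side of a cut (the level-free form of `Sw.Half`): the end `j` of `P₁` on the side `s` is the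
neck `i` of `P` with the shift `δ` -/
structure Hlf (P : Pz X nc fun i => en (ty i)) (i : N) (P₁ : Pz X₁ nc₁ fun i => en (ty₁ i))
    (j : N₁) (s : Bool) (l : OpenPartialHomeomorph X₁.M X.M) (δ : ℝ) (r : N₁ → N → Prop)
    (c : Fin nc₁ → Fin nc) : Prop where
  lit : P₁.bg.Lit P.bg l
  nk : ∃ h : ty i = ty₁ j, ∃ K ∈ P.nk i, ∃ K₁ ∈ P₁.nk j, K₁.Inf s ∧
    (if s then K.p = K₁.p.map (· + δ) else K.q = K₁.q.map (· + δ)) ∧
    l.source = {x | x ∉ K₁.ψ '' (univ ×ˢ {t ∈ K₁.J | t + δ ∉ K.J})} ∧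
    ∀ y t, t ∈ K₁.J → t + δ ∈ K.J → l (K₁.ψ (y, t)) = (h ▸ K : Nk (en (ty₁ j)) P.bg).ψ (y, t + δ)
  nc : ∀ j' i', r j' i' → j' ≠ j ∧ i' ≠ i ∧ NC P₁ P l j' i' 0
  inj : ∀ i i' j j', r i i' → r j j' → (i = j ↔ i' = j')
  all : ∀ j', j' = j ∨ P₁.Off j' ∨ ∃ i', r j' i'
  ct : ∀ k, (P₁.bg.ct k).Ξ.target ⊆ l.source ∧ (∀ y, (P.bg.ct (c k)).Ξ y = l ((P₁.bg.ct k).Ξ y)) ∧
    (P.bg.ct (c k)).ρ = (P₁.bg.ct k).ρ ∧ (P.bg.ct (c k)).η = (P₁.bg.ct k).η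

/-- `P` is cut along the finite neck `i` into `P₁` (past) and `P₂` (future) -/
structure Sp2 (P : Pz X nc fun i => en (ty i)) (i : N) (P₁ : Pz X₁ nc₁ fun i => en (ty₁ i)) (j₁ : N₁)
    (P₂ : Pz X₂ nc₂ fun i => en (ty₂ i)) (j₂ : N₂) (l : OpenPartialHomeomorph X₁.M X.M)
    (r : OpenPartialHomeomorph X₂.M X.M) (δ : ℝ × ℝ) (r₁ : N₁ → N → Prop) (r₂ : N₂ → N → Prop)
    (c : Fin nc₁ ⊕ Fin nc₂ ≃ Fin nc) : Prop where
  l' : Hlf P i P₁ j₁ true l δ.1 r₁ fun k => c (.inl k)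
  r' : Hlf P i P₂ j₂ false r δ.2 r₂ fun k => c (.inr k)
  cov : l.target ∪ r.target = univ
  cap : ∀ K ∈ P.nk i, l.target ∩ r.target = K.ψ.target
  all : ∀ i', i' = i ∨ P.Off i' ∨ (∃ j, r₁ j i') ∨ ∃ j, r₂ j i'
  dj : ∀ i' j j', r₁ j i' → ¬r₂ j' i'

end Crest.Agent.X212.Sw
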