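import Crest.Agent.X212.Flo2.Lev

/-!
# Row 212, layer AN-S (helper2): extension of terms from faces

Terms are `p2 (∑ f dg ∧ dh)` for scalar functions `f, g, h` that are consistent on all faces.
-/

set_option autoImplicit false
set_option linter.unusedSectionVars false
noncomputable section
open scoped Manifold ContDiff Topology InnerProductSpace
open MeasureTheory Set Function Filter

namespace Crest.Agent.X212.Flo2
open An Cyf70 Sw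

variable {κ lam ν : Type} [Fintype κ] [Fintype lam] [Fintype ν] [DecidableEq ν]

/-- scalar functions on a family -/
abbrev Sc (g : Gc κ lam ν) : Type := Tk g.k → g.X.M → ℝ

/-- smooth, with uniform supports -/
structure Sc.OK {g : Gc κ lam ν} (f : Sc g) : Prop where
  sm : Prm93.JS g.X.I univ f
  cf : ∃ r, ∀ t, ∀ x ∉ g.s.core r, f t x = 0
  ret : ∀ t, f t = f (g.clp t)

/-- `f` on the node `x` is consistent with the functions `F` on the faces of `x` -/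
structure Con (x : Nod κ lam ν) (f : Sc x.1) (F : ∀ x : Nod κ lam ν, Sc x.1) : Prop where
  f0 : ∀ c, ∀ t ∈ x.1.dom, t c = 0 → ∀ y,
    f t (x.2.nd.φ0 c y) = F ⟨_, x.2.f0 c⟩ (t ∘ x.2.nd.ι0 c) y
  f1 : ∀ c, x.1.wl c = none → ∀ t ∈ x.1.dom, t c = 1 → ∀ y,
    f t (x.2.nd.l c 3 y) = F ⟨_, x.2.f1 c⟩ (t ∘ x.2.nd.ι1 c) y
  wl : ∀ c, x.1.wl c ≠ none → ∃ T, ∀ t, T ≤ t c →
    f t = psh (x.2.nd.l c (t c)) (F ⟨_, x.2.f1 c⟩ (t ∘ x.2.nd.ι1 c)) +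
      psh ((x.2.nd.φ2 c).trans (x.2.nd.r c (t c)))
        (F ⟨_, x.2.f2 c⟩ (t ∘ x.2.nd.ι2 c ∘ x.2.nd.ι3 c))

/-- `y` is a face of `x` -/
def Nod.Ch (x y : Nod κ lam ν) : Prop := ∃ c, y = ⟨_, x.2.f0 c⟩ ∨ y = ⟨_, x.2.f1 c⟩ ∨
  (x.1.wl c ≠ none ∧ y = ⟨_, x.2.f2 c⟩)

variable (mk : Mk κ lam ν)

/-- EXT-W: the functions at a wall are smooth for long necks -/
def ExtWStmt : Prop := ∀ x : Nod κ lam ν, x.2.WF mk → ∀ c, x.1.wl c ≠ none →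
  ∀ (f₁ : Sc (x.2.nd.g1 c)) (f₂ : Sc (x.2.nd.g2 c)), f₁.OK → f₂.OK → ∃ T, ∃ f : Sc x.1, f.OK ∧
    ∀ t, T ≤ t c → f t = psh (x.2.nd.l c (t c)) (f₁ (t ∘ x.2.nd.ι1 c)) +
      psh ((x.2.nd.φ2 c).trans (x.2.nd.r c (t c))) (f₂ (t ∘ x.2.nd.ι2 c ∘ x.2.nd.ι3 c))

/-- EXT-A: consistent functions on the faces extend (from EXT-W) -/
def ExtAStmt : Prop := ∀ x : Nod κ lam ν, x.2.WF mk → ∀ F : ∀ x : Nod κ lam ν, Sc x.1,
  (∀ y, x.Ch y → (F y).OK ∧ Con y (F y) F) → ∃ f : Sc x.1, f.OK ∧ Con x f F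

/-- EXT-G: a function on one node that vanishes near its faces extends to a consistent system
(from EXT-A, by induction on the dimension) -/
def ExtGStmt : Prop := ∀ 𝒦 : Set (Nod κ lam ν), Cld 𝒦 → (∀ x ∈ 𝒦, x.2.WF mk) → ∀ x ∈ 𝒦,
  ∀ f : Sc x.1, f.OK → Con x f 0 → ∃ F : ∀ y : Nod κ lam ν, Sc y.1, F x = f ∧
    ∀ y ∈ 𝒦, (F y).OK ∧ Con y (F y) F

/-- the form `p2 (∑ f dg ∧ dh)` -/
def frm {X : M.Mf 4} {nc : ℕ} (b : Bg X.I X.M κ lam ν nc) {n : ℕ} (f g h : Fin n → X.M → ℝ)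
    (x : X.M) : F2 κ := b.p2 x (WithLp.toLp 2 fun s =>
  ∑ a, f a x * b.F.D s.1 (g a) x * b.F.D s.2 (h a) x)

variable (κ lam ν) in
/-- EXT-F: properties of the forms -/
structure ExtFStmt : Prop where
  /-- all forms -/
  all : ∀ (X : M.Mf 4) (nc : ℕ) (b : Bg X.I X.M κ lam ν nc), b.OK → ∀ fo ∈ Sec X.I b.p2,
    ∃ (n : ℕ) (f g h : Fin n → X.M → ℝ), (∀ a, f a ∈ Sec X.I (triv X.M ℝ) ∧
      g a ∈ Sec X.I (triv X.M ℝ) ∧ h a ∈ Sec X.I (triv X.M ℝ)) ∧ frm b f g h = fo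
  /-- naturality -/
  nat : ∀ (X X' : M.Mf 4) (nc nc' : ℕ) (b : Bg X.I X.M κ lam ν nc) (b' : Bg X'.I X'.M κ lam ν nc')
    φ U u α, b.OK → b'.OK → b.Iso b' φ U u α → ∀ (n : ℕ) (f g h : Fin n → X'.M → ℝ),
    (∀ a, Sm X'.I (g a) ∧ Sm X'.I (h a)) → ∀ x ∈ φ.source, ∀ s, frm b' f g h (φ x) s =
      ∑ a, ∑ a', U x s.1 a * U x s.2 a' *
        frm b (fun a => f a ∘ φ) (fun a => g a ∘ φ) (fun a => h a ∘ φ) x (a, a')
  /-- smooth families -/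
  fam : ∀ g : Gc κ lam ν, g.OK → ∀ (n : ℕ) (F : Fin 3 → Fin n → Sc g), (∀ i a, (F i a).OK) →
    (∀ t, frm (g.P t).bg (fun a => F 0 a t) (fun a => F 1 a t) (fun a => F 2 a t) ∈
      Sec g.X.I (g.P t).bg.p2) ∧ Prm93.SB g.s.bg.F.toPre univ
        (fun t => frm (g.P t).bg (fun a => F 0 a t) (fun a => F 1 a t) fun a => F 2 a t)
  /-- bounds on compact sets of parameters -/
  bd : ∀ g : Gc κ lam ν, g.OK → ∀ fo : Tk g.k → g.X.M → F2 κ, Prm93.SB g.s.bg.F.toPre univ fo →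
    (∃ r, ∀ t, ∀ x ∉ g.s.core r, fo t x = 0) → ∀ D, IsCompact D → ∃ s, ∀ t ∈ D,
      (g.P t).bg.F.CB 6 (fo t) s ∧ (g.P t).bg.F.nrm 0 (fo t) ≤ s

end Crest.Agent.X212.Flo2
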