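import Crest.Agent.X212.An.Gsm

/-!
# Row 212, layer AN-S (helper2): Floer type assembly

Cells with a rank; at a wall `a` of the cell `σ` the solutions break into a pair of solutions of two
cells of lower rank.  Output: good perturbations are open and dense, and Stokes with products.
-/

set_option autoImplicit false
set_option linter.unusedSectionVars false
noncomputable section
open Set Filter Topology Function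

namespace Crest.Agent.X212.Flo2
open Mod61 An

/-- cells `𝒦` with ranks and splittings -/
structure Flo (W Cl A B : Type) : Type 1 extends Gx W Cl A B where
  Adm : (W →₀ ℝ) → Prop
  𝒦 : Set Cl
  rank : Cl → ℕ
  /-- the splittings at the wall `a` into two pieces of index zero -/
  sp : Cl → A → Finset (Cl × Cl)
  /-- the sequence `u` breaks at the wall `a` into `(x, y)` -/
  Deg : ∀ σ (_ : A) (p : Cl × Cl) {ι : Type}, Ultrafilter ι → (ι → (Q σ).X) →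
    (Q p.1).X → (Q p.2).X → Prop

namespace Flo
variable {W Cl A B : Type} (K : Flo W Cl A B)

/-- a regular solution -/
def RS (q : W →₀ ℝ) (σ : Cl) (x : (K.Q σ).X) : Prop := x ∈ K.M σ q ∧ (K.Q σ).Reg q x

/-- good below the rank `r` -/
def G (r : ℕ) (q : W →₀ ℝ) : Prop :=
  K.Adm q ∧ ∀ σ ∈ K.𝒦, K.rank σ < r → ∀ x ∈ K.M σ q, (K.Q σ).Reg q x

/-- good -/
def GG (q : W →₀ ℝ) : Prop := K.Adm q ∧ ∀ σ ∈ K.𝒦, ∀ x ∈ K.M σ q, (K.Q σ).Reg q x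

structure Ax : Prop where
  fin : K.𝒦.Finite
  adm : St.IsOp K.Adm
  cx : ∀ σ ∈ K.𝒦, K.toGx.Ax K.Adm σ
  down : ∀ σ ∈ K.𝒦, ∀ b ∈ K.wb σ, K.fc σ b ∈ K.𝒦 ∧ K.rank (K.fc σ b) ≤ K.rank σ
  sp : ∀ σ ∈ K.𝒦, ∀ a ∈ K.wa σ, ∀ p ∈ K.sp σ a, (K.Q σ).n = 1 ∧
    (p.1 ∈ K.𝒦 ∧ K.rank p.1 < K.rank σ ∧ (K.Q p.1).n = 0) ∧
      p.2 ∈ K.𝒦 ∧ K.rank p.2 < K.rank σ ∧ (K.Q p.2).n = 0
  dens : ∀ σ ∈ K.𝒦, ∀ q, K.Adm q → ∀ x ∈ K.M σ q, (K.Q σ).Reg q x ∨ ∃ J, (K.Q σ).Onto q x J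
  comp : ∀ σ ∈ K.𝒦, ∀ q₀, K.Adm q₀ → ∀ (ι : Type) (𝒰 : Ultrafilter ι) (q : ι → W →₀ ℝ)
    (u : ι → (K.Q σ).X), St.Cv (𝒰 : Filter ι) q q₀ →
    (∀ᶠ i in (𝒰 : Filter ι), K.Adm (q i) ∧ u i ∈ K.M σ (q i)) →
    (∃ x₀ ∈ K.M σ q₀, Tendsto u 𝒰 ((K.Q σ).Near x₀)) ∨
      (∃ τ ∈ K.𝒦, K.rank τ < K.rank σ ∧ (K.Q τ).n < 0 ∧ (K.M τ q₀).Nonempty) ∨
      ∃ a ∈ K.wa σ, ∃ p ∈ K.sp σ a, ∃ x ∈ K.M p.1 q₀, ∃ y ∈ K.M p.2 q₀, K.Deg σ a p 𝒰 u x y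
  deg_one : ∀ σ ∈ K.𝒦, ∀ a ∈ K.wa σ, ∀ p ∈ K.sp σ a, ∀ (ι : Type) (𝒰 : Ultrafilter ι) u x y,
    K.Deg σ a p 𝒰 u x y → Tendsto (fun i => K.pa (u i) a) 𝒰 (𝓝 1)
  deg_lt : ∀ σ ∈ K.𝒦, ∀ a ∈ K.wa σ, ∀ p ∈ K.sp σ a, ∀ (ι : Type) (𝒰 : Ultrafilter ι) u x y,
    K.Deg σ a p 𝒰 u x y → ∀ a' ∈ K.wa σ, a' ≠ a → ∃ c < 1, ∀ᶠ i in (𝒰 : Filter ι), K.pa (u i) a' ≤ c
  deg_congr : ∀ σ ∈ K.𝒦, ∀ a ∈ K.wa σ, ∀ p ∈ K.sp σ a, ∀ (𝒰 : Ultrafilter ℝ) u u' x y,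
    K.Deg σ a p 𝒰 u x y → (∀ᶠ i in (𝒰 : Filter ℝ), (K.Q σ).In (u i) ∧ (K.Q σ).eqv (u i) (u' i)) →
    K.Deg σ a p 𝒰 u' x y
  deg_eqv : ∀ σ ∈ K.𝒦, ∀ a ∈ K.wa σ, ∀ p ∈ K.sp σ a, ∀ (𝒰 : Ultrafilter ℝ) u q x y x' y',
    K.Adm q → x ∈ K.M p.1 q → y ∈ K.M p.2 q → (K.Q p.1).eqv x x' → (K.Q p.2).eqv y y' →
    K.Deg σ a p 𝒰 u x y → K.Deg σ a p 𝒰 u x' y'
  deg_sp : ∀ σ ∈ K.𝒦, ∀ a ∈ K.wa σ, ∀ p ∈ K.sp σ a, ∀ p' ∈ K.sp σ a, ∀ (𝒰 : Ultrafilter ℝ) u q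
    x y x' y', K.Adm q → (∀ᶠ i in (𝒰 : Filter ℝ), u i ∈ K.M σ q) → x ∈ K.M p.1 q → y ∈ K.M p.2 q →
    x' ∈ K.M p'.1 q → y' ∈ K.M p'.2 q → K.Deg σ a p 𝒰 u x y → K.Deg σ a p' 𝒰 u x' y' → p = p'
  deg_uniq : ∀ σ ∈ K.𝒦, ∀ a ∈ K.wa σ, ∀ p ∈ K.sp σ a, ∀ (𝒰 : Ultrafilter ℝ) u q x y x' y',
    K.Adm q → (∀ᶠ i in (𝒰 : Filter ℝ), u i ∈ K.M σ q) → x ∈ K.M p.1 q → y ∈ K.M p.2 q →
    x' ∈ K.M p.1 q → y' ∈ K.M p.2 q → K.Deg σ a p 𝒰 u x y → K.Deg σ a p 𝒰 u x' y' →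
    (K.Q p.1).eqv x x' ∧ (K.Q p.2).eqv y y'
  gl_reg : ∀ σ ∈ K.𝒦, ∀ a ∈ K.wa σ, ∀ p ∈ K.sp σ a, ∀ q₀, K.G (K.rank σ) q₀ → ∀ x y, K.RS q₀ p.1 x →
    K.RS q₀ p.2 y → ∀ (ι : Type) (𝒰 : Ultrafilter ι) (q : ι → W →₀ ℝ) u,
    St.Cv (𝒰 : Filter ι) q q₀ → (∀ᶠ i in (𝒰 : Filter ι), K.Adm (q i) ∧ u i ∈ K.M σ (q i)) →
    K.Deg σ a p 𝒰 u x y → ∀ᶠ i in (𝒰 : Filter ι), K.Tr (q i) (u i) a
  gl_ex : ∀ σ ∈ K.𝒦, ∀ a ∈ K.wa σ, ∀ p ∈ K.sp σ a, ∀ q, K.G (K.rank σ) q → ∀ x y, K.RS q p.1 x →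
    K.RS q p.2 y → ∀ 𝒰 : Ultrafilter ℝ, (𝒰 : Filter ℝ) ≤ 𝓝[<] 1 → ∃ u,
      (∀ᶠ T in (𝒰 : Filter ℝ), u T ∈ K.M σ q ∧ K.pa (u T) a = T) ∧ K.Deg σ a p 𝒰 u x y
  gl_uniq : ∀ σ ∈ K.𝒦, ∀ a ∈ K.wa σ, ∀ p ∈ K.sp σ a, ∀ q, K.G (K.rank σ) q → ∀ x y, K.RS q p.1 x →
    K.RS q p.2 y → ∀ 𝒰 : Ultrafilter ℝ, (𝒰 : Filter ℝ) ≤ 𝓝[<] 1 → ∀ u u',
      (∀ᶠ T in (𝒰 : Filter ℝ), u T ∈ K.M σ q ∧ K.pa (u T) a = T) →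
      (∀ᶠ T in (𝒰 : Filter ℝ), u' T ∈ K.M σ q ∧ K.pa (u' T) a = T) →
      K.Deg σ a p 𝒰 u x y → K.Deg σ a p 𝒰 u' x y →
      ∀ᶠ T in (𝒰 : Filter ℝ), (K.Q σ).eqv (u T) (u' T)

/-- face objects -/
def Fc (σ : Cl) (a : A) : Type := Σ p : K.sp σ a, (K.Q p.1.1).X × (K.Q p.1.2).X

/-- equivalence of face objects -/
def feq (σ : Cl) (a : A) : Setoid (K.Fc σ a) where
  r y y' := ∃ p x₁ x₂ x₁' x₂', y = ⟨p, x₁, x₂⟩ ∧ y' = ⟨p, x₁', x₂'⟩ ∧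
    (K.Q _).eqv x₁ x₁' ∧ (K.Q _).eqv x₂ x₂'
  iseqv := by
    refine ⟨fun y => ⟨y.1, y.2.1, y.2.2, y.2.1, y.2.2, rfl, rfl, (K.Q _).eqv.refl _,
      (K.Q _).eqv.refl _⟩, ?_, ?_⟩
    · rintro _ _ ⟨p, a, b, c, d, rfl, rfl, h1, h2⟩
      exact ⟨p, c, d, a, b, rfl, rfl, (K.Q _).eqv.symm h1, (K.Q _).eqv.symm h2⟩
    · rintro _ _ _ ⟨p, a, b, c, d, rfl, rfl, h1, h2⟩ ⟨p', a', b', c', d', e, rfl, h3, h4⟩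
      cases e
      exact ⟨p, a, b, c', d', rfl, rfl, (K.Q _).eqv.trans h1 h3, (K.Q _).eqv.trans h2 h4⟩

/-- the stage of rank `r` -/
def st (r : ℕ) : Gsm W Cl A B where
  toGx := K.toGx
  Adm := K.Adm
  G := K.G r
  𝒦 := {σ | σ ∈ K.𝒦 ∧ K.rank σ ≤ r}
  Fc := K.Fc
  FSol q y := y.2.1 ∈ K.M _ q ∧ y.2.2 ∈ K.M _ q
  feq := K.feq
  Deg {σ a} _ 𝒰 u y := K.Deg σ a y.1.1 𝒰 u y.2.1 y.2.2

theorem st_GG (r : ℕ) : (K.st r).GG = K.G (r + 1) := by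
  funext q
  refine propext ⟨fun h => ⟨h.1.1, fun σ hσ hr => h.2 σ ⟨hσ, Nat.lt_succ_iff.1 hr⟩⟩,
    fun h => ⟨⟨h.1, fun σ hσ hr => h.2 σ hσ (hr.trans r.lt_succ_self)⟩,
      fun σ hσ => h.2 σ hσ.1 (Nat.lt_succ_iff.2 hσ.2)⟩⟩

/-- classes of face objects are pairs of classes -/
def fclEquiv (r : ℕ) (q : W →₀ ℝ) (σ : Cl) (a : A) : (K.st r).FCl q σ a ≃
    Σ p : K.sp σ a, (K.Q p.1.1).Cl (K.M p.1.1 q) × (K.Q p.1.2).Cl (K.M p.1.2 q) :=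
  Equiv.ofBijective (Quotient.lift (fun y => ⟨y.1.1, Quotient.mk _ ⟨y.1.2.1, y.2.1⟩,
      Quotient.mk _ ⟨y.1.2.2, y.2.2⟩⟩) (by
    rintro ⟨_, h⟩ ⟨_, h'⟩ ⟨p, a, b, c, d, rfl, rfl, h1, h2⟩
    exact congrArg (Sigma.mk p) (Prod.ext (Quotient.sound h1) (Quotient.sound h2)))) ⟨by
    intro m m'
    obtain ⟨⟨⟨p, a, b⟩, h⟩, rfl⟩ := Quotient.mk_surjective m
    obtain ⟨⟨⟨p', c, d⟩, h'⟩, rfl⟩ := Quotient.mk_surjective m'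
    intro e
    simp only [Quotient.lift_mk] at e
    obtain rfl : p = p' := congrArg Sigma.fst e
    have e' := eq_of_heq (Sigma.mk.inj e).2
    have e1 := Quotient.exact (congrArg Prod.fst e')
    have e2 := Quotient.exact (congrArg Prod.snd e')
    exact Quotient.sound ⟨p, a, b, c, d, rfl, rfl, e1, e2⟩, by
    rintro ⟨p, m, m'⟩
    obtain ⟨x, rfl⟩ := Quotient.mk_surjective m
    obtain ⟨y, rfl⟩ := Quotient.mk_surjective m'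
    exact ⟨Quotient.mk _ ⟨⟨p, x.1, y.1⟩, x.2, y.2⟩, rfl⟩⟩

variable {K} {σ : Cl} {q : W →₀ ℝ}

theorem G.mono {r s : ℕ} (h : K.G s q) (hr : r ≤ s) : K.G r q :=
  ⟨h.1, fun σ hσ h' => h.2 σ hσ (h'.trans_le hr)⟩

theorem GG.G (h : K.GG q) (r : ℕ) : K.G r q := ⟨h.1, fun σ hσ _ => h.2 σ hσ⟩

namespace Ax
variable (h : K.Ax)
include h

theorem step {r : ℕ} (low : Low.Ax ⟨K.Adm, K.G r⟩)
    (hf : ∀ σ ∈ K.𝒦, K.rank σ < r → (K.Q σ).n = 0 → ∀ q, K.G r q → Finite ((K.Q σ).Cl (K.M σ q))) :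
    (K.st r).Ax where
  fin := h.fin.subset fun _ hσ => hσ.1
  low := low
  cx σ hσ := h.cx σ hσ.1
  down σ hσ b hb := ⟨(h.down σ hσ.1 b hb).1, (h.down σ hσ.1 b hb).2.trans hσ.2⟩
  dens σ hσ := h.dens σ hσ.1
  comp σ hσ q₀ h0 ι 𝒰 q u hq hu := by
    rcases h.comp σ hσ.1 q₀ h0.1 ι 𝒰 q u hq hu with h1 | ⟨τ, h1, h2, h3, x, hx⟩ |
      ⟨a, ha, p, hp, x, hx, y, hy, h1⟩
    · exact .inl h1
    · rw [(h.cx τ h1).empty h0.1 h3 (h0.2 τ h1 (h2.trans_le hσ.2))] at hx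
      exact hx.elim
    · exact .inr ⟨a, ha, ⟨⟨p, hp⟩, x, y⟩, ⟨hx, hy⟩, h1⟩
  deg_one σ hσ a ha ι 𝒰 u y := h.deg_one σ hσ.1 a ha _ y.1.2 ι 𝒰 u _ _
  deg_lt σ hσ a ha ι 𝒰 u y := h.deg_lt σ hσ.1 a ha _ y.1.2 ι 𝒰 u _ _
  deg_congr σ hσ a ha 𝒰 u u' y := h.deg_congr σ hσ.1 a ha _ y.1.2 𝒰 u u' _ _
  deg_eqv σ hσ a ha q hq 𝒰 u := by
    rintro ⟨⟨p, hp⟩, x, y⟩ ⟨⟨p', hp'⟩, x', y'⟩ hu h1 h2 h3
    refine ⟨fun h4 => ?_, ?_⟩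
    · obtain rfl := h.deg_sp σ hσ.1 a ha p hp p' hp' 𝒰 u q x y x' y' hq.1 hu h1.1 h1.2 h2.1 h2.2 h3 h4
      have := h.deg_uniq σ hσ.1 a ha p hp 𝒰 u q x y x' y' hq.1 hu h1.1 h1.2 h2.1 h2.2 h3 h4
      exact ⟨_, x, y, x', y', rfl, rfl, this.1, this.2⟩
    · rintro ⟨p'', x₁, y₁, x₂, y₂, e, e', h4, h5⟩
      cases e
      cases e'
      exact h.deg_eqv σ hσ.1 a ha p hp 𝒰 u q _ _ _ _ hq.1 h1.1 h1.2 h4 h5 h3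
  nof σ hσ hn a ha q _ y _ := by
    have := (h.sp σ hσ.1 a ha _ y.1.2).1
    have hn' : (K.Q σ).n ≤ 0 := hn
    omega
  ffin σ hσ _ a ha q hq := by
    have : ∀ p : K.sp σ a, Finite ((K.Q p.1.1).Cl (K.M p.1.1 q) × (K.Q p.1.2).Cl (K.M p.1.2 q)) :=
      fun p => by
        obtain ⟨-, ⟨h1, h2, h3⟩, h4, h5, h6⟩ := h.sp σ hσ.1 a ha _ p.2
        have := hf _ h1 (h2.trans_le hσ.2) h3 q hq
        have := hf _ h4 (h5.trans_le hσ.2) h6 q hq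
        infer_instance
    exact Finite.of_equiv _ (K.fclEquiv r q σ a).symm
  gl_reg σ hσ a ha q₀ h0 ι 𝒰 q u y hq hu hy := by
    obtain ⟨-, ⟨h1, h2, -⟩, h4, h5, -⟩ := h.sp σ hσ.1 a ha _ y.1.2
    exact h.gl_reg σ hσ.1 a ha _ y.1.2 q₀ (G.mono h0 hσ.2) _ _ ⟨hy.1, h0.2 _ h1 (h2.trans_le hσ.2) _ hy.1⟩
      ⟨hy.2, h0.2 _ h4 (h5.trans_le hσ.2) _ hy.2⟩ ι 𝒰 q u hq hu
  gl_ex σ hσ a ha q h0 y hy := by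
    obtain ⟨-, ⟨h1, h2, -⟩, h4, h5, -⟩ := h.sp σ hσ.1 a ha _ y.1.2
    exact h.gl_ex σ hσ.1 a ha _ y.1.2 q (G.mono h0 hσ.2) _ _ ⟨hy.1, h0.2 _ h1 (h2.trans_le hσ.2) _ hy.1⟩
      ⟨hy.2, h0.2 _ h4 (h5.trans_le hσ.2) _ hy.2⟩
  gl_uniq σ hσ a ha q h0 y hy := by
    obtain ⟨-, ⟨h1, h2, -⟩, h4, h5, -⟩ := h.sp σ hσ.1 a ha _ y.1.2
    exact h.gl_uniq σ hσ.1 a ha _ y.1.2 q (G.mono h0 hσ.2) _ _ ⟨hy.1, h0.2 _ h1 (h2.trans_le hσ.2) _ hy.1⟩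
      ⟨hy.2, h0.2 _ h4 (h5.trans_le hσ.2) _ hy.2⟩

theorem st (r : ℕ) : (K.st r).Ax := by
  induction r with
  | zero =>
    have e : K.G 0 = K.Adm := funext fun q => propext ⟨fun h => h.1, fun h => ⟨h, by simp⟩⟩
    exact h.step (by
      rw [e]; exact ⟨fun _ hq => hq, h.adm, fun _ _ q₀ h1 h2 => ⟨q₀, h2, h1⟩⟩) (by simp)
  | succ r ih =>
    refine h.step (by rw [← st_GG]; exact ih.gg) fun σ hσ hr hn q hq => ?_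
    exact ih.finite (by rw [st_GG]; exact hq) ⟨hσ, Nat.lt_succ_iff.1 hr⟩ hn

theorem exists_top : ∃ r, K.G (r + 1) = K.GG := by
  obtain ⟨r, hr⟩ := (h.fin.image K.rank).bddAbove
  exact ⟨r, funext fun q => propext ⟨fun hq => ⟨hq.1, fun σ hσ =>
    hq.2 σ hσ (Nat.lt_succ_iff.2 (hr ⟨σ, hσ, rfl⟩))⟩, fun hq => hq.G _⟩⟩

/-- **The good perturbations are open and dense.** -/
theorem gg : Low.Ax ⟨K.Adm, K.GG⟩ := by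
  obtain ⟨r, hr⟩ := h.exists_top
  rw [← hr, ← st_GG]
  exact (h.st r).gg

omit h in
theorem st_gg (hq : K.GG q) (r : ℕ) : (K.st r).GG q := by
  rw [st_GG]; exact hq.G _

/-- negative index -/
theorem empty (hq : K.GG q) (hσ : σ ∈ K.𝒦) (hn : (K.Q σ).n < 0) : K.M σ q = ∅ :=
  (h.st (K.rank σ)).empty (st_gg hq _) ⟨hσ, le_rfl⟩ hn

theorem cpt (hq : K.GG q) (hσ : σ ∈ K.𝒦) (hn : (K.Q σ).n ≤ 0) : (K.Q σ).Cpt (K.M σ q) :=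
  (h.st (K.rank σ)).cpt (hq.G _) ⟨hσ, le_rfl⟩ hn

/-- index zero -/
theorem finite (hq : K.GG q) (hσ : σ ∈ K.𝒦) (hn : (K.Q σ).n = 0) :
    Finite ((K.Q σ).Cl (K.M σ q)) :=
  (h.st (K.rank σ)).finite (st_gg hq _) ⟨hσ, le_rfl⟩ hn

/-- **Stokes.** -/
theorem stokes (hq : K.GG q) (hσ : σ ∈ K.𝒦) (hn : (K.Q σ).n = 1) :
    Even (∑ b ∈ K.wb σ, K.z q (K.fc σ b) +
      ∑ a ∈ K.wa σ, ∑ p ∈ K.sp σ a, K.z q p.1 * K.z q p.2) := by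
  have h1 := (h.st (K.rank σ)).stokes (st_gg hq _) ⟨hσ, le_rfl⟩ hn
  have h2 : ∀ a ∈ K.wa σ, (K.st (K.rank σ)).zf q σ a = ∑ p ∈ K.sp σ a, K.z q p.1 * K.z q p.2 :=
    fun a ha => by
      have : ∀ p : K.sp σ a, Finite ((K.Q p.1.1).Cl (K.M p.1.1 q) × (K.Q p.1.2).Cl (K.M p.1.2 q)) :=
        fun p => by
          obtain ⟨-, ⟨h1, -, h3⟩, h4, -, h6⟩ := h.sp σ hσ a ha _ p.2
          have := h.finite hq h1 h3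
          have := h.finite hq h4 h6
          infer_instance
      rw [Gsm.zf, Nat.card_congr (K.fclEquiv _ q σ a), Nat.card_sigma,
        ← Finset.sum_coe_sort (K.sp σ a)]
      exact Finset.sum_congr rfl fun p _ => Nat.card_prod _ _
  rw [← Finset.sum_congr rfl h2]
  exact h1

end Ax
end Flo

/-- index bookkeeping for a broken limit with at least two components -/
theorem chain_cases {l : List ℤ} {n : ℤ} (h2 : 2 ≤ l.length) (hn : n ≤ 1)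
    (hs : l.sum + (l.length - 1) = n) : (∃ k ∈ l, k < 0) ∨ (n = 1 ∧ l = [0, 0]) := by
  by_cases h : ∃ k ∈ l, k < 0
  · exact .inl h
  · push Not at h
    have h0 := List.sum_nonneg h
    match l, h2 with
    | [a, b], _ =>
      have := h a (by simp)
      have := h b (by simp)
      simp only [List.sum_cons, List.sum_nil, List.length_cons, List.length_nil] at hs
      push_cast at hs
      obtain rfl : a = 0 := by omega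
      obtain rfl : b = 0 := by omega
      exact .inr ⟨by omega, rfl⟩
    | a :: b :: c :: l, _ =>
      simp only [List.length_cons] at hs
      push_cast at hs
      omega

end Crest.Agent.X212.Flo2
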