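import Crest.Agent.X212.Flo2.Gm
import Crest.Agent.X212.Sw.Wld

/-!
# Row 212, layer AN-S (helper2): levels

A level is a radial mass `μ`, a scale `w`, and sets of levels on finitely many types of necks.
`Gc.cel` : the cell of a level-free family at a level.  `Ev` : for `μ` large, then `w` small.
The statements of the lanes.
-/

set_option autoImplicit false
set_option linter.unusedSectionVars false
noncomputable section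
open scoped Manifold ContDiff Topology InnerProductSpace
open MeasureTheory Set Function Filter

namespace Crest.Agent.X212.Flo2
open An Cyf70 Sw
open Nd18 (Jv)
open M (Mf)

variable {κ lam ν : Type} [Fintype κ] [Fintype lam] [Fintype ν] [DecidableEq ν]

/-- the radial mass -/
def bm (μ r : ℝ) : ℝ := μ * (expNegInvGlue (1 - r) / expNegInvGlue 1)

/-- level data -/
structure Lv (𝓔 : Type) : Type where
  μ : ℝ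
  w : ℝ
  S : 𝓔 → Set ℝ
  ψ : 𝓔 → ℝ → ℝ

variable {𝓔 : Type} [Fintype 𝓔] (ty : 𝓔 → Ty κ lam ν) (Sl : Type) [Fintype Sl]

/-- the cross-sections of a level -/
abbrev Lv.e (l : Lv 𝓔) (ε : 𝓔) : En3 κ lam ν := (ty ε).en.re l.w (bm l.μ) (l.S ε) (l.ψ ε)

/-- terms on the necks -/
abbrev Lv.YT (l : Lv 𝓔) (W : Type) : Type := W → ∀ ε, Option (l.e ty ε).YT

/-- the data of a level -/
abbrev Lv.dt (l : Lv 𝓔) {W : Type} (yt : l.YT ty W) : Dt κ lam ν := ⟨𝓔, l.e ty, W, yt⟩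

/-- generators; the representatives are their lifts -/
structure Lv.Cx (l : Lv 𝓔) : Type 1 where
  g : ∀ ε, (l.e ty ε).Gen
  ok : ∀ ε, (g ε).OK
  rs : ∀ ε, En3.Rs (range fun p : ℤ × (g ε).ι =>
    En3.YC.act (e := l.e ty ε) (fun y => (ty ε).1.u y ^ p.1) ((g ε).x p.2))
  inj : ∀ ε, (ty ε).1.kd = .tor → Injective fun p : ℤ × (g ε).ι =>
    En3.YC.act (e := l.e ty ε) (fun y => (ty ε).1.u y ^ p.1) ((g ε).x p.2)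
  w0 : 0 < l.w
  /-- normalised representatives -/
  hb : ∀ ε i, |En3.hol ((g ε).x i)| ≤ |En3.hol (En3.YC.act (e := l.e ty ε) (ty ε).1.u ⟨0, 0⟩)|

variable {ty} in
/-- the lift `n` of the generator `i` -/
def Lv.Cx.lf {l : Lv 𝓔} (Γ : l.Cx ty) (ε : 𝓔) (n : ℤ) (i : (Γ.g ε).ι) : (l.e ty ε).YC :=
  En3.YC.act (fun y => (ty ε).1.u y ^ n) ((Γ.g ε).x i)

variable {ty} in
/-- all lifts -/
def Lv.Cx.V {l : Lv 𝓔} (Γ : l.Cx ty) (ε : 𝓔) : Set (l.e ty ε).YC :=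
  range fun p : ℤ × (Γ.g ε).ι => Γ.lf ε p.1 p.2

variable {ty} in
/-- the context in the sense of `Sw` -/
def Lv.Cx.ctx {l : Lv 𝓔} (Γ : l.Cx ty) {W : Type} (yt : l.YT ty W) : Ctx (l.dt ty yt) :=
  ⟨Γ.g, Γ.ok, Γ.V, Γ.rs⟩

/-- for `μ` large, then `w` small -/
def Ev (p : ∀ l : Lv 𝓔, l.Cx ty → Prop) : Prop := ∃ μ₀ : ℝ, ∀ μ ≥ μ₀, ∃ w₀ > 0, ∀ l : Lv 𝓔,
  l.μ = μ → l.w ≤ w₀ → ∀ Γ, p l Γ

/-- a placement of the necks in slots -/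
structure Plc (g : Gc κ lam ν) : Type where
  ι : g.N → 𝓔 × Sl
  inj : Injective ι
  ty : ∀ i, ty (ι i).1 = g.ty i

variable {ty Sl}

/-- a neck of an equal type -/
def rt {X : Mf 4} {nc : ℕ} {b : Bg X.I X.M κ lam ν nc} {ε ε' : Ty κ lam ν} (h : ε = ε')
    (K : Nk ε.en b) : Nk ε'.en b := h ▸ K

open Classical in
/-- the same piece with the necks in slots -/
def Plc.rix {g : Gc κ lam ν} (p : Plc ty Sl g) {nc : ℕ} (P : Pz g.X nc fun i => (g.ty i).en) :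
    Pz g.X nc fun j : 𝓔 × Sl => (ty j.1).en :=
  ⟨P.bg, fun j => if h : ∃ i, p.ι i = j then (P.nk h.choose).map
    (rt ((p.ty _).symm.trans (congrArg (fun j : 𝓔 × Sl => ty j.1) h.choose_spec))) else none⟩

/-- the piece at a level -/
abbrev Plc.lev {g : Gc κ lam ν} (p : Plc ty Sl g) (l : Lv 𝓔) {nc : ℕ}
    (P : Pz g.X nc fun i => (g.ty i).en) : Pz g.X nc fun j : 𝓔 × Sl => l.e ty j.1 :=
  (p.rix P).re l.w (fun _ => bm l.μ) (fun j => l.S j.1) fun j => l.ψ j.1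

/-- terms of compact support on a family -/
structure Tm (g : Gc κ lam ν) (W : Type) : Type where
  fo : W → Tk g.k → g.X.M → F2 κ
  η : W → Tk g.k → Fin g.nc → R4 → Eu ν

/-- smooth families of terms -/
structure Tm.OK {g : Gc κ lam ν} {W : Type} (τ : Tm g W) : Prop where
  sf : ∀ w t, τ.fo w t ∈ Sec g.X.I (g.P t).bg.p2
  sb : ∀ w, Prm93.SB g.s.bg.F.toPre univ (τ.fo w)
  cf : ∀ w, ∃ r, ∀ t, ∀ x ∉ g.s.core r, τ.fo w t x = 0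
  nk : ∀ w c, ∀ i ∈ g.wl c, ∃ r, ∀ t, ∀ K ∈ (g.P t).nk i, ∀ x ∈ univ ×ˢ K.deep r, τ.fo w t (K.ψ x) = 0
  η : ∀ w t j, (g.P t).bg.Tst ((g.P t).bg.ct j).Ξ (τ.η w t j)
  jc : ∀ w j, JC univ fun t => τ.η w t j
  bd : ∀ w, ∃ s, ∀ t, (g.P t).bg.F.CB 6 (τ.fo w t) s ∧ (g.P t).bg.F.nrm 0 (τ.fo w t) ≤ s ∧
    ∀ j, ∫ y, ‖τ.η w t j y‖ ∂leb R4 ≤ s

/-- all forms and all test spinors are terms -/
def Tm.Rich {g : Gc κ lam ν} {W : Type} (τ : Tm g W) : Prop := ∀ t ∈ g.dom,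
  (∀ f ∈ Sec g.X.I (g.P t).bg.p2, ∃ w, τ.fo w t = f ∧ τ.η w t = 0) ∧
    ∀ j η, (g.P t).bg.Tst ((g.P t).bg.ct j).Ξ η → ∃ w, τ.fo w t = 0 ∧ τ.η w t = Pi.single j η

/-- other indices of the terms -/
def Tm.map {g : Gc κ lam ν} {W W' : Type} (τ : Tm g W) (f : W' → W) : Tm g W' :=
  ⟨fun w => τ.fo (f w), fun w => τ.η (f w)⟩

/-- the terms `(fo, η)` and `(fo', η')` correspond -/
def TI0 {X X' : Mf 4} {nc : ℕ} (b : Bg X.I X.M κ lam ν nc) (φ : X.M → X'.M)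
    (U : X.M → Option κ → Option κ → ℝ) (u : X.M → En ν) (α : Option κ → X.M → ℝ)
    (fo : X.M → F2 κ) (η : Fin nc → R4 → Eu ν) (fo' : X'.M → F2 κ) (η' : Fin nc → R4 → Eu ν) :
    Prop := (∀ x s, fo' (φ x) s = ∑ a, ∑ a', U x s.1 a * U x s.2 a' * fo x (a, a')) ∧
      ∀ j, b.TI u α j (η j) (η' j)

/-- `Gc.Fc` with terms -/
def Gc.FcT (g g' : Gc κ lam ν) (D : Set (Tk g.k)) (ι : Fin g'.k → Fin g.k)
    (φ : OpenPartialHomeomorph g'.X.M g.X.M) (n : ℤ) {W : Type} (τ : Tm g W) (τ' : Tm g' W) : Prop :=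
  ∃ (h : g.nc = g'.nc) (r : g'.N → g.N → Prop), (∀ i i', r i i' → g'.ty i = g.ty i') ∧
    Option.Rel r g'.pin g.pin ∧ Option.Rel r g'.pout g.pout ∧ Option.Rel r g'.p3 g.p3 ∧
    ∀ t ∈ D, ∃ γ U u α, (∀ i, g'.s.nk i ≠ none → γ i = g'.gau g'.pin (-n) i) ∧
      BIso (en := Ty.en) (ty := g'.ty) (ty' := g.ty) (g'.P (t ∘ ι)) (h ▸ g.P t) φ r γ U u α ∧
      ∀ w, TI0 (g'.P (t ∘ ι)).bg φ U u α (τ'.fo w (t ∘ ι)) (τ'.η w (t ∘ ι)) (τ.fo w t)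
        fun j => τ.η w t (j.cast h.symm)

/-- extension by zero -/
def psh {M M' V : Type} [TopologicalSpace M] [TopologicalSpace M'] [Zero V]
    (φ : OpenPartialHomeomorph M M') (f : M → V) : M' → V := φ.target.indicator (f ∘ φ.symm)

/-- `Gc.Wl` with terms -/
structure Gc.WlT (g g₁ g₂ : Gc κ lam ν) (c : Fin g.k) (i : g.N) (cap : Bool)
    (ι₁ : Fin g₁.k → Fin g.k) (ι₂ : Fin g₂.k → Fin g.k) (l : ℝ → OpenPartialHomeomorph g₁.X.M g.X.M)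
    (r : ℝ → OpenPartialHomeomorph g₂.X.M g.X.M) {W : Type} (τ : Tm g W) (τ₁ : Tm g₁ W)
    (τ₂ : Tm g₂ W) : Prop where
  bij : Bijective (Sum.elim (Sum.elim ι₁ ι₂) fun _ : Unit => c)
  spl : ∃ j₁ ∈ (bif cap then g₁.p3 else g₁.pout), ∃ j₂ ∈ g₂.pin,
    ∃ (r₁ : g₁.N → g.N → Prop) (r₂ : g₂.N → g.N → Prop) (e : Fin g₁.nc ⊕ Fin g₂.nc ≃ Fin g.nc),
    g₁.ty j₁ = g.ty i ∧ g₂.ty j₂ = g.ty i ∧ (∀ j i', r₁ j i' → g₁.ty j = g.ty i') ∧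
    (∀ j i', r₂ j i' → g₂.ty j = g.ty i') ∧
    (∀ c', (g₁.wl c' = none ∧ g.wl (ι₁ c') = none) ∨ ∃ j ∈ g₁.wl c', ∃ i' ∈ g.wl (ι₁ c'), r₁ j i') ∧
    (∀ c', (g₂.wl c' = none ∧ g.wl (ι₂ c') = none) ∨ ∃ j ∈ g₂.wl c', ∃ i' ∈ g.wl (ι₂ c'), r₂ j i') ∧
    Option.Rel r₁ g₁.pin g.pin ∧ g₂.p3 = none ∧ g.p3 = none ∧
    (bif cap then Option.Rel r₁ g₁.pout g.pout ∧ g₂.pout = none
      else Option.Rel r₂ g₂.pout g.pout ∧ g₁.p3 = none ∧ (g.en i).kd = .qhs) ∧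
    (∃ δ : ℝ → ℝ × ℝ, ∀ t, 3 ≤ t c → Sp2 (en := Ty.en) (ty := g.ty) (ty₁ := g₁.ty) (ty₂ := g₂.ty)
      (g.P t) i (g₁.P (t ∘ ι₁)) j₁ (g₂.P (t ∘ ι₂)) j₂ (l (t c)) (r (t c)) (δ (t c)) r₁ r₂ e) ∧
    ∀ w, ∃ T, ∀ t, T ≤ t c →
      τ.fo w t = psh (l (t c)) (τ₁.fo w (t ∘ ι₁)) + psh (r (t c)) (τ₂.fo w (t ∘ ι₂)) ∧
        (∀ j, τ.η w t (e (.inl j)) = τ₁.η w (t ∘ ι₁) j) ∧ ∀ j, τ.η w t (e (.inr j)) = τ₂.η w (t ∘ ι₂) j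

variable (κ lam ν) in
/-- nodes -/
abbrev Nod : Type 1 := Σ g : Gc κ lam ν, Tr g

/-- a set of nodes that is closed under faces -/
def Cld (𝒦 : Set (Nod κ lam ν)) : Prop := ∀ x ∈ 𝒦, ∀ c, ⟨_, x.2.f0 c⟩ ∈ 𝒦 ∧ ⟨_, x.2.f1 c⟩ ∈ 𝒦 ∧
  (x.1.wl c ≠ none → ⟨_, x.2.f2 c⟩ ∈ 𝒦)

/-- consistent terms on the nodes `𝒦`; `τ2` are the terms on the literal caps -/
structure TS (𝒦 : Set (Nod κ lam ν)) : Type 1 where
  W : Type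
  [ne : Nonempty W]
  τ : ∀ x : Nod κ lam ν, Tm x.1 W
  τ2 : ∀ (x : Nod κ lam ν) c, Tm (x.2.nd.g2' c) W
  ok : ∀ x ∈ 𝒦, (τ x).OK ∧ (τ x).Rich
  f0 : ∀ x ∈ 𝒦, ∀ c, x.1.FcT _ {t ∈ x.1.dom | t c = 0} (x.2.nd.ι0 c) (x.2.nd.φ0 c) (x.2.nd.n0 c)
    (τ x) (τ ⟨_, x.2.f0 c⟩)
  f1 : ∀ x ∈ 𝒦, ∀ c, x.1.wl c = none → x.1.FcT _ {t ∈ x.1.dom | t c = 1} (x.2.nd.ι1 c)
    (x.2.nd.l c 3) (x.2.nd.n1 c) (τ x) (τ ⟨_, x.2.f1 c⟩)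
  nk : ∀ x ∈ 𝒦, ∀ c, ∀ i ∈ x.1.wl c, x.2.nd.cap c = false → x.1.WlT _ _ c i false (x.2.nd.ι1 c)
    (x.2.nd.ι2 c ∘ x.2.nd.ι3 c) (x.2.nd.l c) (fun v => (x.2.nd.φ2 c).trans (x.2.nd.r c v))
    (τ x) (τ ⟨_, x.2.f1 c⟩) (τ ⟨_, x.2.f2 c⟩)
  cp : ∀ x ∈ 𝒦, ∀ c, ∀ i ∈ x.1.wl c, x.2.nd.cap c = true → (τ2 x c).OK ∧ (τ2 x c).Rich ∧
    x.1.WlT _ _ c i true (x.2.nd.ι1 c) (x.2.nd.ι2 c) (x.2.nd.l c) (x.2.nd.r c)
      (τ x) (τ ⟨_, x.2.f1 c⟩) (τ2 x c) ∧ ∀ n, n = x.2.nd.n1 c ∨ x.2.nd.fx c = true →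
      (x.2.nd.g2' c).FcT _ (x.2.nd.g2' c).dom (x.2.nd.ι3 c) (x.2.nd.φ2 c) n (τ2 x c) (τ ⟨_, x.2.f2 c⟩)

namespace Plc
variable {g : Gc κ lam ν} (p : Plc ty Sl g) (l : Lv 𝓔) {W : Type} (yt : l.YT ty W) (τ : Tm g W)

/-- the site -/
abbrev site : StS (l.dt ty yt) Sl g.X := p.lev l g.s

/-- the family at a level -/
def fam : Fam (d := l.dt ty yt) (ty := Prod.fst) (p.site l yt) g.nc (Tk g.k) :=
  ⟨fun t => ⟨p.lev l (g.P t), fun w => τ.fo w t, fun w => τ.η w t⟩, univ, g.𝓕.S, g.𝓕.Si⟩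

/-- limits -/
abbrev BC : Type := BCs fun j : 𝓔 × Sl => l.e ty j.1

/-- the cell at a level -/
def cel (β : BC (ty := ty) (Sl := Sl) l) :
    Cel (d := l.dt ty yt) (ty := Prod.fst) (p.site l yt) g.nc 0 (Tk g.k) :=
  ⟨p.fam l yt τ, β, fun _ _ => Fin.elim0⟩

variable {l} in
/-- the limits are lifts of generators -/
def InV (Γ : l.Cx ty) (β : BC (ty := ty) (Sl := Sl) l) : Prop :=
  ∀ i s, g.s.Inf i s → β (p.ι i) s ∈ Γ.V (p.ι i).1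

/-- the solutions over the cube -/
def M (β : BC (ty := ty) (Sl := Sl) l) (q : W →₀ ℝ) : Set (p.cel l yt τ β).Pnt :=
  {y | (p.cel l yt τ β).Sol q y ∧ y.1.1 ∈ g.dom}

/-- exactly one class -/
def One (β : BC (ty := ty) (Sl := Sl) l) (q : W →₀ ℝ) : Prop :=
  ∃ y ∈ p.M l yt τ β q, ∀ y' ∈ p.M l yt τ β q, (p.cel l yt τ β).Eqv y y'

/-- the number of classes -/
def zc (β : BC (ty := ty) (Sl := Sl) l) (q : W →₀ ℝ) : ℕ :=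
  Nat.card (Quot fun y y' : p.M l yt τ β q => (p.cel l yt τ β).Eqv y.1 y'.1)

/-- the limit at a port, acted on by `u ^ n` -/
def pv (β : BC (ty := ty) (Sl := Sl) l) (o : Option g.N) (s : Bool) (n : ℤ) :
    Option (Σ ε, (l.e ty ε).YC) :=
  o.map fun i => ⟨(p.ι i).1, En3.YC.act (fun y => (ty _).1.u y ^ n) (β (p.ι i) s)⟩

end Plc

variable (κ lam ν) in
/-- gradings and degrees -/
structure Gr : Type 1 where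
  gr : ∀ (ε : Ty κ lam ν) (w : ℝ) (b : ℝ → ℝ) (S : Set ℝ) (ψ : ℝ → ℝ), (ε.en.re w b S ψ).YC → ℚ
  dg : Gc κ lam ν → ℚ

variable (G : Gr κ lam ν)

/-- the degree of a critical point -/
abbrev Gr.d (l : Lv 𝓔) (ε : 𝓔) (v : (l.e ty ε).YC) : ℚ := G.gr (ty ε) _ _ _ _ v

/-- the degree of the limit at a port -/
def Plc.dp {g : Gc κ lam ν} (p : Plc ty Sl g) (l : Lv 𝓔) (β : Plc.BC (ty := ty) (Sl := Sl) l)
    (o : Option g.N) (s : Bool) : ℚ := o.elim 0 fun i => G.d l (p.ι i).1 (β (p.ι i) s)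

variable (mk : Mk κ lam ν)

/-- good families -/
def Gc.Gd (g : Gc κ lam ν) : Prop := g.OK ∧ ∀ i, (g.en i).OK mk

/-- a statement about small perturbations of the cells of `g`, for `μ` large and `w` small -/
def Gc.Ev (g : Gc κ lam ν)
    (Q : ∀ {𝓔 : Type} [Fintype 𝓔] {ty : 𝓔 → Ty κ lam ν} {Sl : Type} [Fintype Sl] (_ : Plc ty Sl g)
      (l : Lv 𝓔) (_ : l.Cx ty) {W : Type} (_ : l.YT ty W) (_ : Tm g W) (_ : W →₀ ℝ), Prop) : Prop :=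
  ∀ (𝓔 : Type) [Fintype 𝓔] (ty : 𝓔 → Ty κ lam ν) (Sl : Type) [Fintype Sl] (p : Plc ty Sl g),
    (∀ ε, (ty ε).1.OK mk) → Flo2.Ev ty fun l Γ => ∃ η > 0, ∀ (W : Type) (yt : l.YT ty W) (τ : Tm g W),
      τ.OK → ∀ q, (∀ t, ((p.fam l yt τ).P t).Small 6 η q) → Q p l Γ yt τ q

/-- the same with weights that depend on the terms -/
def Gc.EvW (g : Gc κ lam ν)
    (Q : ∀ {𝓔 : Type} [Fintype 𝓔] {ty : 𝓔 → Ty κ lam ν} {Sl : Type} [Fintype Sl] (_ : Plc ty Sl g)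
      (l : Lv 𝓔) (_ : l.Cx ty) {W : Type} (_ : l.YT ty W) (_ : Tm g W) (_ : W →₀ ℝ), Prop) : Prop :=
  ∀ (𝓔 : Type) [Fintype 𝓔] (ty : 𝓔 → Ty κ lam ν) (Sl : Type) [Fintype Sl] (p : Plc ty Sl g),
    (∀ ε, (ty ε).1.OK mk) → Flo2.Ev ty fun l Γ => ∀ (W : Type) (yt : l.YT ty W) (τ : Tm g W),
      τ.OK → ∃ s : W → ℝ, ∀ q : W →₀ ℝ, (q.sum fun w r => |r| * s w) < 1 → Q p l Γ yt τ q

/-! ### gluing the formats (LEV) -/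

variable (κ lam ν) in
/-- LEV-OK: the family at a level is a family -/
def LevStmt : Prop := ∀ (g : Gc κ lam ν), g.OK → ∀ (𝓔 : Type) [Fintype 𝓔] (ty : 𝓔 → Ty κ lam ν)
  (Sl : Type) [Fintype Sl] (p : Plc ty Sl g) (l : Lv 𝓔) (W : Type) (yt : l.YT ty W) (τ : Tm g W),
  (∀ ε, (l.e ty ε).OK) → 0 < l.w → τ.OK → (p.fam l yt τ).OK

/-- EXT: consistent terms exist -/
def ExtStmt : Prop := ∀ 𝒦 : Set (Nod κ lam ν), 𝒦.Finite → Cld 𝒦 → (∀ x ∈ 𝒦, x.2.WF mk) →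
  Nonempty (TS 𝒦)

section nat
variable (d : Dt κ lam ν) [Fintype d.𝓔] (Sl : Type) [Fintype Sl]

variable {d Sl} in
/-- the limits correspond -/
def BcI {X : Mf 4} {nc : ℕ} (P : Pz X nc fun i : d.𝓔 × Sl => d.e i.1)
    (r : d.𝓔 × Sl → d.𝓔 × Sl → Prop) (γ : ∀ i : d.𝓔 × Sl, (d.e i.1).Y.M → ℂ)
    (β β' : BCs fun i : d.𝓔 × Sl => d.e i.1) : Prop :=
  ∀ ε s s' b, r (ε, s) (ε, s') → P.Inf (ε, s) b → β' (ε, s') b = (β (ε, s) b).act (γ (ε, s))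

variable {d Sl} in
/-- the same solutions -/
def SameS {X X' : Mf 4} {nc nc' : ℕ} (P : PcS d Sl X nc) (P' : PcS d Sl X' nc') (β β' : Sw.BC d Sl) :
    Prop := ∃ e : {c // P.As β c} ≃ {c // P'.As β' c},
  (∀ q c, P.Sol β q c.1 ↔ P'.Sol β' q (e c).1) ∧ ∀ c c', P.Eqv c.1 c'.1 ↔ P'.Eqv (e c).1 (e c').1

/-- NAT: isomorphic pieces have the same solutions -/
def NatStmt : Prop := ∀ (X X' : Mf 4) (nc : ℕ) (P : PcS d Sl X nc) (P' : PcS d Sl X' nc), P.OK → P'.OK →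
  ∀ φ r γ U u α, BIso (en := d.e) (ty := Prod.fst) (ty' := Prod.fst) P.toPz P'.toPz φ r γ U u α →
    (∀ i i', r i i' → i.1 = i'.1) → (∀ w, TI0 P.bg φ U u α (P.fo w) (P.η w) (P'.fo w) (P'.η w)) →
    ∀ β β', P.Cr β → BcI P.toPz r γ β β' → SameS P P' β β'

end nat

variable (κ lam ν) in
/-- LEV-FC: faces and their models have the same solutions (from NAT) -/
def FcStmt : Prop := ∀ (g g' : Gc κ lam ν) D ι φ n (W : Type) (τ : Tm g W) (τ' : Tm g' W), g.OK →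
  g'.OK → τ.OK → τ'.OK → g.FcT g' D ι φ n τ τ' → ∀ (𝓔 : Type) [Fintype 𝓔] (ty : 𝓔 → Ty κ lam ν)
  (Sl : Type) [Fintype Sl] (p : Plc ty Sl g) (p' : Plc ty Sl g') (l : Lv 𝓔) (yt : l.YT ty W),
  Injective ty → (∀ ε, Gau (ty ε).1.Y.I (ty ε).1.u) → (∀ ε, (l.e ty ε).OK) → 0 < l.w →
  ∀ β β', (p'.site l yt).Cr β' → p'.pv l β' g'.pin false 0 = p.pv l β g.pin false n →
    p'.pv l β' g'.pout true 0 = p.pv l β g.pout true 0 →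
    p'.pv l β' g'.p3 true 0 = p.pv l β g.p3 true 0 → ∀ t ∈ D,
    SameS (d := l.dt ty yt) ((p'.fam l yt τ').P (t ∘ ι)) ((p.fam l yt τ).P t) β' β

variable (κ lam ν) in
/-- LEV-WL: the splitting at a wall -/
def WlStmt : Prop := ∀ (g g₁ g₂ : Gc κ lam ν) c i cap ι₁ ι₂ lf r (W : Type) (τ : Tm g W) (τ₁ : Tm g₁ W)
  (τ₂ : Tm g₂ W), g.OK → g₁.OK → g₂.OK → τ₁.OK → τ₂.OK → g.wl c = some i →
  g.WlT g₁ g₂ c i cap ι₁ ι₂ lf r τ τ₁ τ₂ →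
  ∀ (𝓔 : Type) [Fintype 𝓔] (ty : 𝓔 → Ty κ lam ν) (Sl : Type) [Fintype Sl] (p : Plc ty Sl g)
  (p₁ : Plc ty Sl g₁) (p₂ : Plc ty Sl g₂) (l : Lv 𝓔) (yt : l.YT ty W), Injective ty →
  ∃ s : Spl g.X g₁.X g₂.X g.nc g₁.nc g₂.nc (l.dt ty yt) Sl (Tk g.k) (Tk g₁.k) (Tk g₂.k),
    (s.ε, s.a) = p.ι i ∧ s.o = none ∧
    (∃ j ∈ (bif cap then g₁.p3 else g₁.pout), p₁.ι j = (s.ε, s.aL)) ∧
    (∃ j ∈ g₂.pin, p₂.ι j = (s.ε, s.aR)) ∧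
    (∃ a, ∀ x, s.j x ∘ ι₁ = x.1 ∧ s.j x ∘ ι₂ = x.2.1 ∧ s.j x c = x.2.2 + a) ∧
    (∀ j ∈ g.pin, s.side (p.ι j) = false ∧ ∃ j' ∈ g₁.pin, p₁.ι j' = ((p.ι j).1, s.π (p.ι j))) ∧
    (∀ j ∈ g.pout, s.side (p.ι j) = !cap ∧ bif cap then
      ∃ j' ∈ g₁.pout, p₁.ι j' = ((p.ι j).1, s.π (p.ι j))
      else ∃ j' ∈ g₂.pout, p₂.ι j' = ((p.ι j).1, s.π (p.ι j))) ∧
    (∀ c', ∀ j ∈ g₁.wl c', ∃ j' ∈ g.wl (ι₁ c'), s.side (p.ι j') = false ∧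
      p₁.ι j = ((p.ι j').1, s.π (p.ι j'))) ∧
    (∀ c', ∀ j ∈ g₂.wl c', ∃ j' ∈ g.wl (ι₂ c'), s.side (p.ι j') = true ∧
      p₂.ι j = ((p.ι j').1, s.π (p.ι j'))) ∧
    ∀ β β₁ β₂, (p.cel l yt τ β).OK → (p₁.cel l yt τ₁ β₁).OK → (p₂.cel l yt τ₂ β₂).OK →
      β₁ (s.ε, s.aL) true = β₂ (s.ε, s.aR) false → (∀ j b, j ≠ (s.ε, s.a) → (p.site l yt).Inf j b →
        β j b = if s.side j then β₂ (j.1, s.π j) b else β₁ (j.1, s.π j) b) →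
      s.OK (p.cel l yt τ β) (p₁.cel l yt τ₁ β₁) (p₂.cel l yt τ₂ β₂)

/-! ### the lanes -/

/-- END-EX: levels exist -/
def ExStmt : Prop := ∀ ε : Ty κ lam ν, ε.1.OK mk → ∃ B : Set ℝ, B.Countable ∧ ∀ μ > 0, μ ∉ B →
  ∃ w₀ > 0, ∀ w ∈ Ioc 0 w₀, ∃ l : Lv Unit, l.μ = μ ∧ l.w = w ∧ Nonempty (l.Cx fun _ => ε)

/-- END-TOW: the generators of one type -/
structure Tow (ε : Ty κ lam ν) (w₀ : ℚ) (N : ℕ) : Prop where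
  lat : Ev (fun _ : Unit => ε) fun l Γ => ∀ i, ∃ k : ℕ, G.d l () ((Γ.g ()).x i) = w₀ + k
  lf : Ev (fun _ : Unit => ε) fun l Γ => ∀ n i, G.d l () (Γ.lf () n i) = G.d l () ((Γ.g ()).x i)
  bd : ∃ B : ℕ, Ev (fun _ : Unit => ε) fun l Γ => ∀ x,
    {i | G.d l () ((Γ.g ()).x i) = x}.ncard ≤ B
  ev : ε.1.kd = .qhs → ∀ k : ℕ, N ≤ k → Ev (fun _ : Unit => ε) fun l Γ =>
    (Even k → ∃! i, G.d l () ((Γ.g ()).x i) = w₀ + k) ∧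
      (Odd k → ∀ i, G.d l () ((Γ.g ()).x i) ≠ w₀ + k)
  psc : ε.1.kd = .qhs → mk.psc ε.1 → N = 0
  sph : ε.1.kd = .qhs → mk.sph ε.1 → w₀ = 0
  thin : ε.1.kd = .tor ∨ (ε.1.kd = .qhs ∧ mk.psc ε.1) → Ev (fun _ : Unit => ε) fun l Γ =>
    Injective fun i => G.d l () ((Γ.g ()).x i)
  dead : ε.1.kd = .dead → Ev (fun _ : Unit => ε) fun _ Γ => IsEmpty (Γ.g ()).ι
  lev : ∃ C : ℝ, Ev (fun _ : Unit => ε) fun l Γ => (l.e (fun _ => ε) ()).Nb C ∧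
    ∀ i, |En3.L ((Γ.g ()).x i)| ≤ C ∧ |En3.hol ((Γ.g ()).x i)| ≤ C

def TowStmt : Prop := ∀ e : End κ lam ν, e.OK mk → ∃ (w₀ : e.L → ℚ) (N : ℕ),
  ∀ c, Tow G mk ⟨e, c⟩ (w₀ c) N

/-- IND: the index formula and the degrees of the faces -/
structure IndStmt : Prop where
  cel : ∀ g : Gc κ lam ν, g.Gd mk → ∀ (𝓔 : Type) [Fintype 𝓔] (ty : 𝓔 → Ty κ lam ν) (Sl : Type)
    [Fintype Sl] (p : Plc ty Sl g) (l : Lv 𝓔) (W : Type) (yt : l.YT ty W) (τ : Tm g W) β,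
    (p.cel l yt τ β).OK → ∀ n, (p.cel l yt τ β).Ind n →
      (n : ℚ) = G.dg g + p.dp G l β g.pin false - p.dp G l β g.pout true - p.dp G l β g.p3 true
  cyl : ∀ (𝓔 : Type) [Fintype 𝓔] (ty : 𝓔 → Ty κ lam ν) (Sl : Type) [Fintype Sl] (l : Lv 𝓔)
    (W : Type) (yt : l.YT ty W) (i : 𝓔 × Sl) (T : Type) [NormedAddCommGroup T] [NormedSpace ℝ T]
    [FiniteDimensional ℝ T] [Subsingleton T] (nr : ℕ) β, (∀ ε, (ty ε).1.OK mk) →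
    ((l.dt ty yt).cc Prod.fst i T nr β).OK → ∀ n, ((l.dt ty yt).cc Prod.fst i T nr β).Ind n →
      (n : ℚ) = G.d l i.1 (β i false) - G.d l i.1 (β i true) - nr
  fc : ∀ g g' : Gc κ lam ν, g.Gd mk → g'.Gd mk → (∀ i ∈ g.pin, (g.en i).kd ≠ .dead) →
    ∀ D ι φ n, g.Fc g' D ι φ n → D.Nonempty → G.dg g' - g'.k = G.dg g - g.k
  wl : ∀ g g₁ g₂ : Gc κ lam ν, g.Gd mk → g₁.Gd mk → g₂.Gd mk → ∀ c i cap ι₁ ι₂ l r,
    g.wl c = some i → g.Wl g₁ g₂ c i cap ι₁ ι₂ l r → (g.en i).kd ≠ .dead →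
      G.dg g₁ + G.dg g₂ + 1 = G.dg g
  tp : ∀ g : Gc κ lam ν, g.Gd mk → ∀ x, mk.tp g x → G.dg g = x
  /-- the degree controls `c₁²`, uniformly in the class -/
  k2 : ∀ b : Bs κ lam ν, ∃ C : ℝ, ∀ g : Gc κ lam ν, g.toBs = b → g.Gd mk →
    (∀ i ∈ g.pin, (g.en i).kd ≠ .dead) → (∀ i ∈ g.p3, (g.en i).kd ≠ .dead) → ∀ t ∈ g.dom,
      -(g.P t).bg.k2 ≤ C * (1 + max 0 (-(G.dg g : ℝ)))

/-- the reducible points are not approached on `g` -/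
def Gc.Frq (g : Gc κ lam ν) : Prop := ∀ r : ℚ, ∀ (𝓔 : Type) [Fintype 𝓔] (ty : 𝓔 → Ty κ lam ν)
  (Sl : Type) [Fintype Sl] (p : Plc ty Sl g), (∀ ε, (ty ε).1.OK mk) →
  Flo2.Ev ty fun l Γ => ∃ η₀ > 0, ∃ η > 0, ∀ (W : Type) (yt : l.YT ty W) (τ : Tm g W), τ.OK →
    ∀ q, (∀ t, ((p.fam l yt τ).P t).Small 6 η q) → ∀ β, p.InV Γ β → p.dp G l β g.pin false ≤ r →
      ∀ y ∈ p.M l yt τ β q, (p.cel l yt τ β).Low η₀ y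

/-- FREQ: the reducible points are not approached -/
structure FreqStmt : Prop where
  cel : ∀ (g : Gc κ lam ν) (T : Tr g), T.WF mk → T.Irr → g.Frq G mk
  cap : ∀ g : Gc κ lam ν, g.Gd mk → g.pin ≠ none → (∀ c, g.wl c = none) → g.Frq G mk
  cyl : ∀ r : ℚ, ∀ (𝓔 : Type) [Fintype 𝓔] (ty : 𝓔 → Ty κ lam ν) (Sl : Type) [Fintype Sl],
    (∀ ε, (ty ε).1.OK mk) → Ev ty fun l Γ => ∃ η₀ > 0, ∃ η > 0, ∀ (W : Type) (yt : l.YT ty W)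
      (i : 𝓔 × Sl) (T : Type) [NormedAddCommGroup T] [NormedSpace ℝ T] [FiniteDimensional ℝ T]
      (nr : ℕ) β q, (∀ s, β i s ∈ Γ.V i.1) → G.d l i.1 (β i false) ≤ r →
      ((l.dt ty yt).cc Prod.fst i T nr β).Sm η q →
      ∀ y, ((l.dt ty yt).cc Prod.fst i T nr β).Sol q y → ((l.dt ty yt).cc Prod.fst i T nr β).Low η₀ y

/-- BND: energies, labels and lifts, uniformly in the level and in the class -/
structure BndStmt : Prop where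
  en : ∀ b : Bs κ lam ν, ∃ C : ℝ, ∀ g : Gc κ lam ν, g.toBs = b → g.Gd mk →
    g.Ev mk fun p l Γ _ yt τ q => ∀ β, p.InV Γ β → ∀ y ∈ p.M l yt τ β q,
      ((p.fam l yt τ).P y.1.1).ean y.1.2 ≤ ENNReal.ofReal (C * (1 + max 0 (-(G.dg g : ℝ))))
  cyl : ∀ (𝓔 : Type) [Fintype 𝓔] (ty : 𝓔 → Ty κ lam ν) (Sl : Type) [Fintype Sl],
    (∀ ε, (ty ε).1.OK mk) → ∀ (l : Lv 𝓔) (Γ : l.Cx ty), (∀ ε, ∃ C, (l.e ty ε).Nb C) → ∃ C : ℝ, ∃ η > 0,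
      ∀ (W : Type) (yt : l.YT ty W)
      (i : 𝓔 × Sl) (T : Type) [NormedAddCommGroup T] [NormedSpace ℝ T] [FiniteDimensional ℝ T]
      (nr : ℕ) β q, (∀ s, β i s ∈ Γ.V i.1) → ((l.dt ty yt).cc Prod.fst i T nr β).Sm η q →
      ∀ y, ((l.dt ty yt).cc Prod.fst i T nr β).Sol q y →
        (((l.dt ty yt).cc Prod.fst i T nr β).P y.1.1).ean y.1.2 ≤ ENNReal.ofReal C ∧
          ∀ x, ‖y.1.2.Φ x‖ ≤ C
  lab : ∃ K : ∀ b : Bs κ lam ν, b.Tf → ℝ, ∀ g : Gc κ lam ν, g.Gd mk → g.p3 = none →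
    g.Ev mk fun p l Γ _ yt τ q => ∀ β n, p.InV Γ β →
      (∀ i ∈ g.pin, ∃ x, β (p.ι i) false = Γ.lf _ n x) → ∀ y ∈ p.M l yt τ β q, ∀ C : ℝ, 0 ≤ C →
      ((p.fam l yt τ).P y.1.1).ean y.1.2 ≤ ENNReal.ofReal C → ∀ e, g.pr n e ≤ K _ e * (1 + C)
  lift : ∀ g : Gc κ lam ν, g.Gd mk → ∀ i ∈ g.p3, (g.en i).kd = .tor → ∃ K : ℝ,
    g.Ev mk fun p l Γ _ yt τ q => ∀ β n x, p.InV Γ β → β (p.ι i) true = Γ.lf _ n x →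
      (p.M l yt τ β q).Nonempty → |(n : ℝ)| ≤ K

/-- RAD: the marks -/
structure RadStmt : Prop where
  hi1 : ∀ g : Gc κ lam ν, g.Gd mk → g.Ir → mk.hi1 g → ∃ n : ℚ, ∀ x, n ≤ x →
    g.EvW mk fun p l Γ _ yt τ q => ∀ β, p.InV Γ β → p.dp G l β g.pin false = x →
      ∃ β', p.InV Γ β' ∧ (∀ j, β' j false = β j false) ∧
        p.dp G l β' g.pout true = x + G.dg g ∧ p.One l yt τ β' q
  hi0 : ∀ g : Gc κ lam ν, g.Gd mk → g.NoRed → g.Kp g.pin .qhs → g.p3 = none → (∀ c, g.wl c = none) →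
    ∃ n : ℚ, ∀ x, n ≤ x → g.EvW mk fun p l Γ _ yt τ q => ∀ β, p.InV Γ β →
      p.dp G l β g.pin false = x → p.dp G l β g.pout true = x + G.dg g → p.M l yt τ β q = ∅
  al1 : ∀ g : Gc κ lam ν, g.Gd mk → g.Ir → mk.al1 g → ∀ x,
    g.EvW mk fun p l Γ _ yt τ q => ∀ β, p.InV Γ β → p.dp G l β g.pin false = x →
      p.dp G l β g.pout true = x + G.dg g → p.One l yt τ β q
  ex1 : ∀ g : Gc κ lam ν, g.Gd mk → g.Ir → mk.ex1 g → g.pin = none ∧ g.pout = none ∧ G.dg g = 0 ∧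
    g.EvW mk fun p l _ _ yt τ q => ∀ β, p.One l yt τ β q

/-- IRR: solutions are irreducible -/
def IrrStmt : Prop := ∀ g : Gc κ lam ν, g.Gd mk → g.Ir →
  g.Ev mk fun p l Γ _ yt τ q => ∀ β, p.InV Γ β → ∀ y : (p.cel l yt τ β).Pnt, y.1.1 ∈ g.dom →
    ((p.fam l yt τ).P y.1.1).bg.Sol (((p.fam l yt τ).P y.1.1).pt q) y.1.2 → ∃ x, y.1.2.Φ x ≠ 0

/-- LW: the lower bounds of the degrees -/
def LwStmt : Prop := ∀ ε : Ty κ lam ν, ε.1.OK mk →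
  Ev (fun _ : Unit => ε) fun l Γ => ∀ i, mk.lw ε ≤ G.d l () ((Γ.g ()).x i)

end Crest.Agent.X212.Flo2
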