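import Crest.Agent.X212.Flo2.Plc

/-!
# Row 212, layer AN-S (helper2): values at the ports
-/

set_option autoImplicit false
set_option linter.unusedSectionVars false
noncomputable section
open scoped Manifold ContDiff Topology InnerProductSpace
open MeasureTheory Set Function Filter

namespace Crest.Agent.X212.Flo2
open An Cyf70 Sw
open M (Mf)

variable {κ lam ν : Type} [Fintype κ] [Fintype lam] [Fintype ν] [DecidableEq ν]
  {𝓔 : Type} [Fintype 𝓔] {ty : 𝓔 → Ty κ lam ν} {Sl : Type} [Fintype Sl]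

theorem Gc.OK.inf {g : Gc κ lam ν} (h : g.OK) {t i b} (hi : (g.P t).Inf i b) : g.s.Inf i b := by
  obtain ⟨K, hK, hi⟩ := hi
  have ht : t ∈ g.𝓕.Q := h.Q ▸ mem_univ t
  have no : ∀ a a', K.p = some a → K.q = some a' → False := fun a a' h1 h2 => by
    cases b <;> simp [Nk.Inf, h1, h2] at hi
  rcases e : g.s.nk i with _ | K₀
  · rcases h.fam.nk t ht i e with k | ⟨K', k, a, a', h1, h2, -⟩
    · obtain ⟨a, h1, h2⟩ := k.self_of_nhds K hK
      exact (no _ _ h1 h2).elim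
    · obtain rfl := Option.mem_unique hK k
      exact (no _ _ h1 h2).elim
  · obtain ⟨K', k, k'⟩ := h.fam.en t ht i K₀ e
    obtain rfl := Option.mem_unique hK k
    have h1 : K.p = K₀.p := congrArg (·.1) k'
    have h2 : K.q = K₀.q := congrArg (·.2.1) k'
    exact ⟨K₀, e, by cases b <;> simpa [Nk.Inf, ← h1, ← h2] using hi⟩

variable (ty) in
/-- values at a port -/
abbrev Lv.PV (l : Lv 𝓔) : Type := Option (Σ ε, (l.e ty ε).YC)

open Classical in
/-- the value of the type `ε` -/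
def Lv.get (l : Lv 𝓔) (ε : 𝓔) (o : l.PV ty) : (l.e ty ε).YC :=
  if h : ∃ v, o = some ⟨ε, v⟩ then h.choose else ⟨0, 0⟩

theorem Lv.get_some (l : Lv 𝓔) (ε : 𝓔) (v : (l.e ty ε).YC) : l.get ε (some ⟨ε, v⟩) = v := by
  have h : ∃ v', (some ⟨ε, v⟩ : l.PV ty) = some ⟨ε, v'⟩ := ⟨v, rfl⟩
  rw [Lv.get, dif_pos h]
  exact (sigma_mk_injective (Option.some.inj h.choose_spec)).symm

/-- the value is a lift of a generator -/
def Lv.Cx.In {l : Lv 𝓔} (Γ : l.Cx ty) (v : l.PV ty) : Prop := ∀ x ∈ v, x.2 ∈ Γ.V x.1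

theorem Lv.Cx.in_none {l : Lv 𝓔} (Γ : l.Cx ty) : Γ.In none := by simp [Lv.Cx.In]

theorem Lv.Cx.in_some {l : Lv 𝓔} {Γ : l.Cx ty} {ε v} : Γ.In (some ⟨ε, v⟩) ↔ v ∈ Γ.V ε := by
  simp [Lv.Cx.In]

/-- the degree of a value -/
def Gr.dv (G : Gr κ lam ν) (l : Lv 𝓔) (v : l.PV ty) : ℚ := v.elim 0 fun x => G.d l x.1 x.2

namespace Plc
variable {g g' : Gc κ lam ν} (p : Plc ty Sl g) (l : Lv 𝓔) (β : BC (ty := ty) (Sl := Sl) l)

/-- the type of a port -/
def pe (o : Option g.N) : Option 𝓔 := o.map fun i => (p.ι i).1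

theorem pe_ty (o : Option g.N) : (p.pe o).map ty = o.map g.ty := by
  cases o with
  | none => rfl
  | some i => exact congrArg some (p.ty i)

theorem pe_eq (hi : Injective ty) {Sl' : Type} [Fintype Sl'] (p' : Plc ty Sl' g') {o o'}
    (h : o'.map g'.ty = o.map g.ty) : p'.pe o' = p.pe o :=
  Option.map_injective hi ((p'.pe_ty o').trans (h.trans (p.pe_ty o).symm))

/-- the value at a port -/
def pw (o : Option g.N) (s : Bool) : l.PV ty := o.map fun i => ⟨(p.ι i).1, β (p.ι i) s⟩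

theorem pw_pe (o : Option g.N) (s : Bool) : (p.pw l β o s).map Sigma.fst = p.pe o := by
  cases o <;> rfl

theorem pv_zero (o : Option g.N) (s : Bool) : p.pv l β o s 0 = p.pw l β o s := by
  cases o with
  | none => rfl
  | some i => exact congrArg (fun v => some (Sigma.mk _ v)) (by simp only [zpow_zero, act_one])

theorem dp_eq (G : Gr κ lam ν) (o : Option g.N) (s : Bool) :
    p.dp G l β o s = G.dv l (p.pw l β o s) := by cases o <;> rfl

open Classical in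
/-- the limits with given values at the ports -/
def bcv (vi vo v3 : l.PV ty) : BC (ty := ty) (Sl := Sl) l := fun j s =>
  l.get j.1 (bif s then if g.pout.map p.ι = some j then vo else v3 else vi)

variable {vi vo v3 : l.PV ty}

theorem bcv_in (j : 𝓔 × Sl) : p.bcv l vi vo v3 j false = l.get j.1 vi := rfl

theorem bcv_out {i : g.N} (h : g.pout = some i) :
    p.bcv l vi vo v3 (p.ι i) true = l.get _ vo := by simp [bcv, h]

theorem bcv_3 (hg : g.OK) {i : g.N} (h : g.p3 = some i) :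
    p.bcv l vi vo v3 (p.ι i) true = l.get _ v3 := by
  have : g.pout.map p.ι ≠ some (p.ι i) := fun e => by
    obtain ⟨j, h1, h2⟩ := Option.map_eq_some_iff.1 e
    exact (hg.ne3 i h).1 (p.inj h2 ▸ h1)
  simp [bcv, this]

variable {p l β} in
theorem pw_of {o : Option g.N} {s : Bool} {v : l.PV ty} (h : v.map Sigma.fst = p.pe o)
    (k : ∀ i, o = some i → β (p.ι i) s = l.get _ v) : p.pw l β o s = v := by
  obtain _ | i := o
  · exact (Option.map_eq_none_iff.1 h).symm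
  · obtain ⟨⟨ε, x⟩, rfl, e⟩ := Option.map_eq_some_iff.1 h
    obtain rfl : ε = (p.ι i).1 := e
    exact congrArg (fun v => some (Sigma.mk _ v)) ((k i rfl).trans (l.get_some _ _))

variable {p l}

theorem pw_in (h : vi.map Sigma.fst = p.pe g.pin) : p.pw l (p.bcv l vi vo v3) g.pin false = vi :=
  pw_of h fun _ _ => rfl

theorem pw_out (h : vo.map Sigma.fst = p.pe g.pout) : p.pw l (p.bcv l vi vo v3) g.pout true = vo :=
  pw_of h fun _ e => p.bcv_out l e

theorem pw_3 (hg : g.OK) (h : v3.map Sigma.fst = p.pe g.p3) :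
    p.pw l (p.bcv l vi vo v3) g.p3 true = v3 := pw_of h fun _ e => p.bcv_3 l hg e

theorem get_pw {o : Option g.N} {i : g.N} (h : o = some i) (s : Bool) :
    l.get _ (p.pw l β o s) = β (p.ι i) s := by
  subst h
  exact l.get_some _ _

theorem eq_bcv (hg : g.OK) {i : g.N} {s : Bool} (h : g.s.Inf i s) : β (p.ι i) s =
    p.bcv l (p.pw l β g.pin false) (p.pw l β g.pout true) (p.pw l β g.p3 true) (p.ι i) s := by
  cases s with
  | false => exact (get_pw β ((hg.inn i).1 h) _).symm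
  | true =>
    rcases (hg.out i).1 h with e | e
    · rw [p.bcv_out l e, get_pw β e]
    · rw [p.bcv_3 l hg e, get_pw β e]

variable {β}

theorem inV_iff (hg : g.OK) {Γ : l.Cx ty} : p.InV Γ β ↔ Γ.In (p.pw l β g.pin false) ∧
    Γ.In (p.pw l β g.pout true) ∧ Γ.In (p.pw l β g.p3 true) := by
  have k : ∀ o s, Γ.In (p.pw l β o s) ↔ ∀ i, o = some i → β (p.ι i) s ∈ Γ.V _ := fun o s => by
    cases o with
    | none => simp [pw, Lv.Cx.in_none]
    | some i => simp [pw, Lv.Cx.in_some]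
  simp only [k]
  refine ⟨fun h => ⟨fun i e => h _ _ ((hg.inn i).2 e), fun i e => h _ _ ((hg.out i).2 (.inl e)),
    fun i e => h _ _ ((hg.out i).2 (.inr e))⟩, fun h i s hi => ?_⟩
  cases s with
  | false => exact h.1 i ((hg.inn i).1 hi)
  | true => exact ((hg.out i).1 hi).elim (h.2.1 i) (h.2.2 i)

variable (p) in
/-- the values fit the ports -/
structure Fit (Γ : l.Cx ty) (vi vo v3 : l.PV ty) : Prop where
  ei : vi.map Sigma.fst = p.pe g.pin
  eo : vo.map Sigma.fst = p.pe g.pout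
  e3 : v3.map Sigma.fst = p.pe g.p3
  hi : Γ.In vi
  ho : Γ.In vo
  h3 : Γ.In v3

theorem Fit.inV (hg : g.OK) {Γ : l.Cx ty} (h : p.Fit Γ vi vo v3) : p.InV Γ (p.bcv l vi vo v3) := by
  rw [inV_iff hg, pw_in h.ei, pw_out h.eo, pw_3 hg h.e3]
  exact ⟨h.hi, h.ho, h.h3⟩

theorem InV.fit (hg : g.OK) {Γ : l.Cx ty} (h : p.InV Γ β) :
    p.Fit Γ (p.pw l β g.pin false) (p.pw l β g.pout true) (p.pw l β g.p3 true) :=
  have k := (inV_iff hg).1 h
  ⟨p.pw_pe l β _ _, p.pw_pe l β _ _, p.pw_pe l β _ _, k.1, k.2.1, k.2.2⟩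

variable (p l) {W : Type} (yt : l.YT ty W) (τ : Tm g W) (q : W →₀ ℝ)

/-- the number of classes over `D` with given values at the ports -/
def cz (D : Set (Tk g.k)) (vi vo v3 : l.PV ty) : ℕ :=
  cnt (d := l.dt ty yt) (p.fam l yt τ).P D (p.bcv l vi vo v3) q

theorem cnt_cz (hg : g.OK) (D : Set (Tk g.k)) (β : BC (ty := ty) (Sl := Sl) l) :
    cnt (d := l.dt ty yt) (p.fam l yt τ).P D β q =
      p.cz l yt τ q D (p.pw l β g.pin false) (p.pw l β g.pout true) (p.pw l β g.p3 true) := by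
  refine cnt_eq (d := l.dt ty yt) (P := (p.fam l yt τ).P) (P' := (p.fam l yt τ).P) id (bijOn_id D)
    (fun t _ => SameS.of_inf (d := l.dt ty yt) fun j b hj => ?_) q
  obtain ⟨i, rfl, hi⟩ := (p.lev_inf (g.P t) l j b).1 hj
  exact (eq_bcv β hg (hg.inf hi)).symm

theorem cz_dom : p.cz l yt τ q g.dom vi vo v3 = p.zc l yt τ (p.bcv l vi vo v3) q :=
  (p.zc_eq l yt τ _ q).symm

end Plc

/-! ### ports at walls and facets -/

theorem Gc.WlT.ports {g g₁ g₂ : Gc κ lam ν} {c i cap ι₁ ι₂ l r} {W : Type} {τ : Tm g W} {τ₁ τ₂}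
    (h : g.WlT g₁ g₂ c i cap ι₁ ι₂ l r τ τ₁ τ₂) : g.p3 = none ∧
      g₁.pin.map g₁.ty = g.pin.map g.ty ∧
      g₁.pout.map g₁.ty = (bif cap then g.pout.map g.ty else some (g.ty i)) ∧
      g₁.p3.map g₁.ty = (bif cap then some (g.ty i) else none) ∧
      g₂.pin.map g₂.ty = some (g.ty i) ∧
      g₂.pout.map g₂.ty = (bif cap then none else g.pout.map g.ty) ∧ g₂.p3 = none := by
  obtain ⟨j₁, h1, j₂, h2, r₁, r₂, e, h3, h4, h5, h6, -, -, h7, h8, h9, h10, -⟩ := h.spl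
  have k : g₂.pin.map g₂.ty = some (g.ty i) := by rw [show g₂.pin = some j₂ from h2, ← h4]; rfl
  cases cap with
  | false =>
    exact ⟨h9, rel_map h5 h7, by rw [show g₁.pout = some j₁ from h1, ← h3]; rfl,
      by rw [h10.2.1]; rfl, k, rel_map h6 h10.1, h8⟩
  | true =>
    exact ⟨h9, rel_map h5 h7, rel_map h5 h10.1, by rw [show g₁.p3 = some j₁ from h1, ← h3]; rfl, k,
      by rw [h10.2]; rfl, h8⟩

theorem Tm.OK.map {g : Gc κ lam ν} {W W' : Type} {τ : Tm g W} (h : τ.OK) (f : W' → W) :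
    (τ.map f).OK :=
  ⟨fun w => h.sf (f w), fun w => h.sb (f w), fun w => h.cf (f w), fun w => h.nk (f w),
    fun w => h.η (f w), fun w => h.jc (f w), fun w => h.bd (f w)⟩

theorem Gc.WlT.map {g g₁ g₂ : Gc κ lam ν} {c i cap ι₁ ι₂ l r} {W W' : Type} {τ : Tm g W} {τ₁ τ₂}
    (h : g.WlT g₁ g₂ c i cap ι₁ ι₂ l r τ τ₁ τ₂) (f : W' → W) :
    g.WlT g₁ g₂ c i cap ι₁ ι₂ l r (τ.map f) (τ₁.map f) (τ₂.map f) := by
  obtain ⟨j₁, h1, j₂, h2, r₁, r₂, e, h3, h4, h5, h6, a, b, h7, h8, h9, h10, h11, h12⟩ := h.spl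
  exact ⟨h.bij, j₁, h1, j₂, h2, r₁, r₂, e, h3, h4, h5, h6, a, b, h7, h8, h9, h10, h11,
    fun w => h12 (f w)⟩

theorem Gc.FcT.map {g g' : Gc κ lam ν} {D ι φ n} {W W' : Type} {τ : Tm g W} {τ'}
    (h : g.FcT g' D ι φ n τ τ') (f : W' → W) : g.FcT g' D ι φ n (τ.map f) (τ'.map f) := by
  obtain ⟨h1, r, h2, h3, h4, h5, h6⟩ := h
  refine ⟨h1, r, h2, h3, h4, h5, fun t ht => ?_⟩
  obtain ⟨γ, U, u, α, a, b, c⟩ := h6 t ht
  exact ⟨γ, U, u, α, a, b, fun w => c (f w)⟩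

end Crest.Agent.X212.Flo2
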