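import Crest.Agent.X212.Flo2.Alg
import Crest.Agent.X212.Bor5.Th

/-!
# Row 212, layer AN-S (helper2): a skeleton realises a scene

`Rl S K` lists, law by law, the cells that the theory `Bor5.T.Th S` needs.  `Sk.clo` closes the
marks `hi1`, `hi0` under one homotopy.
-/

set_option autoImplicit false
set_option linter.unusedSectionVars false

open Set Filter Function Module
open scoped Manifold ContDiff
open Crest.Agent.R208 Crest.Agent.R208.F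
open Crest.Agent.X212.Dr59 (Lat ip pm)
open Crest.Agent.X212.Orx52 (Pos pr oR)
open Crest.Agent.X212.Rod53 (Z2 Loc)
open Crest.Agent.X212.Lab56 (Cls)

noncomputable section

universe u

namespace Crest.Agent.X212.Flo2

open Bor5.T

namespace Sk
variable (S : Sk.{u})

/-- points that are joined by intervals -/
inductive Htp {a b : S.E} (τ : S.F a b) : S.F a b → Prop
  | refl : S.Pt τ → Htp τ τ
  | step (σ τ' τ'' : S.F a b) : Htp τ τ' → S.Pt τ'' → S.Bd σ [τ', τ''] [] → Htp τ τ''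

/-- `τ` is the composite of `τ₁` and `τ₂` -/
def Cmp {a b c : S.E} (τ : S.F a c) (τ₁ : S.F a b) (τ₂ : S.F b c) : Prop :=
  ∃ σ τ' τ₁' τ₂', S.Htp τ τ' ∧ S.Htp τ₁ τ₁' ∧ S.Htp τ₂ τ₂' ∧ S.Bd σ [τ'] [⟨b, τ₁', τ₂'⟩]

variable {S} in
/-- killed by a power of `U` -/
inductive Kil {a b : S.E} (u : S.UD a) : S.F a b → Prop
  | base (σ τ : S.F a b) : S.Htp σ τ → S.al0 τ → Kil u σ
  | step (σ τ : S.F a b) : S.Cmp τ (u.U (S.s σ)) σ → Kil u τ → Kil u σ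

/-- the cap occurs in a model -/
def Nz {x : S.E} (Q : S.F x S.one) : Prop :=
  ∃ a b, ∃ (σ τ : S.F a b) (L : S.F3 a b x), S.qhs a ∧ S.qhs b ∧ S.CapI σ τ L Q ∧ S.hi1 τ

variable {S} in
/-- the caps occur in a model pentagon -/
def Cap.Has (N : S.Cap) : Prop :=
  ∃ (a b c : S.E) (f : S.Arr a b) (g : S.Arr b c) (h : S.Arr c a) (D0 : Dbl f g) (D1 : Dbl g h)
    (P : Pen D0 D1 N), Nonempty P.Mdl

variable {S} in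
/-- `f` represents the points `p` -/
def Arr.Rp {a b : S.E} (f : S.Arr a b) {L : Type} (p : L → S.F a b) : Prop :=
  ∃ e : L ≃ f.I, ∀ d, S.Htp (p d) (f.f (e d))

/-- the marks `hi1`, `hi0`, closed under one homotopy -/
def clo : Sk.{u} :=
  { S with
    hi1 := fun {a b} σ => S.hi1 σ ∨ (S.qhs a ∧ S.qhs b ∧ ∃ (ρ τ : S.F a b) (l : List (S.F a b)),
      S.Bd ρ (σ :: τ :: l) [] ∧ S.hi1 τ ∧ S.s τ = S.s σ ∧ ∀ τ' ∈ l, S.hi0 τ')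
    hi0 := fun {a b} σ => S.hi0 σ ∨ (S.qhs a ∧ S.qhs b ∧ ∃ (ρ : S.F a b) (l : List (S.F a b)),
      S.Bd ρ (σ :: l) [] ∧ ∀ τ' ∈ l, S.hi0 τ') }

end Sk

/-- the skeleton `K` contains the cells that the laws of the scene `S` need -/
structure Rl (S : Scene) (K : Sk.{u}) : Type (max u 1) where
  ob : S.ι → K.E
  qhs : ∀ i, K.qhs (ob i)
  lab : ∀ i, (S.ob i).L ≃ K.L (ob i)
  psc : ∀ i, Nonempty (Sph (S.ob i).toO3) → K.psc (ob i)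
  sph : K.sph (ob S.i0)
  U : ∀ i, K.UD (ob i)
  pt : ∀ {i j} (c : S.κ i j), (S.cob c).L → K.F (ob i) (ob j)
  isPt : ∀ {i j} (c : S.κ i j) d, K.Pt (pt c d)
  prp : ∀ {i j} (c : S.κ i j), K.Prp (pt c)
  s : ∀ {i j} (c : S.κ i j) d s, (S.cob c).In d s → K.s (pt c d) = lab i s
  t : ∀ {i j} (c : S.κ i j) d t, (S.cob c).Out d t → K.t (pt c d) = lab j t
  comU : ∀ {i j} (c : S.κ i j) d, ∃ τ, K.Cmp τ ((U i).U (K.s (pt c d))) (pt c d) ∧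
    K.Cmp τ (pt c d) ((U j).U (K.t (pt c d)))
  nat : ∀ {i j} (c c' : S.κ i j) (φ : W4.Dif (S.cob c).toW4 (S.cob c').toW4) d d',
    Ag atBot (φ.φ ∘ (S.cob c).ki) (S.cob c').ki → Ag atTop (φ.φ ∘ (S.cob c).ko) (S.cob c').ko →
    Pb φ.φ univ d' d → K.Htp (pt c d) (pt c' d')
  comp : ∀ {i j k} (c₁ : S.κ i j) (c₂ : S.κ j k) (c : S.κ i k)
    (g : Gl (S.cob c₁).toW4 (S.cob c₂).toW4 (S.cob c).toW4 (S.cob c₁).ko (S.cob c₂).ki) d d₁ d₂,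
    Ag atBot (g.fl ∘ (S.cob c₁).ki) (S.cob c).ki → Ag atTop (g.fr ∘ (S.cob c₂).ko) (S.cob c).ko →
    g.Rs d d₁ d₂ → K.Cmp (pt c d) (pt c₁ d₁) (pt c₂ d₂)
  id : ∀ {i} (c : S.κ i i)
    (φ : (S.ob i).cyl.P.M ≃ₘ^∞⟮(S.ob i).cyl.P.I, (S.cob c).X.P.I⟯ (S.cob c).M) d s,
    Pos (S.ob i).cyl.P.I (S.cob c).X.P.I φ univ (pr (S.ob i).o oR) (S.cob c).o →
    Ag atBot φ (S.cob c).ki → Ag atTop φ (S.cob c).ko → (S.cob c).In d s →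
    ∃ τ, K.Htp (pt c d) τ ∧ K.idn τ ∧ K.s τ = lab i s
  deg : ∀ {i j} (c : S.κ i j) d {n : Type} [Fintype n] [DecidableEq n] (e : n → (S.cob c).Fm)
    (g : n → ℝ) Z c₀ (x : ℚ), Lat (S.cob c).X.P.I (S.cob c).o univ Z e (Matrix.diagonal g) →
    Dr59.Cs (S.cob c).X.P.I 2 univ c₀ → Cur d c₀ →
    4 * (x : ℝ) = (S.cob c).sq c₀ / (4 * Real.pi ^ 2) - 2 * Fintype.card n -
      3 * ∑ a, (SignType.sign (g a) : ℝ) → ∃ τ, K.Htp (pt c d) τ ∧ K.tp τ x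
  tn : ∀ {i j} (c : S.κ i j) d {n : Type} [Fintype n] [DecidableEq n] (e : n → (S.cob c).Fm)
    (g : n → ℝ) Z, Lat (S.cob c).X.P.I (S.cob c).o univ Z e (Matrix.diagonal g) → (∀ a, g a < 0) →
    ∃ τ, K.Htp (pt c d) τ ∧ K.hi1 τ ∧ K.s τ = K.s (pt c d)
  tp : ∀ {i j} (c : S.κ i j) d e, Dr59.Cs (S.cob c).X.P.I 2 univ e → 0 < (S.cob c).sq e →
    ∃ τ, K.Htp (pt c d) τ ∧ K.hi0 τ
  bu : ∀ {i k} (c c' : S.κ i k) {τ : Tub} {a b e : Z2} {v v' : ℝ → Z2} {x y z : ℝ} (hv : Loc v)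
    (hv' : Loc v') (f : Fo τ (S.ob i).toO3 a) (g : Fo τ (S.ob k).toO3 e) (r : Rz (S.cob c) hv f g)
    (r' : Rz (S.cob c') hv' f g) d d' (d₀ : Cls (𝓡 4) (univ : Set (τ.X v'))), T3 τ a b e →
    V2 v a b e x y → V1 v' a e z → z ∈ Icc x y → (∀ t, t ∉ Icc x y → v' t = v t) →
    Pb r'.φ univ d' d₀ → Pb (r.φ ∘ τ.T.chgPD v' v) (τ.T.ag v' v) d d₀ →
    ∃ (u : K.E) (σ σ' ρ ρ' : K.F (ob i) (ob k)) (L : K.F3 (ob i) (ob k) u) (Q Q' : K.F u K.one),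
      K.Htp (pt c d) ρ ∧ K.Htp (pt c' d') ρ' ∧ K.thin u ∧ ¬K.dead u ∧ K.CapI σ ρ L Q ∧
        K.CapI σ' ρ' L Q' ∧ K.Nz Q ∧ K.Nz Q'
  triad : ∀ {i j k} (c₁ : S.κ i j) (c₂ : S.κ j k) (c₃ : S.κ k i) {τ : Tub} {a b e : Z2}
    (f : Fo τ (S.ob i).toO3 a) (g : Fo τ (S.ob j).toO3 b) (h : Fo τ (S.ob k).toO3 e), T3 τ a b e →
    Hnd (S.cob c₁) f g → Hnd (S.cob c₂) g h → Hnd (S.cob c₃) h f →
    ∃ (A : K.Arr (ob i) (ob j)) (B : K.Arr (ob j) (ob k)) (C : K.Arr (ob k) (ob i))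
      (D0 : Sk.Dbl A B) (D1 : Sk.Dbl B C) (D2 : Sk.Dbl C A) (N : K.Cap) (P : Sk.Pen D0 D1 N)
      (P' : Sk.Pen D1 D2 N), A.Rp (pt c₁) ∧ B.Rp (pt c₂) ∧ N.Has ∧ P.Id ∧ P'.Id
  cp : ∀ {i} (c : S.γ i) d, (S.cap c).Ps d (S.cap c).η → K.F K.one (ob i)
  natc : ∀ {i} (c c' : S.γ i) (φ : W4.Dif (S.cap c).toW4 (S.cap c').toW4) d d',
    Ag atTop (φ.φ ∘ (S.cap c).ko) (S.cap c').ko → Pb φ.φ univ d' d →
    (S.cap c).Seg d (S.cap c).η (pm (S.cap c).X.P.I (S.cap c').X.P.I φ.φ (S.cap c').η) →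
    ∃ h h', K.Htp (cp c d h) (cp c' d' h')
  compc : ∀ {j k} (c₁ : S.γ j) (c₂ : S.κ j k) (c : S.γ k)
    (g : Gl (S.cap c₁).toW4 (S.cob c₂).toW4 (S.cap c).toW4 (S.cap c₁).ko (S.cob c₂).ki) d d₁ d₂,
    Ag atTop (g.fr ∘ (S.cob c₂).ko) (S.cap c).ko → g.Rs d d₁ d₂ → g.Ext0 (S.cap c).η (S.cap c₁).η →
    ∀ h₁ h, K.Cmp (cp c d h) (cp c₁ d₁ h₁) (pt c₂ d₂)
  bnd : ∀ {i} (c : S.γ i) e, Dr59.Cs (S.cap c).X.P.I 2 univ e →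
    ∃ (β : K.B) (hβ : ∀ d h, K.base (cp c d h) = β) (D : Finset (K.T β)), ∀ r : ℝ, ∃ R : ℝ,
      ∀ d h c₀, Cur d c₀ → (∀ e' ∈ D, |K.prB (cp c d h) (hβ d h) e'| ≤ r) →
        |ip (S.cap c).X.P.I (S.cap c).o c₀ e| ≤ R

/-- the cells of the non-vanishing statement -/
def Rl.NV {S : Scene} {K : Sk} (r : Rl S K) {Q : Prd} {R : ℝ} (P : Pent S Q R) : Prop :=
  ∃ (A : K.Arr K.one (r.ob P.i)) (B : K.Arr (r.ob P.i) (r.ob P.j)) (C : K.Arr (r.ob P.j) K.one)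
    (D0 : Sk.Dbl A B) (D1 : Sk.Dbl B C) (N : K.Cap) (Pn : Sk.Pen D0 D1 N),
    N.Has ∧ (∀ i i' : Pn.I0, i = i') ∧ (∃ i τ, K.Htp (Pn.ι i) τ ∧ K.ex1 τ) ∧
      (∀ k, Sk.Kil (r.U P.j) (C.f k)) ∧ ∀ k, ∃ D h, Pb P.l (P.W.X.τ ⁻¹' Iio P.β) D P.d ∧
        K.Htp (r.cp P.C D h) (A.f k)

/-- ALG-5: the closed marks hold -/
def CloStmt : Prop := ∀ K : Sk.{u}, Nonempty (Flo2.Cs K) → Nonempty (Flo2.Cs K.clo)

/-- ALG-6: counts and a realisation give the theory -/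
def AsmStmt : Prop := ∀ (S : Scene) (K : Sk.{u}) (r : Rl S K), Nonempty (Flo2.Cs K) →
  ∃ θ : Th S, ∀ (Q : Prd) (R : ℝ) (P : Pent S Q R), r.NV P → θ.NV P

end Crest.Agent.X212.Flo2
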