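import Crest.Agent.X212.Flo2.Cs

/-!
# Row 212, layer AN-S (helper2): the configurations of families behind the laws, and the algebra
leaves
-/

set_option autoImplicit false
set_option linter.unusedSectionVars false

open Module Function Filter

noncomputable section

universe u

namespace Crest.Agent.X212.Flo2

open Win22
open Bor5 (K)

namespace Sk
variable (S : Sk.{u})

/-- an interval from the point `τ` to a neck that cuts off the cap `Q` -/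
def CapI {a b x : S.E} (σ τ : S.F a b) (L : S.F3 a b x) (Q : S.F x S.one) : Prop :=
  S.fc σ = [τ] ∧ S.nk σ = [] ∧ ∃ c₀, (∀ c, c = c₀) ∧ S.cp σ c₀ = ⟨x, L, Q⟩

/-- all classes on one piece -/
structure Arr (a b : S.E) : Type (max u 1) where
  I : Type
  f : I → S.F a b
  pt : ∀ i, S.Pt (f i)
  prp : S.Prp f

/-- the `U`-cells of an end -/
structure UD (a : S.E) where
  U : S.L a → S.F a a
  pt : ∀ c, S.Pt (U c)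
  s : ∀ c, S.s (U c) = c
  t : ∀ c, S.t (U c) = c
  tp : ∀ c, S.tp (U c) (-2)
  al : ∀ c, S.hi1 (U c) ∧ (S.psc a → S.al1 (U c))

variable {S}

/-- a double composite: points `p`, neck intervals `h`, reflection paths `γ` -/
structure Dbl {a b c : S.E} (f : S.Arr a b) (g : S.Arr b c) : Type (max u 1) where
  J : Type
  e : J ≃ {p : f.I × g.I // S.t (f.f p.1) = S.s (g.f p.2)}
  p : J → S.F a c
  h : J → S.F a c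
  γ : J → S.F a c
  r : J → J
  rr : ∀ j, r (r j) = j
  half : J → Prop
  hr : ∀ j, half (r j) ↔ ¬half j
  bh : ∀ j, S.Bd (h j) [p j] [⟨b, f.f (e j).1.1, g.f (e j).1.2⟩]
  bγ : ∀ j, S.Bd (γ j) [p j, p (r j)] []
  sγ : ∀ j, S.s (γ j) = S.s (h j)
  tγ : ∀ j, S.t (γ j) = S.t (h j)
  pp : S.Prp p
  ph : S.Prp h
  pγ : S.Prp γ

variable (S) in
/-- the caps of the end `S² × S¹`: `B = S¹ × B³` and the reflection paths in the model piece -/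
structure Cap : Type (max u 1) where
  x : S.E
  thin : S.thin x
  B : S.F x S.one
  J1 : Type
  J2 : Type
  g1 : J1 → S.F x S.one
  g2 : J2 → S.F x S.one
  p1 : S.Prp g1
  p2 : S.Prp g2

/-- the unfolded pentagon at the vertex `a`, over the triples of classes in `T` -/
structure Pen {a b c : S.E} {f : S.Arr a b} {g : S.Arr b c} {h : S.Arr c a} (D0 : Dbl f g)
    (D1 : Dbl g h) (N : S.Cap) (T : f.I → g.I → h.I → Prop := fun _ _ _ => True) :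
    Type (max u 1) where
  M : Type
  e0 : M ≃ {p : D0.J × h.I // S.t (D0.h p.1) = S.s (h.f p.2) ∧ T (D0.e p.1).1.1 (D0.e p.1).1.2 p.2}
  e1 : M ≃ {p : f.I × D1.J // S.t (f.f p.1) = S.s (D1.h p.2) ∧ T p.1 (D1.e p.2).1.1 (D1.e p.2).1.2}
  Q : M → S.F a a
  A : M → S.F a a
  B : M → S.F a a
  S1 : M → S.F a a
  S2 : M → S.F a a
  Γ1 : M → S.F a a
  Γ2 : M → S.F a a
  R1 : M → S.F a a
  R2 : M → S.F a a
  ρ : M → S.F a a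
  prp : S.Prp Q ∧ S.Prp A ∧ S.Prp B ∧ S.Prp S1 ∧ S.Prp S2 ∧ S.Prp Γ1 ∧ S.Prp Γ2 ∧ S.Prp R1 ∧
    S.Prp R2 ∧ S.Prp ρ
  r1 : M → M
  r2 : M → M
  er1 : ∀ k, (e0 (r1 k)).1 = (D0.r (e0 k).1.1, (e0 k).1.2)
  er2 : ∀ k, (e1 (r2 k)).1 = ((e1 k).1.1, D1.r (e1 k).1.2)
  T1 : ∀ j k, T (D0.e j).1.1 (D0.e j).1.2 k → T (D0.e (D0.r j)).1.1 (D0.e (D0.r j)).1.2 k
  T2 : ∀ i j, T i (D1.e j).1.1 (D1.e j).1.2 → T i (D1.e (D1.r j)).1.1 (D1.e (D1.r j)).1.2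
  bQ : ∀ k, S.Bd (Q k) [A k, B k] [⟨b, f.f (e1 k).1.1, D1.h (e1 k).1.2⟩,
    ⟨c, D0.h (e0 k).1.1, h.f (e0 k).1.2⟩]
  bS1 : ∀ k, S.Bd (S1 k) [B k, B (r1 k), Γ1 k] [⟨c, D0.γ (e0 k).1.1, h.f (e0 k).1.2⟩]
  bS2 : ∀ k, S.Bd (S2 k) [A k, A (r2 k), Γ2 k] [⟨b, f.f (e1 k).1.1, D1.γ (e1 k).1.2⟩]
  bR1 : ∀ k, (S.fc (R1 k)).Perm [Γ1 k, ρ k, ρ (r1 k)] ∧ S.nk (R1 k) = []
  bR2 : ∀ k, (S.fc (R2 k)).Perm [Γ2 k, ρ k, ρ (r2 k)] ∧ S.nk (R2 k) = []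
  IL : Type
  Lc : IL → S.F3 a a N.x
  β1 : {θ : Σ k : {k // D0.half (e0 k).1.1}, S.C (R1 k.1) // ¬S.dead (S.cp _ θ.2).1} ≃ IL × N.J1
  c1 : ∀ θ, S.cp _ θ.1.2 = ⟨N.x, Lc (β1 θ).1, N.g1 (β1 θ).2⟩
  β2 : {θ : Σ k : {k // D1.half (e1 k).1.2}, S.C (R2 k.1) // ¬S.dead (S.cp _ θ.2).1} ≃ IL × N.J2
  c2 : ∀ θ, S.cp _ θ.1.2 = ⟨N.x, Lc (β2 θ).1, N.g2 (β2 θ).2⟩
  /-- the piece that is obtained by filling the neck with `B` -/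
  I0 : Type
  [f0 : Fintype I0]
  ι : I0 → S.F a a
  κ : I0 → S.F a a
  pι : ∀ i, S.Pt (ι i)
  bκ : ∀ i, S.fc (κ i) = [ι i] ∧ S.nk (κ i) = []
  β0 : (Σ i, S.C (κ i)) ≃ IL
  c0 : ∀ θ, S.cp _ θ.2 = ⟨N.x, Lc (β0 θ), N.B⟩
  live : ¬S.dead N.x

attribute [instance] Pen.f0

variable {a b c : S.E} {f : S.Arr a b} {g : S.Arr b c} {h : S.Arr c a} {D0 : Dbl f g}
  {D1 : Dbl g h} {N : S.Cap}

/-- the filled piece is the product -/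
structure Pen.Id (P : Pen D0 D1 N) : Prop where
  idn : ∀ i, S.idn (P.ι i)
  tp : ∀ i, S.tp (P.ι i) 0
  bij : Bijective fun i => S.s (P.ι i)

/-- the wall crossing marks of a model pentagon -/
structure Pen.Mdl (P : Pen D0 D1 N) extends P.Id where
  qhs : S.qhs a
  s0 : S.L a
  al : P.M → Prop
  al1 : ∀ k, al (P.r1 k) ↔ al k
  al2 : ∀ k, al (P.r2 k) ↔ al k
  dd1 : ∀ k c, S.dead (S.cp (P.R1 k) c).1 ↔ ¬al k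
  dd2 : ∀ k c, S.dead (S.cp (P.R2 k) c).1 ↔ ¬al k
  tp1 : ∀ k, al k → ∃ r ≤ 0, S.tp (P.Γ1 k) r
  tp2 : ∀ k, al k → ∃ r ≤ 0, S.tp (P.Γ2 k) r
  W1 : Finset P.M
  W2 : Finset P.M
  odd : Odd (W1.card + W2.card)
  w1 : ∀ k ∈ W1, D0.half (P.e0 k).1.1 ∧ al k ∧ S.hi1 (P.Γ1 k) ∧ S.tp (P.Γ1 k) 0 ∧
    S.s (P.Γ1 k) = s0 ∧ S.t (P.Γ1 k) = s0
  w2 : ∀ k ∈ W2, D1.half (P.e1 k).1.2 ∧ al k ∧ S.hi1 (P.Γ2 k) ∧ S.tp (P.Γ2 k) 0 ∧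
    S.s (P.Γ2 k) = s0 ∧ S.t (P.Γ2 k) = s0
  n1 : ∀ k ∉ W1, D0.half (P.e0 k).1.1 → al k → S.tp (P.Γ1 k) 0 → S.s (P.Γ1 k) = s0 →
    S.hi0 (P.Γ1 k)
  n2 : ∀ k ∉ W2, D1.half (P.e1 k).1.2 → al k → S.tp (P.Γ2 k) 0 → S.s (P.Γ2 k) = s0 →
    S.hi0 (P.Γ2 k)
  ne : Nonempty P.IL

end Sk

namespace Cs
variable {S : Sk} (Z : Cs S)

/-- the homology of an end -/
abbrev H (a : S.E) : Type := (Z.cx a).Hm

open Classical in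
/-- the map of a point -/
def hm {a b : S.E} (σ : S.F a b) : Z.H a →ₗ[K] Z.H b := if h : S.Pt σ then (Z.ch h).hm else 0

theorem hm_eq {a b : S.E} {σ : S.F a b} (h : S.Pt σ) : Z.hm σ = (Z.ch h).hm := dif_pos h

/-- the total map, pointwise -/
def tot {a b : S.E} (f : S.Arr a b) (y : Z.H a) : Z.H b := ∑ᶠ i, Z.hm (f.f i) y

/-- the cap takes the value one -/
def NZ {x : S.E} (Q : S.F x S.one) : Prop := ∀ᶠ m in atTop, ∃ j, Z.z Q m j (Z.pt m) = 1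

open Classical in
/-- the model piece counts like `S¹ × B³` in the top degree -/
def Good (N : S.Cap) : Prop :=
  (∀ k, Z.dg (N.g1 k) ≤ Z.dg N.B) ∧ (∀ k, Z.dg (N.g2 k) ≤ Z.dg N.B) ∧ ∀ᶠ m in atTop, ∃ j,
    Z.z N.B m j (Z.pt m) = 1 ∧
      ∑ᶠ k, Z.z (N.g1 k) m j (Z.pt m) + ∑ᶠ k, Z.z (N.g2 k) m j (Z.pt m) = 1

end Cs

/-- ALG-1: maps of points -/
structure Bas {S : Sk} (Z : Cs S) : Prop where
  mem : ∀ {a b} (σ : S.F a b) x, ∀ y ∈ (Z.cx a).gr (S.s σ) x,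
    Z.hm σ y ∈ (Z.cx b).gr (S.t σ) (x + Z.dg σ)
  off : ∀ {a b} (σ : S.F a b) c x, c ≠ S.s σ → ∀ y ∈ (Z.cx a).gr c x, Z.hm σ y = 0
  fin : ∀ {a b} (f : S.Arr a b) y, (support fun i => Z.hm (f.f i) y).Finite
  inv : ∀ {a b} (σ τ τ' : S.F a b), S.Pt τ → S.Pt τ' → S.Bd σ [τ, τ'] [] → Z.hm τ = Z.hm τ'
  comp : ∀ {a b c} (σ τ : S.F a c) (τ₁ : S.F a b) (τ₂ : S.F b c), S.Pt τ → S.Pt τ₁ → S.Pt τ₂ →
    S.Bd σ [τ] [⟨b, τ₁, τ₂⟩] → Z.hm τ = Z.hm τ₂ ∘ₗ Z.hm τ₁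
  idn : ∀ {a} (σ : S.F a a), S.Pt σ → S.idn σ → ∀ x, ∀ y ∈ (Z.cx a).gr (S.s σ) x, Z.hm σ y = y
  hi1 : ∀ {a b} (σ : S.F a b), S.Pt σ → S.qhs a → S.qhs b → S.hi1 σ → ∃ n : ℚ, ∀ x, n ≤ x →
    ∀ y ∈ (Z.cx a).gr (S.s σ) x, Z.hm σ y = 0 → y = 0
  hi0 : ∀ {a b} (σ : S.F a b), S.hi0 σ → ∃ n : ℚ, ∀ x, n ≤ x →
    ∀ y ∈ (Z.cx a).gr (S.s σ) x, Z.hm σ y = 0
  al0 : ∀ {a b} (σ : S.F a b), S.al0 σ → Z.hm σ = 0
  one : finrank K (Z.H S.one) = 1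
  ex1 : ∀ σ : S.F S.one S.one, S.Pt σ → S.ex1 σ → Z.hm σ = LinearMap.id
  bnd : ∀ a b β (e : S.T β) (y : Z.H a), ∃ c : ℝ, ∀ (σ : S.F a b) (h : S.base σ = β),
    Z.hm σ y ≠ 0 → |S.prB σ h e| ≤ c
  /-- the module of a rational homology sphere -/
  hf : ∀ a (u : S.UD a), S.qhs a → ∃ X : Hf (S.L a), ∃ e : X.H ≃ₗ[K] Z.H a,
    (∀ c x y, y ∈ X.gr c x ↔ e y ∈ (Z.cx a).gr c x) ∧
    (∀ c x, ∀ y ∈ X.gr c x, e (X.U y) = Z.hm (u.U c) (e y)) ∧ X.w = (Z.A a).w ∧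
    (S.psc a → ∀ c (k : ℕ), finrank K (X.gr c (X.w c + 2 * k)) = 1 ∧
      X.gr c (X.w c + (2 * k + 1)) = ⊥ ∧ ∀ y ∈ X.gr c (X.w c + 2 * k + 2), X.U y = 0 → y = 0)
  nz : ∀ {a b x} (σ τ : S.F a b) (L : S.F3 a b x) (Q : S.F x S.one), S.qhs a → S.qhs b →
    S.CapI σ τ L Q → S.hi1 τ → Z.NZ Q
  bu : ∀ {a b x} (σ σ' τ τ' : S.F a b) (L : S.F3 a b x) (Q Q' : S.F x S.one), S.Pt τ → S.Pt τ' →
    S.thin x → S.CapI σ τ L Q → S.CapI σ' τ' L Q' → Z.NZ Q → Z.NZ Q' → Z.dg Q = Z.dg Q' →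
    Z.hm τ = Z.hm τ'

/-- ALG-1 -/
def BasStmt : Prop := ∀ (S : Sk.{u}) (Z : Cs S), Bas Z

/-- ALG-2: a model pentagon computes the value of the model piece -/
def GoodStmt : Prop := ∀ (S : Sk.{u}) (Z : Cs S) (a b c : S.E) (f : S.Arr a b) (g : S.Arr b c)
  (h : S.Arr c a) (D0 : Sk.Dbl f g) (D1 : Sk.Dbl g h) (N : S.Cap) (P : Sk.Pen D0 D1 N),
  Nonempty P.Mdl → Z.Good N

/-- ALG-3: the exact triangle, at the vertex `b` -/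
def TriStmt : Prop := ∀ (S : Sk.{u}) (Z : Cs S) (a b c : S.E) (f : S.Arr a b) (g : S.Arr b c)
  (h : S.Arr c a) (D0 : Sk.Dbl f g) (D1 : Sk.Dbl g h) (D2 : Sk.Dbl h f) (N : S.Cap)
  (P : Sk.Pen D0 D1 N) (P' : Sk.Pen D1 D2 N), Z.Good N → P.Id → P'.Id →
  Exact (Z.tot f) (Z.tot g)

/-- ALG-4: the pentagon at the empty vertex -/
def PentStmt : Prop := ∀ (S : Sk.{u}) (Z : Cs S) (b c : S.E) (f : S.Arr S.one b) (g : S.Arr b c)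
  (h : S.Arr c S.one) (D0 : Sk.Dbl f g) (D1 : Sk.Dbl g h) (N : S.Cap) (P : Sk.Pen D0 D1 N),
  Z.Good N → (∀ i i' : P.I0, i = i') → (∃ i, Z.hm (P.ι i) ≠ 0) → (∀ y, Z.tot h y = 0) → ∀ y, Z.tot f y = 0 → y = 0

/-- ALG-4': the pentagon at the empty vertex, over a set of triples -/
def Pent2Stmt : Prop := ∀ (S : Sk.{u}) (Z : Cs S) (b c : S.E) (f : S.Arr S.one b) (g : S.Arr b c)
  (h : S.Arr c S.one) (D0 : Sk.Dbl f g) (D1 : Sk.Dbl g h) (N : S.Cap) (T : f.I → g.I → h.I → Prop)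
  (P : Sk.Pen D0 D1 N T), Z.Good N → (∀ i i' : P.I0, i = i') → (∃ i, Z.hm (P.ι i) ≠ 0) →
  (∀ k, Z.hm (h.f k) = 0) → ∀ y, (∀ i, Z.hm (f.f i) y = 0) → y = 0

end Crest.Agent.X212.Flo2
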