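import Crest.Agent.X212.Flo2.Cs

/-!
# Row 212, layer AN-S (helper2): counts from single levels

`Gl S` : the constants that do not depend on the level.  `Lr` : the matrices of one level.
`Lr.Win` : the laws in a window.  `Gl.cs` : a sequence of levels with growing windows gives counts.
-/

set_option autoImplicit false
set_option linter.unusedSectionVars false

open Module Function Filter Set

noncomputable section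

universe u

namespace Crest.Agent.X212.Flo2

open Win22
open Bor5 (K)

/-- constants that do not depend on the level -/
structure Gl (S : Sk.{u}) : Type (max u 1) where
  fin : ∀ e, Finite (S.L e)
  w : ∀ e, S.L e → ℚ
  B : ∀ e, S.L e → ℕ
  N : S.E → ℕ
  dg : ∀ {a b}, S.F a b → ℚ
  dg3 : ∀ {a b x}, S.F3 a b x → ℚ
  D : ∀ {a b} (σ : S.F a b), Finset (S.C σ)
  c : ∀ β, S.T β → ℚ → ℝ
  n1 : ∀ {a b}, S.F a b → ℚ
  n0 : ∀ {a b}, S.F a b → ℚ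
  dg_fc : ∀ {a b} (σ : S.F a b), ∀ τ ∈ S.fc σ, dg τ + 1 = dg σ
  dg_nk : ∀ {a b} (σ : S.F a b), ∀ p ∈ S.nk σ, dg p.2.1 + dg p.2.2 + 1 = dg σ
  dg_cp : ∀ {a b} (σ : S.F a b) c, ¬S.dead (S.cp σ c).1 →
    dg3 (S.cp σ c).2.1 + dg (S.cp σ c).2.2 + 1 = dg σ
  dg_tp : ∀ {a b} (σ : S.F a b) r, S.tp σ r → dg σ = r
  psc : ∀ e, S.psc e → N e = 0
  sph : ∀ e, S.sph e → ∀ s, w e s = 0
  idn : ∀ {a} (σ : S.F a a), ¬S.idn σ
  al0 : ∀ {a b} (σ : S.F a b), ¬S.al0 σ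

variable {S : Sk.{u}} (Γ : Gl S)

/-- one level -/
structure Lr : Type (max u 1) where
  ι : S.E → Type
  [ft : ∀ e, Fintype (ι e)]
  [de : ∀ e, DecidableEq (ι e)]
  lab : ∀ e, ι e → S.L e × ℚ
  lat : ∀ e i, ∃ k : ℕ, (lab e i).2 = Γ.w e (lab e i).1 + k
  bd : ∀ e l, (lab e ⁻¹' {l}).ncard ≤ Γ.B e l.1
  d : ∀ e, ι e → ι e → K
  hom : ∀ e i k, d e i k ≠ 0 → lab e k = sh (lab e i)
  z : ∀ {a b} (_ : S.F a b), ι a → ι b → K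
  z3 : ∀ {a b x} (_ : S.F3 a b x), ι a → ι b → ι x → K
  hz : ∀ {a b} (σ : S.F a b) i k, z σ i k ≠ 0 → (lab a i).1 = S.s σ ∧
    lab b k = (S.t σ, (lab a i).2 + Γ.dg σ)
  hz3 : ∀ {a b x} (σ : S.F3 a b x) i k j, z3 σ i k j ≠ 0 → (lab a i).1 = S.s3 σ ∧
    (lab b k).1 = S.t3 σ ∧ (lab x j).1 = S.u3 σ ∧ (lab b k).2 + (lab x j).2 = (lab a i).2 + Γ.dg3 σ
  wfin : ∀ a b, {σ : S.F a b | z σ ≠ 0}.Finite
  pt : ι S.one
  pt_eq : ∀ i, i = pt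
  pt_deg : (lab S.one pt).2 = 0
  bnd : ∀ a b β (e : S.T β) (ρ : ℚ) (σ : S.F a b) (h : S.base σ = β) i k, -ρ ≤ Γ.dg σ →
    z σ i k ≠ 0 → |S.prB σ h e| ≤ Γ.c β e ρ
  thin : ∀ e, S.thin e → ∀ i j, (lab e i).2 = (lab e j).2 → i = j
  dead : ∀ e, S.dead e → IsEmpty (ι e)

attribute [instance] Lr.ft Lr.de

variable {Γ}

/-- the laws of an end in the window `r` -/
structure Lr.WE (Z : Lr Γ) (r : ℚ) (e : S.E) : Prop where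
  dd : ∀ i, (Z.lab e i).2 ≤ r → ∀ k, ∑ j, Z.d e i j * Z.d e j k = 0
  ev : S.qhs e → ∀ s (k : ℕ), Γ.N e ≤ k → (k : ℚ) ≤ r → Even k → ∃! i, Z.lab e i = (s, Γ.w e s + k)
  od : S.qhs e → ∀ s (k : ℕ), Γ.N e ≤ k → (k : ℚ) ≤ r → Odd k → ∀ i, Z.lab e i ≠ (s, Γ.w e s + k)

/-- the laws of a family in the window `r` -/
structure Lr.WF (Z : Lr Γ) (r : ℚ) {a b : S.E} (σ : S.F a b) : Prop where
  mas : ∀ i, (Z.lab a i).2 ≤ r → ∀ k, (∀ c ∉ Γ.D σ, ∀ j, Z.z3 (S.cp σ c).2.1 i k j = 0) ∧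
    ∑ j, Z.d a i j * Z.z σ j k + ∑ j, Z.z σ i j * Z.d b j k =
      ((S.fc σ).map fun τ => Z.z τ i k).sum +
      ((S.nk σ).map fun p => ∑ j, Z.z p.2.1 i j * Z.z p.2.2 j k).sum +
      ∑ c ∈ Γ.D σ, ∑ j, Z.z3 (S.cp σ c).2.1 i k j * Z.z (S.cp σ c).2.2 j Z.pt
  hi1 : S.hi1 σ → ∀ x, Γ.n1 σ ≤ x → x ≤ r → ∀ i, Z.lab a i = (S.s σ, x) → ∃ k, Z.z σ i k ≠ 0
  hi0 : S.hi0 σ → ∀ x, Γ.n0 σ ≤ x → x ≤ r → ∀ i, Z.lab a i = (S.s σ, x) → ∀ k, Z.z σ i k = 0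
  al1 : S.al1 σ → ∀ x ≤ r, ∀ i k, Z.lab a i = (S.s σ, x) → Z.lab b k = (S.t σ, x + Γ.dg σ) →
    Z.z σ i k = 1
  ex1 : S.ex1 σ → ∀ x ≤ r, ∀ i, Z.lab a i = (S.s σ, x) → ∃ k, Z.z σ i k ≠ 0

theorem ev_le (x : ℚ) : ∀ᶠ m : ℕ in atTop, x ≤ m :=
  (tendsto_natCast_atTop_atTop (R := ℚ)).eventually_ge_atTop x

/-- a sequence of levels gives counts -/
def Gl.cs (Z : ℕ → Lr Γ) (hE : ∀ e, ∀ᶠ m in atTop, (Z m).WE m e)
    (hF : ∀ a b (σ : S.F a b), ∀ᶠ m in atTop, (Z m).WF m σ) : Cs S where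
  A e :=
    { ι := fun m => (Z m).ι e, fin := Γ.fin e, lab := fun m => (Z m).lab e, w := Γ.w e
      lat := fun m => (Z m).lat e, bd := fun l => ⟨_, .of_forall fun m => (Z m).bd e l⟩ }
  d e m := (Z m).d e
  hom e m := (Z m).hom e
  dd e r := ((hE e).and (ev_le r)).mono fun _ h i hi => h.1.dd i (hi.trans h.2)
  z σ m := (Z m).z σ
  z3 σ m := (Z m).z3 σ
  dg := Γ.dg
  dg3 := Γ.dg3
  hz σ m := (Z m).hz σ
  hz3 σ m := (Z m).hz3 σ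
  dg_fc := Γ.dg_fc
  dg_nk := Γ.dg_nk
  dg_cp := Γ.dg_cp
  dg_tp := Γ.dg_tp
  wfin a b m := (Z m).wfin a b
  pt m := (Z m).pt
  pt_eq m := (Z m).pt_eq
  pt_deg m := (Z m).pt_deg
  mas σ r := ⟨Γ.D σ, ((hF _ _ σ).and (ev_le r)).mono fun _ h i hi k => by
    convert h.1.mas i (hi.trans h.2) k⟩
  bnd a b β e ρ := ⟨Γ.c β e ρ, fun _ => .of_forall fun m σ h i k h1 _ h2 =>
    (Z m).bnd a b β e ρ σ h i k h1 h2⟩
  N := Γ.N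
  ev e he s k hk h := ((hE e).and (ev_le k)).mono fun _ h' => h'.1.ev he s k hk h'.2 h
  od e he s k hk h := ((hE e).and (ev_le k)).mono fun _ h' => h'.1.od he s k hk h'.2 h
  psc := Γ.psc
  sph := Γ.sph
  thin e he m := (Z m).thin e he
  dead e he m := (Z m).dead e he
  idn σ h := (Γ.idn σ h).elim
  hi1 σ h := ⟨Γ.n1 σ, fun x hx => ((hF _ _ σ).and (ev_le x)).mono fun _ h' => h'.1.hi1 h x hx h'.2⟩
  hi0 σ h := ⟨Γ.n0 σ, fun x hx => ((hF _ _ σ).and (ev_le x)).mono fun _ h' => h'.1.hi0 h x hx h'.2⟩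
  al1 σ h x := ((hF _ _ σ).and (ev_le x)).mono fun _ h' => h'.1.al1 h x h'.2
  ex1 σ h x := ((hF _ _ σ).and (ev_le x)).mono fun _ h' => h'.1.ex1 h x h'.2
  al0 σ h := (Γ.al0 σ h).elim

end Crest.Agent.X212.Flo2
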