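import Crest.Agent.X212.Flo2.Fsm
import Crest.Agent.X212.Flo2.Seq

/-!
# Row 212, layer AN-S (helper2): constants, good levels
-/

set_option autoImplicit false
set_option linter.unusedSectionVars false
noncomputable section
open scoped Manifold ContDiff Topology InnerProductSpace
open MeasureTheory Set Function Filter

universe u

namespace Crest.Agent.X212.Flo2
open An Cyf70 Sw
open M (Mf)

variable {κ lam ν : Type} [Fintype κ] [Fintype lam] [Fintype ν] [DecidableEq ν]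
  {𝓔 : Type} [Fintype 𝓔] {ty : 𝓔 → Ty κ lam ν} {Sl : Type} [Fintype Sl] {W : Type}
  {mk : Mk κ lam ν} {G : Gr κ lam ν}

variable (mk G) in
/-- constants that do not depend on the level -/
structure Cst : Type 1 where
  w : Ty κ lam ν → ℚ
  N : End κ lam ν → ℕ
  B : Ty κ lam ν → ℕ
  K : Gc κ lam ν → ℕ
  n1 : Gc κ lam ν → ℚ
  n0 : Gc κ lam ν → ℚ
  c : ∀ b : Bs κ lam ν, b.Tf → ℚ → ℝ
  tow : ∀ ε, ε.1.OK mk → Tow G mk ε (w ε) (N ε.1)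
  N0 : ∀ e, IsEmpty e.L → N e = 0
  bd : ∀ ε, ε.1.OK mk → Ev (fun _ : Unit => ε) fun l Γ => ∀ x,
    {i | G.d l () ((Γ.g ()).x i) = x}.ncard ≤ B ε
  lift : ∀ g : Gc κ lam ν, g.Gd mk → ∀ i ∈ g.p3, (g.en i).kd = .tor →
    g.Ev mk fun p l Γ _ yt τ q => ∀ β n x, p.InV Γ β → β (p.ι i) true = Γ.lf _ n x →
      (p.M l yt τ β q).Nonempty → |n| ≤ K g
  bnd : ∀ g : Gc κ lam ν, g.Gd mk → g.p3 = none →
    g.Ev mk fun p l Γ _ yt τ q => ∀ β n, p.InV Γ β →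
      (∀ i ∈ g.pin, ∃ x, β (p.ι i) false = Γ.lf _ n x) → (p.M l yt τ β q).Nonempty →
      ∀ e ρ, -ρ ≤ G.dg g → |g.pr n e| ≤ c _ e ρ
  hi1 : ∀ g : Gc κ lam ν, g.Gd mk → g.Ir → mk.hi1 g → ∀ x, n1 g ≤ x →
    g.EvW mk fun p l Γ _ yt τ q => ∀ β, p.InV Γ β → p.dp G l β g.pin false = x →
      ∃ β', p.InV Γ β' ∧ (∀ j, β' j false = β j false) ∧
        p.dp G l β' g.pout true = x + G.dg g ∧ p.One l yt τ β' q
  hi0 : ∀ g : Gc κ lam ν, g.Gd mk → g.NoRed → g.Kp g.pin .qhs → g.p3 = none → (∀ c, g.wl c = none) →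
    ∀ x, n0 g ≤ x → g.EvW mk fun p l Γ _ yt τ q => ∀ β, p.InV Γ β →
      p.dp G l β g.pin false = x → p.dp G l β g.pout true = x + G.dg g → p.M l yt τ β q = ∅

theorem exCst (H : Lanes mk G) : Nonempty (Cst mk G) := by
  classical
  have h1 : ∀ e : End κ lam ν, ∃ (w : e.L → ℚ) (N : ℕ), (IsEmpty e.L → N = 0) ∧
      (e.OK mk → ∀ c, Tow G mk ⟨e, c⟩ (w c) N) := fun e => by
    by_cases h : e.OK mk ∧ Nonempty e.L
    · obtain ⟨w, N, k⟩ := H.tow e h.1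
      exact ⟨w, N, fun a => (not_nonempty_iff.2 a h.2).elim, fun _ => k⟩
    · exact ⟨0, 0, fun _ => rfl, fun a c => (h ⟨a, ⟨c⟩⟩).elim⟩
  choose w N h1 h2 using h1
  choose! B hB using fun (ε : Ty κ lam ν) (h : ε.1.OK mk) => (h2 ε.1 h ε.2).bd
  have h3 : ∀ g : Gc κ lam ν, ∃ K : ℕ, g.Gd mk → ∀ i ∈ g.p3, (g.en i).kd = .tor →
      g.Ev mk fun p l Γ _ yt τ q => ∀ β n x, p.InV Γ β → β (p.ι i) true = Γ.lf _ n x →
        (p.M l yt τ β q).Nonempty → |n| ≤ K := fun g => by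
    by_cases h : g.Gd mk ∧ ∃ i ∈ g.p3, (g.en i).kd = .tor
    · obtain ⟨h, i, a, b⟩ := h
      obtain ⟨K, k⟩ := H.bnd.lift g h i a b
      refine ⟨⌈K⌉₊, fun _ j a' _ 𝓔 _ ty Sl _ p hty => ?_⟩
      obtain rfl := Option.mem_unique a a'
      refine (k 𝓔 ty Sl p hty).mono fun l Γ => Exists.imp fun η k => ⟨k.1,
        fun W yt τ c q d β n x e1 e2 e3 => ?_⟩
      exact_mod_cast (k.2 W yt τ c q d β n x e1 e2 e3).trans (Nat.le_ceil K)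
    · exact ⟨0, fun a i b c => (h ⟨a, i, b, c⟩).elim⟩
  choose K hK using h3
  choose C hC using H.bnd.en
  obtain ⟨Kl, hl⟩ := H.bnd.lab
  choose! n1 h4 using H.rad.hi1
  choose! n0 h5 using H.rad.hi0
  refine ⟨⟨fun ε => w ε.1 ε.2, N, B, K, n1, n0, fun b e ρ => |Kl b e| * (1 + |C b| * (1 + max 0 (ρ : ℝ))),
    fun ε h => h2 ε.1 h ε.2, h1, hB, hK, fun g hg h3 𝓔 _ ty Sl _ p hty => ?_, h4, h5⟩⟩
  refine ((hC _ g rfl hg 𝓔 ty Sl p hty).and (hl g hg h3 𝓔 ty Sl p hty)).mono ?_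
  rintro l Γ ⟨⟨η, a1, a2⟩, η', b1, b2⟩
  refine ⟨_, lt_min a1 b1, fun W yt τ hτ q hq β n c1 c2 ⟨y, hy⟩ e ρ hρ => ?_⟩
  have sm : ∀ r, min η η' ≤ r → ∀ t, ((p.fam l yt τ).P t).Small 6 r q := fun r hr t =>
    (hq t).imp fun s k => ⟨k.1.trans hr, k.2⟩
  have k0 : (0 : ℝ) ≤ |C g.toBs| * (1 + max 0 (ρ : ℝ)) := by positivity
  have := b2 W yt τ hτ q (sm _ (min_le_right _ _)) β n c1 c2 y hy _ k0
    ((a2 W yt τ hτ q (sm _ (min_le_left _ _)) β c1 y hy).trans (ENNReal.ofReal_le_ofReal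
      (mul_le_mul (le_abs_self _) (add_le_add le_rfl (max_le_max le_rfl
        (by exact_mod_cast neg_le.1 hρ))) (by positivity) (abs_nonneg _)))) e
  rw [abs_of_nonneg (a := g.pr n e) (Real.sInf_nonneg (by rintro _ ⟨_, -, rfl⟩; exact abs_nonneg _))]
  exact this.trans (mul_le_mul_of_nonneg_right (le_abs_self _) (by positivity))

/-! ### lifts -/

/-- the lifts of size at most `K` -/
def Kd.Zi : Kd → ℕ → Finset ℤ
  | .tor, K => Finset.Icc (-K) K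
  | _, _ => {0}

theorem Kd.Zi_mono (k : Kd) {K K' : ℕ} (h : K ≤ K') : k.Zi K ⊆ k.Zi K' := by
  cases k
  exacts [subset_rfl, Finset.Icc_subset_Icc (by omega) (by omega), subset_rfl]

namespace Lv.Cx
open Classical
variable {l : Lv 𝓔} (Γ : l.Cx ty)

/-- the lifts of size at most `K` of the generators -/
def D (K : ℕ) (ε : 𝓔) : Finset (l.e ty ε).YC :=
  ((ty ε).1.kd.Zi K ×ˢ Finset.univ).image fun p => Γ.lf ε p.1 p.2

theorem lf_mem (ε n i) : Γ.lf ε n i ∈ Γ.V ε := ⟨(n, i), rfl⟩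

theorem D_sub (K ε) : ∀ v ∈ Γ.D K ε, v ∈ Γ.V ε := fun _ hv =>
  let ⟨p, _, h⟩ := Finset.mem_image.1 hv; ⟨p, h⟩

theorem D_mono {K K' : ℕ} (h : K ≤ K') (ε) : Γ.D K ε ⊆ Γ.D K' ε :=
  Finset.image_subset_image (Finset.product_subset_product_left (Kd.Zi_mono _ h))

theorem mem_D {K ε n} (h : n ∈ (ty ε).1.kd.Zi K) (i) : Γ.lf ε n i ∈ Γ.D K ε :=
  Finset.mem_image_of_mem _ (a := (n, i)) (by simpa using h)

theorem lf_zero (ε i) : Γ.lf ε 0 i = (Γ.g ε).x i := by simp only [lf, zpow_zero, act_one]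

theorem lf_q {ε} (he : (ty ε).1.OK mk) (h : (ty ε).1.kd = .qhs) (n i) : Γ.lf ε n i = Γ.lf ε 0 i := by
  have : ∀ y, (ty ε).1.u y = 1 := congrFun (he.qhs h).2.1
  simp only [lf, this, one_zpow]

theorem full {ε} (he : (ty ε).1.OK mk) (h : (ty ε).1.kd = .qhs) (K) : ∀ v ∈ Γ.V ε, v ∈ Γ.D K ε := by
  rintro _ ⟨p, rfl⟩
  show Γ.lf ε p.1 p.2 ∈ _
  rw [Γ.lf_q he h]
  exact Γ.mem_D (by simp [h, Kd.Zi]) _

theorem sum_D {M : Type} [AddCommMonoid M] (K ε) (f : (l.e ty ε).YC → M) :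
    ∑ v ∈ Γ.D K ε, f v = ∑ n ∈ (ty ε).1.kd.Zi K, ∑ i, f (Γ.lf ε n i) := by
  rw [D, Finset.sum_image, Finset.sum_product]
  by_cases h : (ty ε).1.kd = .tor
  · exact (Γ.inj ε h).injOn
  · rintro ⟨n, i⟩ h1 ⟨n', i'⟩ h2 e
    have k : ∀ n : ℤ, n ∈ (ty ε).1.kd.Zi K → n = 0 := by
      generalize (ty ε).1.kd = k at h
      cases k <;> simp_all [Kd.Zi]
    obtain rfl := k _ (Finset.mem_product.1 h1).1
    obtain rfl := k _ (Finset.mem_product.1 h2).1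
    have e' : (Γ.g ε).x i = (Γ.g ε).x i' := (Γ.lf_zero ε i).symm.trans (e.trans (Γ.lf_zero ε i'))
    have := (Γ.ok ε).inj (.inl i) (.inl i') (by
      have := eqv_act (e := l.e ty ε) (u := fun _ => 1) ⟨contMDiff_const, fun _ => norm_one⟩
        ((Γ.g ε).x i)
      rwa [act_one, show En3.Eqv _ _ = En3.Eqv _ ((Γ.g ε).x i') from congrArg _ e'] at this)
    rw [Sum.inl.inj this]

theorem sum_Dq {M : Type} [AddCommMonoid M] (K) {ε} (h : (ty ε).1.kd = .qhs)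
    (f : (l.e ty ε).YC → M) : ∑ v ∈ Γ.D K ε, f v = ∑ i, f (Γ.lf ε 0 i) := by
  rw [sum_D, h, Kd.Zi, Finset.sum_singleton]
  simp

end Lv.Cx

/-! ### good levels -/

variable (c : Cst mk G) (r : ℚ)

variable (ty) in
/-- the degrees in the window -/
def Cst.X : Set ℚ := {x | x ≤ r ∧ (x = 0 ∨ ∃ ε, ∃ k : ℕ, x = c.w (ty ε) + k)}

theorem fin_le (r : ℚ) : {k : ℕ | (k : ℚ) ≤ r}.Finite :=
  (finite_le_nat ⌈r⌉₊).subset fun _ h => Nat.cast_le.1 (le_trans h (Nat.le_ceil r))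

theorem Cst.X_fin : (c.X ty r).Finite :=
  ((finite_iUnion fun ε => (fin_le (r - c.w (ty ε))).image fun k : ℕ => c.w (ty ε) + k).insert
    0).subset (by
      rintro _ ⟨h, rfl | ⟨ε, k, rfl⟩⟩
      exacts [.inl rfl, .inr (mem_iUnion.2 ⟨ε, k, le_sub_iff_add_le'.2 h, rfl⟩)])

/-- the generators of one type at a good level -/
structure LT {l : Lv 𝓔} (Γ : l.Cx ty) (ε : 𝓔) : Prop where
  lat : ∀ i, ∃ k : ℕ, G.d l ε ((Γ.g ε).x i) = c.w (ty ε) + k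
  lf : ∀ n i, G.d l ε (Γ.lf ε n i) = G.d l ε ((Γ.g ε).x i)
  bd : ∀ x, {i | G.d l ε ((Γ.g ε).x i) = x}.ncard ≤ c.B (ty ε)
  ev : (ty ε).1.kd = .qhs → ∀ k : ℕ, (k : ℚ) ≤ r → c.N (ty ε).1 ≤ k →
    (Even k → ∃! i, G.d l ε ((Γ.g ε).x i) = c.w (ty ε) + k) ∧
      (Odd k → ∀ i, G.d l ε ((Γ.g ε).x i) ≠ c.w (ty ε) + k)
  thin : (ty ε).1.kd = .tor ∨ ((ty ε).1.kd = .qhs ∧ mk.psc (ty ε).1) →
    Injective fun i => G.d l ε ((Γ.g ε).x i)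
  dead : (ty ε).1.kd = .dead → IsEmpty (Γ.g ε).ι
  nb : ∃ C, (l.e ty ε).Nb C
  lw : ∀ i, mk.lw (ty ε) ≤ G.d l ε ((Γ.g ε).x i)

theorem Ev.imp {p : ∀ l : Lv 𝓔, l.Cx ty → Prop} {a : Prop} (h : a → Ev ty p) :
    Ev ty fun l Γ => a → p l Γ := by
  by_cases e : a
  exacts [(h e).mono fun _ _ k _ => k, .of_forall fun _ _ k => (e k).elim]

theorem EvO.imp {Φ : ∀ l : Lv 𝓔, l.Cx ty → (l.W ty W →₀ ℝ) → Prop} {a : Prop} (h : a → EvO ty W Φ) :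
    EvO ty W fun l Γ q => a → Φ l Γ q := by
  by_cases e : a
  exacts [(h e).mono fun _ _ _ k _ => k,
    (Ev.of_forall (p := fun _ _ => True) fun _ _ => trivial).evO.mono fun _ _ _ _ k => (e k).elim]

theorem ev_lt (H : Lanes mk G) {ε : 𝓔} (he : (ty ε).1.OK mk) : Ev ty fun _ Γ => LT c r Γ ε := by
  have t := c.tow _ he
  obtain ⟨C, hC⟩ := t.lev
  exact (Ev.at ε (t.lat.and (t.lf.and ((c.bd _ he).and ((Ev.imp fun h => Ev.fin (fin_le r) fun k _ =>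
    Ev.imp (t.ev h k)).and ((Ev.imp t.thin).and ((Ev.imp t.dead).and (hC.and (H.lw _ he))))))))).mono
    fun _ _ ⟨a, b, c, d, e, f, g, h⟩ => ⟨a, b, c, d, e, f, ⟨C, g.1⟩, h⟩

/-- one family at a good level -/
structure LF {g : Gc κ lam ν} (p : Plc ty Sl g) {l : Lv 𝓔} (Γ : l.Cx ty) (τ : Tm g (l.W ty W))
    (q : l.W ty W →₀ ℝ) : Prop where
  lift : ∀ i ∈ g.p3, (g.en i).kd = .tor → ∀ β n x, p.InV Γ β → β (p.ι i) true = Γ.lf _ n x →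
    (p.M l Prod.snd τ β q).Nonempty → |n| ≤ c.K g
  bnd : g.p3 = none → ∀ β n, p.InV Γ β → (∀ i ∈ g.pin, ∃ x, β (p.ι i) false = Γ.lf _ n x) →
    (p.M l Prod.snd τ β q).Nonempty → ∀ e ρ, -ρ ≤ G.dg g → |g.pr n e| ≤ c.c _ e ρ
  hi1 : mk.hi1 g → ∀ x ∈ c.X ty r, c.n1 g ≤ x → ∀ β, p.InV Γ β → p.dp G l β g.pin false = x →
    ∃ β', p.InV Γ β' ∧ (∀ j, β' j false = β j false) ∧
      p.dp G l β' g.pout true = x + G.dg g ∧ p.One l Prod.snd τ β' q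
  hi0 : g.NoRed ∧ g.Kp g.pin .qhs ∧ g.p3 = none ∧ (∀ c, g.wl c = none) → ∀ x ∈ c.X ty r, c.n0 g ≤ x →
    ∀ β, p.InV Γ β → p.dp G l β g.pin false = x → p.dp G l β g.pout true = x + G.dg g →
      p.M l Prod.snd τ β q = ∅
  al1 : mk.al1 g → ∀ x ∈ c.X ty r, ∀ β, p.InV Γ β → p.dp G l β g.pin false = x →
    p.dp G l β g.pout true = x + G.dg g → p.One l Prod.snd τ β q
  ex1 : mk.ex1 g → g.pin = none ∧ g.pout = none ∧ G.dg g = 0 ∧ ∀ β, p.One l Prod.snd τ β q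

theorem ev_lf (H : Lanes mk G) (hty : ∀ ε, (ty ε).1.OK mk) {g : Gc κ lam ν} (hg : g.Gd mk)
    (hr : g.Ir) (p : Plc ty Sl g) {τ : Tm g W} (hτ : τ.OK) :
    EvO ty W fun _ Γ q => LF c r p Γ (τ.map Prod.fst) q := by
  have X := c.X_fin (ty := ty) r
  have a := EvO.all fun i => EvO.imp fun h => EvO.imp fun h' =>
    (c.lift g hg i h h').evO p hty hτ H.lok hg.1
  have b := EvO.imp fun h => (c.bnd g hg h).evO p hty hτ H.lok hg.1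
  have d := EvO.imp fun h => EvO.fin X fun x _ => EvO.imp fun h' => (c.hi1 g hg hr h x h').evO p hty hτ
  have e := EvO.imp fun h : g.NoRed ∧ g.Kp g.pin .qhs ∧ g.p3 = none ∧ ∀ c, g.wl c = none =>
    EvO.fin X fun x _ => EvO.imp fun h' => (c.hi0 g hg h.1 h.2.1 h.2.2.1 h.2.2.2 x h').evO p hty hτ
  have f := EvO.imp fun h => EvO.fin X fun x _ => (H.rad.al1 g hg hr h x).evO p hty hτ
  have k := EvO.imp fun h => (H.rad.ex1 g hg hr h).2.2.2.evO p hty hτ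
  exact (a.and (b.and (d.and (e.and (f.and k))))).mono fun _ _ _ ⟨a, b, d, e, f, k⟩ =>
    ⟨a, b, d, e, f, fun h => let t := H.rad.ex1 g hg hr h; ⟨t.1, t.2.1, t.2.2.1, k h⟩⟩

/-- **good levels exist** -/
theorem Fst.level [Nonempty W] (H : Lanes mk G) (hty : ∀ ε, (ty ε).1.OK mk) (hi : Injective ty)
    (F : Fst.{u} ty Sl W mk G) (K : ℕ) : ∃ (l : Lv 𝓔) (Γ : l.Cx ty) (q : l.W ty W →₀ ℝ) (dz : _),
    (∀ ε, LT c r Γ ε) ∧ (∀ a, LF c r (F.p a) Γ (F.tm l a) q) ∧ F.Out Γ q r (Γ.D K) dz := by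
  obtain ⟨B, hB⟩ := ((finite_range fun ε => -c.w (ty ε)).insert 0).bddAbove
  obtain ⟨l, Γ, ⟨h1, O, o1, o2, o3⟩, h2⟩ := Ev.exists H.ex hty (((Ev.all fun ε => ev_lt c r H (hty ε)).and
    (EvO.all fun a => ev_lf c r H hty (F.gd a) (F.ir a) (F.p a) (F.ok a))).and
    (F.res H hty hi r (hB (mem_insert _ _))))
  obtain ⟨q, h3, dz, h4⟩ := h2 (by
    rintro ε _ ⟨p, rfl⟩
    obtain ⟨k, hk⟩ := (h1 ε).lat p.2
    have : -c.w (ty ε) ≤ B := hB (mem_insert_of_mem _ ⟨ε, rfl⟩)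
    rw [(h1 ε).lf, hk]
    linarith [Nat.cast_nonneg (α := ℚ) k]) (fun ε => (h1 ε).nb) (Γ.D K) (Γ.D_sub K) O o1 o2
  exact ⟨l, Γ, q, dz, h1, o3 q h3, h4⟩

end Crest.Agent.X212.Flo2
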