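import Crest.Agent.X212.Flo2.An1

/-!
# Row 212, layer AN-S (helper2): the constants of the skeleton, environments
-/

set_option autoImplicit false
set_option linter.unusedSectionVars false
noncomputable section
open scoped Manifold ContDiff Topology InnerProductSpace
open MeasureTheory Set Function Filter

namespace Crest.Agent.X212.Flo2
open An Cyf70 Sw
open M (Mf)

variable {κ lam ν : Type} [Fintype κ] [Fintype lam] [Fintype ν] [DecidableEq ν]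
  {mk : Mk κ lam ν} {G : Gr κ lam ν}

/-! ### degrees of faces -/

theorem card_fc {k k' : ℕ} {ι : Fin k' → Fin k} {c : Fin k} (hi : Injective ι) (h : range ι = {c}ᶜ) :
    k' + 1 = k := by
  have := Nat.card_range_of_injective hi
  rw [h, Nat.card_coe_set_eq, ncard_compl, ncard_singleton] at this
  simp only [Nat.card_eq_fintype_card, Fintype.card_fin] at this
  have := c.pos
  omega

theorem Bs.const_mem (b : Bs κ lam ν) {a : ℝ} (h0 : 0 ≤ a) (h1 : a ≤ 1) : (fun _ => a) ∈ b.dom :=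
  fun _ => ⟨h0, fun _ => h1⟩

theorem Gc.Fc.bij {g g' : Gc κ lam ν} {D ι φ n} (h : g.Fc g' D ι φ n) {t₀} (h0 : t₀ ∈ g.dom)
    {D' : Set (Tk g.k)} (hD : ∀ t, t ∈ D' ↔ t ∈ g.dom ∧ ∀ c ∉ range ι, t c = t₀ c) :
    BijOn (· ∘ ι) D' g'.dom := by
  obtain ⟨-, r, -, w, -⟩ := h.iso
  have w' : ∀ c, g'.wl c = none ↔ g.wl (ι c) = none := fun c => by
    rcases w c with ⟨a, b⟩ | ⟨_, a, _, b, -⟩ <;> simp_all
  refine ⟨fun t ht c => ⟨(((hD t).1 ht).1 _).1, fun e => (((hD t).1 ht).1 _).2 ((w' c).1 e)⟩,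
    fun t ht t' ht' e => funext fun c => ?_, fun t ht => ⟨extend ι t t₀, (hD _).2 ⟨fun c => ?_,
      fun c hc => extend_apply' _ _ _ hc⟩, funext fun c => h.inj.extend_apply _ _ c⟩⟩
  · by_cases k : c ∈ range ι
    · obtain ⟨c, rfl⟩ := k
      exact congrFun e c
    · exact (((hD t).1 ht).2 c k).trans (((hD t').1 ht').2 c k).symm
  · by_cases k : c ∈ range ι
    · obtain ⟨c, rfl⟩ := k
      rw [h.inj.extend_apply]
      exact ⟨(ht c).1, fun e => (ht c).2 ((w' c).2 e)⟩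
    · rw [extend_apply' _ _ _ k]
      exact h0 c

theorem Gc.Fc.bij1 {g g' : Gc κ lam ν} {D ι φ n} (h : g.Fc g' D ι φ n) {c} (hc : range ι = {c}ᶜ)
    {a : ℝ} (h0 : 0 ≤ a) (h1 : a ≤ 1) : BijOn (· ∘ ι) {t ∈ g.dom | t c = a} g'.dom :=
  h.bij (g.const_mem h0 h1) fun t => by simp [hc]

namespace Tr
variable {g : Gc κ lam ν} {τ : Tr g} (h : τ.WF mk) {c : Fin g.k}
include h

theorem WF.gd : g.Gd mk := ⟨τ.nd.ok, h.all.1⟩

theorem WF.gd2 {i} (hi : g.wl c = some i) : (τ.nd.g2' c).Gd mk :=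
  ⟨(τ.nd.wl c i hi).2.1, h.all.2.2.2.2.2.2 c (by simp [hi])⟩

omit h in
theorem pin2 {i} (hi : g.wl c = some i) : (τ.nd.g2' c).pin.map (τ.nd.g2' c).ty = some (g.ty i) := by
  obtain ⟨j₁, -, j₂, h2, r₁, r₂, e, -, h4, -⟩ := (τ.nd.wl c i hi).1.spl
  rw [show (τ.nd.g2' c).pin = some j₂ from h2, ← h4]
  rfl

variable (I : IndStmt G mk)
include I

theorem WF.dg_fc (hp : g.Kp g.pin .qhs) {g' : Gc κ lam ν} (h' : g'.Gd mk) {ι φ n} {a : ℝ}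
    (k : g.Fc g' {t ∈ g.dom | t c = a} ι φ n) (hc : range ι = {c}ᶜ) (h0 : 0 ≤ a) (h1 : a ≤ 1) :
    G.dg g' + 1 = G.dg g := by
  have := I.fc g g' h.gd h' (fun i hi => (hp i hi).trans_ne (by decide)) _ _ _ _ k ⟨_, g.const_mem h0 h1, rfl⟩
  have e : (g'.k + 1 : ℚ) = g.k := by exact_mod_cast card_fc k.inj hc
  linarith

theorem WF.dg_2 {i} (hi : g.wl c = some i) (hd : (g.en i).kd ≠ .dead) :
    G.dg (τ.nd.g2 c) = G.dg (τ.nd.g2' c) := by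
  obtain ⟨-, -, h1, h2, -⟩ := τ.nd.wl c i hi
  have := I.fc _ _ (h.gd2 hi) (h.all.2.2.2.2.1 c (by simp [hi])).gd (fun j hj => by
    have := pin2 (τ := τ) hi
    rw [show (τ.nd.g2' c).pin = some j from hj] at this
    exact (congrArg (·.1.kd) (Option.some.inj this)).trans_ne hd) _ _ _ _ h2
    ⟨_, Bs.const_mem _ le_rfl zero_le_one⟩
  have e : (τ.nd.g2 c).k = (τ.nd.g2' c).k := by simpa using Fintype.card_of_bijective ⟨h2.inj, h1⟩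
  rwa [e, sub_left_inj] at this

theorem WF.dg_wl {i} (hi : g.wl c = some i) (hd : (g.en i).kd ≠ .dead) :
    G.dg (τ.nd.g1 c) + G.dg (τ.nd.g2 c) + 1 = G.dg g := by
  rw [h.dg_2 I hi hd]
  exact I.wl _ _ _ h.gd (h.all.2.2.2.1 c).gd (h.gd2 hi) c i _ _ _ _ _ hi (τ.nd.wl c i hi).1 hd

omit h I in
theorem nk_q {i} (hi : g.wl c = some i) (hc : τ.nd.cap c = false) : (g.en i).kd = .qhs := by
  obtain ⟨j₁, -, j₂, -, r₁, r₂, e, -, -, -, -, -, -, -, -, -, k, -⟩ := (τ.nd.wl c i hi).1.spl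
  rw [hc] at k
  exact k.2.2

end Tr

/-! ### the constants -/

/-- lifts -/
def Kd.Zs : ∀ k : Kd, ℕ → Finset k.Z
  | .tor, K => (Finset.Icc (-K) K : Finset ℤ)
  | .qhs, _ => ({()} : Finset Unit)
  | .dead, _ => ({()} : Finset Unit)

theorem Kd.mem_Zs {k : Kd} {K : ℕ} {z : k.Z} : z ∈ k.Zs K ↔ k.toZ z ∈ k.Zi K := by
  cases k
  exacts [iff_of_true (Finset.mem_singleton_self _) (Finset.mem_singleton_self _), .rfl,
    iff_of_true (Finset.mem_singleton_self _) (Finset.mem_singleton_self _)]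

theorem Kd.sum_Zs {M : Type} [AddCommMonoid M] (k : Kd) (K : ℕ) (f : ℤ → M) :
    ∑ z ∈ k.Zs K, f (k.toZ z) = ∑ n ∈ k.Zi K, f n := by
  cases k
  exacts [rfl, rfl, rfl]

instance EE.fin : ∀ a : EE mk, Finite a.L
  | none => inferInstanceAs (Finite Unit)
  | some e => e.1.fin

theorem EE.ty_none {a : EE mk} {s : a.L} (h : a.ty s = none) : a = none := by
  cases a
  exacts [rfl, by cases h]

theorem EE.ty_some {a : EE mk} {s : a.L} {ε} (h : a.ty s = some ε) {p : End κ lam ν → Prop} :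
    a.P p ↔ p ε.1 := by
  cases a with
  | none => cases h
  | some e =>
    cases h
    exact ⟨fun ⟨_, h1, h2⟩ => by cases h1; exact h2, fun h => ⟨e, rfl, h⟩⟩

theorem EE.ty_eq {a : EE mk} {s s' : a.L} (h : a.ty s = a.ty s') : s = s' := by
  cases a with
  | none => rfl
  | some e => exact sigma_mk_injective (β := fun e : End κ lam ν => e.L) (i := e.1) (Option.some.inj h)

open Classical in
/-- the lifts at the caps that are used -/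
def Cst.DD (c : Cst mk G) {a b : EE mk} (σ : C2 a b) : Finset σ.C :=
  Finset.univ.sigma fun p => Kd.Zs _ (c.K (σ.τ.nd.g1 p.1.1))

theorem mem_fc {a b : EE mk} {σ τ : C2 a b} : τ ∈ (KA mk).fc σ ↔ σ.g.Kp σ.g.pin .qhs ∧
    ∃ c, τ = σ.f0 c ∨ ∃ h, τ = σ.f1 c h := by
  classical
  show τ ∈ (if σ.g.Kp σ.g.pin .qhs then (List.finRange σ.g.k).flatMap fun c =>
    σ.f0 c :: if h : σ.g.wl c = none then [σ.f1 c h] else [] else [] : List (C2 a b)) ↔ _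
  simp

theorem mem_nk {a b : EE mk} {σ : C2 a b} {p : Σ x, C2 a x × C2 x b} :
    p ∈ (KA mk).nk σ ↔ ∃ c i hi hc, p = σ.nk c i hi hc := by
  classical
  show p ∈ ((List.finRange σ.g.k).flatMap fun c =>
    if h : (σ.g.wl c).isSome ∧ σ.τ.nd.cap c = false then
      [σ.nk c _ (Option.some_get h.1).symm h.2] else [] : List (Σ x, C2 a x × C2 x b)) ↔ _
  simp only [List.mem_flatMap, List.mem_finRange, true_and, List.mem_dite_nil_right,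
    List.mem_singleton]
  refine ⟨fun ⟨c, h, e⟩ => ⟨c, _, _, _, e⟩, fun ⟨c, i, hi, hc, e⟩ => ⟨c, ⟨by simp [hi], hc⟩, ?_⟩⟩
  have : ∀ j hj, σ.nk c j hj hc = σ.nk c i hi hc := fun j hj => by
    obtain rfl := Option.mem_unique hj hi
    rfl
  exact e.trans (this _ _).symm

open Classical in
/-- the constants of the skeleton -/
def Cst.gl (c : Cst mk G) (I : IndStmt G mk) (A : (KA mk).Sub) : Gl ((KA mk).cut A) where
  fin := EE.fin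
  w a s := (EE.ty a s).elim 0 c.w
  B a s := (EE.ty a s).elim 1 c.B
  N a := Option.elim a 0 fun e => c.N e.1
  dg σ := G.dg σ.g
  dg3 σ := G.dg σ.g
  D σ := (c.DD σ).subtype _
  c := c.c
  n1 σ := c.n1 σ.g
  n0 σ := c.n0 σ.g
  dg_fc σ τ h := by
    obtain ⟨h1, k, rfl | ⟨e, rfl⟩⟩ := mem_fc.1 (List.mem_ite_nil_right.1 h).2
    · exact σ.wf.dg_fc I h1 (σ.wf.all.2.2.1 k).gd (σ.τ.nd.f0 k).2 (σ.τ.nd.f0 k).1 le_rfl zero_le_one
    · exact σ.wf.dg_fc I h1 (σ.wf.all.2.2.2.1 k).gd (σ.τ.nd.f1 k e).2.2 (σ.τ.nd.f1 k e).1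
        zero_le_one le_rfl
  dg_nk σ p h := by
    obtain ⟨k, i, hi, hc, rfl⟩ := mem_nk.1 (List.mem_ite_nil_right.1 h).2
    exact σ.wf.dg_wl I hi ((Tr.nk_q hi hc).trans_ne (by decide))
  dg_cp σ x h := σ.wf.dg_wl I x.1.1.2.1 fun e => h ⟨_, rfl, e⟩
  dg_tp σ r h := I.tp _ σ.wf.gd r h.2
  psc := by
    rintro _ ⟨e, rfl, h⟩
    exact (isEmpty_or_nonempty e.1.L).elim (c.N0 _) fun ⟨s⟩ => (c.tow ⟨e.1, s⟩ e.2).psc h.1 h.2
  sph := by
    rintro _ ⟨e, rfl, h⟩ s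
    exact (c.tow ⟨e.1, s⟩ e.2).sph h.1 h.2.1
  idn _ h := h.2
  al0 _ h := h

/-! ### environments -/

theorem exCl {g : Gc κ lam ν} (τ : Tr g) (h : τ.WF mk) (h' : τ.Irr) : ∃ S : Set (Nod κ lam ν),
    S.Finite ∧ ⟨g, τ⟩ ∈ S ∧ Cld S ∧ ∀ y ∈ S, y.2.WF mk ∧ y.2.Irr := by
  induction τ with
  | @mk g n f0 f1 f2 h0 h1 h2 =>
    choose S0 a0 b0 c0 d0 using fun c => h0 c (h.all.2.2.1 c) (h'.all.2.1 c)
    choose S1 a1 b1 c1 d1 using fun c => h1 c (h.all.2.2.2.1 c) (h'.all.2.2.1 c)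
    choose S2 a2 b2 c2 d2 using fun c e => h2 c (h.all.2.2.2.2.1 c e) (h'.all.2.2.2 c e)
    let S := insert ⟨g, .mk n f0 f1 f2⟩ (⋃ c, S0 c ∪ S1 c ∪ ⋃ e, S2 c e)
    have k0 : ∀ c, S0 c ⊆ S := fun c y hy => .inr (mem_iUnion.2 ⟨c, .inl (.inl hy)⟩)
    have k1 : ∀ c, S1 c ⊆ S := fun c y hy => .inr (mem_iUnion.2 ⟨c, .inl (.inr hy)⟩)
    have k2 : ∀ c e, S2 c e ⊆ S := fun c e y hy => .inr (mem_iUnion.2 ⟨c, .inr (mem_iUnion.2 ⟨e, hy⟩)⟩)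
    have k : ∀ y ∈ S, y = ⟨g, .mk n f0 f1 f2⟩ ∨
        ∃ T ⊆ S, y ∈ T ∧ Cld T ∧ ∀ y ∈ T, y.2.WF mk ∧ y.2.Irr := fun y hy => hy.imp_right fun hy => by
      obtain ⟨c, (hy | hy) | hy⟩ := mem_iUnion.1 hy
      exacts [⟨_, k0 c, hy, c0 c, d0 c⟩, ⟨_, k1 c, hy, c1 c, d1 c⟩,
        let ⟨e, hy⟩ := mem_iUnion.1 hy; ⟨_, k2 c e, hy, c2 c e, d2 c e⟩]
    refine ⟨S, (finite_iUnion fun c => ((a0 c).union (a1 c)).union (finite_iUnion (a2 c))).insert _,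
      .inl rfl, fun y hy c => ?_, fun y hy => ?_⟩
    · rcases k y hy with rfl | ⟨T, t1, t2, t3, -⟩
      · exact ⟨k0 c (b0 c), k1 c (b1 c), fun e => k2 c e (b2 c e)⟩
      · exact ⟨t1 (t3 y t2 c).1, t1 (t3 y t2 c).2.1, fun e => t1 ((t3 y t2 c).2.2 e)⟩
    · rcases k y hy with rfl | ⟨T, -, t2, -, t4⟩
      exacts [⟨h, h'⟩, t4 y t2]

/-- sites: nodes and literal caps -/
abbrev Sit (𝒦 : Set (Nod κ lam ν)) : Type 1 :=
  𝒦 ⊕ Σ x : 𝒦, {c : Fin x.1.1.k // x.1.1.wl c ≠ none ∧ x.1.2.nd.cap c = true}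

/-- the family of a site -/
abbrev Sit.g {𝒦 : Set (Nod κ lam ν)} : Sit 𝒦 → Gc κ lam ν
  | .inl x => x.1.1
  | .inr y => y.1.1.2.nd.g2' y.2

variable (mk) in
/-- finitely many nodes with terms, types, placements -/
structure Env : Type 1 where
  𝒦 : Set (Nod κ lam ν)
  fin : 𝒦.Finite
  cld : Cld 𝒦
  wf : ∀ x ∈ 𝒦, x.2.WF mk
  irr : ∀ x ∈ 𝒦, x.2.Irr
  T : TS 𝒦
  n : ℕ
  ty : Fin n → Ty κ lam ν
  inj : Injective ty
  ok : ∀ ε, (ty ε).1.OK mk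
  s : ℕ
  p : ∀ a : Sit 𝒦, Plc ty (Fin (s + 1)) a.g

theorem Sit.gd {𝒦 : Set (Nod κ lam ν)} (wf : ∀ x ∈ 𝒦, x.2.WF mk) : ∀ a : Sit 𝒦, a.g.Gd mk
  | .inl x => (wf _ x.2).gd
  | .inr y => let ⟨_, h⟩ := Option.ne_none_iff_exists'.1 y.2.2.1; (wf _ y.1.2).gd2 h

theorem exEnv (hx : ExtStmt mk) {𝒩 : Set (Nod κ lam ν)} (h1 : 𝒩.Finite)
    (h2 : ∀ x ∈ 𝒩, x.2.WF mk ∧ x.2.Irr) {𝒯 : Set (Ty κ lam ν)} (h3 : 𝒯.Finite)
    (h4 : ∀ ε ∈ 𝒯, ε.1.OK mk) : ∃ E : Env mk, 𝒩 ⊆ E.𝒦 ∧ 𝒯 ⊆ range E.ty := by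
  choose! S a b c d using fun (x : Nod κ lam ν) (h : x ∈ 𝒩) => exCl x.2 (h2 x h).1 (h2 x h).2
  obtain ⟨𝒦, k1, k2, k3, k4⟩ : ∃ 𝒦 : Set (Nod κ lam ν), 𝒦.Finite ∧ 𝒩 ⊆ 𝒦 ∧ Cld 𝒦 ∧
      ∀ y ∈ 𝒦, y.2.WF mk ∧ y.2.Irr := by
    refine ⟨⋃ x ∈ 𝒩, S x, h1.biUnion a, fun x h => mem_biUnion h (b x h), fun y hy k => ?_,
      fun y hy => ?_⟩ <;> obtain ⟨x, h, hy⟩ := mem_iUnion₂.1 hy
    · exact ⟨mem_biUnion h (c x h y hy k).1, mem_biUnion h (c x h y hy k).2.1,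
        fun e => mem_biUnion h ((c x h y hy k).2.2 e)⟩
    · exact d x h y hy
  have := k1.to_subtype
  obtain ⟨T⟩ := hx 𝒦 k1 k3 fun x h => (k4 x h).1
  obtain ⟨n, ty, t1, t2⟩ := (h3.union (finite_iUnion fun a : Sit 𝒦 => finite_range a.g.ty)).fin_param
  obtain ⟨s, hs⟩ := (finite_range fun a : Sit 𝒦 => Fintype.card a.g.N).bddAbove
  have hp : ∀ a : Sit 𝒦, Nonempty (Plc ty (Fin (s + 1)) a.g) := fun a => by
    choose e he using fun i => t2.ge (mem_union_right _ (mem_iUnion.2 ⟨a, mem_range_self i⟩))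
    obtain ⟨j⟩ := Embedding.nonempty_of_card_le (α := a.g.N) (β := Fin (s + 1))
      (by simpa using (hs ⟨a, rfl⟩).trans s.le_succ)
    exact ⟨⟨fun i => (e i, j i), fun _ _ h => j.injective (congrArg Prod.snd h), he⟩⟩
  refine ⟨⟨𝒦, k1, k3, fun x h => (k4 x h).1, fun x h => (k4 x h).2, T, n, ty, t1, fun ε => ?_, s,
    fun a => (hp a).some⟩, k2, subset_union_left.trans t2.ge⟩
  rcases t2.le ⟨ε, rfl⟩ with h | h
  · exact h4 _ h
  · obtain ⟨a, i, h⟩ := mem_iUnion.1 h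
    exact h ▸ (a.gd fun x h => (k4 x h).1).2 i

namespace Env
variable (E : Env mk)

/-- the terms of a site -/
abbrev τ : ∀ a : Sit E.𝒦, Tm a.g E.T.W
  | .inl x => E.T.τ x
  | .inr y => E.T.τ2 y.1 y.2

/-- the past piece -/
abbrev L : ∀ a : Sit E.𝒦, Fin a.g.k → Sit E.𝒦
  | .inl x, c => .inl ⟨_, (E.cld _ x.2 c).2.1⟩
  | .inr y, _ => .inr y

open Classical in
/-- the future piece -/
def R : ∀ a : Sit E.𝒦, Fin a.g.k → Sit E.𝒦
  | .inl x, c => if h : x.1.1.wl c ≠ none then if h' : x.1.2.nd.cap c = true then .inr ⟨x, c, h, h'⟩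
      else .inl ⟨_, (E.cld _ x.2 c).2.2 h⟩ else .inl x
  | .inr y, _ => .inr y

theorem R_cap (x : E.𝒦) {c} (h : x.1.1.wl c ≠ none) (h' : x.1.2.nd.cap c = true) :
    E.R (.inl x) c = .inr ⟨x, c, h, h'⟩ := (dif_pos h).trans (dif_pos h')

theorem R_nk (x : E.𝒦) {c} (h : x.1.1.wl c ≠ none) (h' : x.1.2.nd.cap c = false) :
    E.R (.inl x) c = .inl ⟨_, (E.cld _ x.2 c).2.2 h⟩ := (dif_pos h).trans (dif_neg (by simp [h']))

theorem ok2 (y : Σ x : E.𝒦, {c : Fin x.1.1.k // x.1.1.wl c ≠ none ∧ x.1.2.nd.cap c = true}) :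
    ((E.T.τ2 y.1 y.2).OK ∧ (E.T.τ2 y.1 y.2).Rich) ∧ (y.1.1.2.nd.g2' y.2).pin ≠ none :=
  let ⟨i, h⟩ := Option.ne_none_iff_exists'.1 y.2.2.1
  have k := E.T.cp _ y.1.2 _ i h y.2.2.2
  ⟨⟨k.1, k.2.1⟩, fun e => by simpa [e] using Tr.pin2 (τ := y.1.1.2) h⟩

/-- the forest -/
abbrev F (hf : FreqStmt G mk) : Fst.{1} E.ty (Fin (E.s + 1)) E.T.W mk G where
  Y := Sit E.𝒦
  fin := have := E.fin.to_subtype; inferInstance
  g := Sit.g
  τ := E.τ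
  p := E.p
  s₀ := 0
  L := E.L
  R := E.R
  cap a := match a with
    | .inl x => x.1.2.nd.cap
    | .inr _ => fun _ => false
  gd := Sit.gd E.wf
  ir := by
    rintro (x | y)
    exacts [(E.irr _ x.2).all.1, fun h => ((E.ok2 y).2 h).elim]
  fq := by
    rintro (x | y)
    exacts [hf.cel _ _ (E.wf _ x.2) (E.irr _ x.2),
      hf.cap _ (Sit.gd E.wf (.inr y)) (E.ok2 y).2 (y.1.1.2.nd.cw _ y.2.2.2)]
  ok := by
    rintro (x | y)
    exacts [(E.T.ok _ x.2).1, (E.ok2 y).1.1]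
  rich := by
    rintro (x | y)
    exacts [(E.T.ok _ x.2).2, (E.ok2 y).1.2]
  wl := by
    rintro (x | y) c i hi
    · have h : x.1.1.wl c ≠ none := by simp [show x.1.1.wl c = some i from hi]
      rcases e : x.1.2.nd.cap c with _ | _
      · rw [E.R_nk x h e]
        exact ⟨_, _, _, _, e ▸ E.T.nk _ x.2 c i hi e⟩
      · rw [E.R_cap x h e]
        exact ⟨_, _, _, _, e ▸ (E.T.cp _ x.2 c i hi e).2.2.1⟩
    · cases (y.1.1.2.nd.cw _ y.2.2.2 c).symm.trans hi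

end Env

end Crest.Agent.X212.Flo2
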