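import Crest.Agent.X212.Flo2.An2

/-!
# Row 212, layer AN-S (helper2): the matrices of a stage
-/

set_option autoImplicit false
set_option linter.unusedSectionVars false
noncomputable section
open scoped Manifold ContDiff Topology InnerProductSpace
open MeasureTheory Set Function Filter

universe u

namespace Crest.Agent.X212.Flo2
open An Cyf70 Sw
open M (Mf)
open Bor5 (K)

variable {κ lam ν : Type} [Fintype κ] [Fintype lam] [Fintype ν] [DecidableEq ν]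
  {𝓔 : Type} [Fintype 𝓔] {ty : 𝓔 → Ty κ lam ν} {Sl : Type} [Fintype Sl] {W : Type}
  {mk : Mk κ lam ν} {G : Gr κ lam ν}

/-! ### generators -/

namespace Lv.Cx
variable {l : Lv 𝓔} (Γ : l.Cx ty)

/-- generators of all types -/
abbrev O : Type := Option (Σ ε, (Γ.g ε).ι)

/-- the lift `n` -/
def val (n : ℤ) (o : Γ.O) : l.PV ty := o.map fun y => ⟨y.1, Γ.lf y.1 n y.2⟩

theorem val_fst (n o) : (Γ.val n o).map Sigma.fst = o.map Sigma.fst := by cases o <;> rfl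

theorem val_in (n o) : Γ.In (Γ.val n o) := by
  cases o
  exacts [Γ.in_none, in_some.2 (Γ.lf_mem _ _ _)]

theorem of_fst {o : Γ.O} {ε} (h : o.map Sigma.fst = some ε) : ∃ y, o = some ⟨ε, y⟩ := by
  obtain ⟨⟨_, y⟩, rfl, rfl⟩ := Option.map_eq_some_iff.1 h
  exact ⟨y, rfl⟩

theorem pv_val (hty : ∀ ε, (ty ε).1.OK mk) {g : Gc κ lam ν} (p : Plc ty Sl g) {m o} (n vo v3)
    (h : (Γ.val m o).map Sigma.fst = p.pe g.pin) :
    p.pv l (p.bcv l (Γ.val m o) vo v3) g.pin false n = Γ.val (m + n) o := by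
  rw [val_fst] at h
  rcases e : g.pin with _ | i <;> rw [e] at h
  · rw [Option.map_eq_none_iff.1 h]
    rfl
  · obtain ⟨y, rfl⟩ := Γ.of_fst h
    refine congrArg (fun v => some (Sigma.mk _ v)) ?_
    rw [Plc.bcv_in, show Γ.val m (some ⟨_, y⟩) = some ⟨_, Γ.lf _ m y⟩ from rfl, Lv.get_some]
    exact act_zpow (Γ.ok _).ok (hty _).u m n _

/-- the generators of an end -/
def ι (a : EE mk) : Type := {x : a.L × Γ.O // a.ty x.1 = (x.2.map Sigma.fst).map ty}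

instance (a : EE mk) : Fintype (Γ.ι a) := by
  unfold ι
  exact .ofFinite _

variable {Γ} {a : EE mk}

theorem ι_ext {i j : Γ.ι a} (h : i.1.2 = j.1.2) : i = j :=
  Subtype.ext (Prod.ext (EE.ty_eq (by rw [i.2, j.2, h])) h)

theorem ι_none (i : Γ.ι (none : EE mk)) : i.1.2 = none := by simpa [EE.ty] using i.2.symm

theorem ι_fst (hi : Injective ty) (i : Γ.ι a) {s o} (h : a.ty s = Option.map ty o) :
    i.1.2.map Sigma.fst = o ↔ i.1.1 = s := by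
  rw [← (Option.map_injective hi).eq_iff, ← h, ← i.2]
  exact ⟨EE.ty_eq, congrArg _⟩

theorem ι_cls (hi : Injective ty) (i : Γ.ι a) {g : Gc κ lam ν} (p : Plc ty Sl g) {s o}
    (h : Option.map g.ty o = a.ty s) (n) : (Γ.val n i.1.2).map Sigma.fst = p.pe o ↔ i.1.1 = s := by
  rw [val_fst, ι_fst hi i (h.symm.trans (p.pe_ty o).symm)]

theorem fit_iff (hi : Injective ty) {b x : EE mk} (σ : C3 a b x) (p : Plc ty Sl σ.g) {n n' n''}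
    {i : Γ.ι a} {k : Γ.ι b} {j : Γ.ι x} :
    p.Fit Γ (Γ.val n i.1.2) (Γ.val n' k.1.2) (Γ.val n'' j.1.2) ↔
      i.1.1 = σ.s ∧ k.1.1 = σ.t ∧ j.1.1 = σ.u := by
  rw [← ι_cls hi i p σ.hs n, ← ι_cls hi k p σ.ht n', ← ι_cls hi j p σ.hu n'']
  exact ⟨fun h => ⟨h.1, h.2, h.3⟩, fun h => ⟨h.1, h.2.1, h.2.2, Γ.val_in _ _, Γ.val_in _ _,
    Γ.val_in _ _⟩⟩

theorem val_q (hty : ∀ ε, (ty ε).1.OK mk) (h : a = none ∨ a.P fun e => e.kd = .qhs) (n)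
    (i : Γ.ι a) : Γ.val n i.1.2 = Γ.val 0 i.1.2 := by
  obtain ⟨⟨s, _ | y⟩, e⟩ := i
  · rfl
  · refine congrArg (fun v => some (Sigma.mk _ v)) (Γ.lf_q (hty _) ?_ n y.2)
    exact h.elim (by rintro rfl; cases e) (EE.ty_some e).1

theorem sum_ι {M : Type} [AddCommMonoid M] {s ε} (h : a.ty s = some (ty ε)) (f : Γ.O → M)
    (hf : ∀ o, f o ≠ 0 → o.map Sigma.fst = some ε) : ∑ j : Γ.ι a, f j.1.2 = ∑ y, f (some ⟨ε, y⟩) :=
  (Fintype.sum_of_injective (κ := Γ.ι a) (fun y => ⟨(s, some ⟨ε, y⟩), h⟩)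
    (fun _ _ e => sigma_mk_injective (β := fun ε => (Γ.g ε).ι)
      (Option.some.inj (congrArg (fun j : Γ.ι a => j.1.2) e))) _
    (fun j => f j.1.2) (fun _ hj => by_contra fun k =>
      let ⟨y, e⟩ := Γ.of_fst (hf _ k); hj ⟨y, ι_ext e.symm⟩) fun _ => rfl).symm

end Lv.Cx

theorem EE.kp {a : EE mk} {g : Gc κ lam ν} {o : Option g.N} {s : a.L} (h : o.map g.ty = a.ty s)
    (k : g.Kp o .qhs) : a = none ∨ a.P fun e => e.kd = .qhs := by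
  cases o
  exacts [.inl (EE.ty_none h.symm), .inr ((EE.ty_some h.symm).2 (k _ rfl))]

/-! ### counts in a forest -/

namespace Fst
variable {F : Fst.{u} ty Sl W mk G} {l : Lv 𝓔} {q : l.W ty W →₀ ℝ} {a a' : F.Y} {Γ : l.Cx ty}
  {vi vo v3 : l.PV ty}

theorem Z_ne (h : F.Z l q a vi vo v3 ≠ 0) : G.dg (F.g a) + G.dv l vi = G.dv l vo + G.dv l v3 ∧
    ((F.p a).M l Prod.snd (F.tm l a) ((F.p a).bcv l vi vo v3) q).Nonempty := by
  rw [Z] at h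
  split_ifs at h with k
  exacts [⟨k, Plc.ne_of_zc (by rwa [← Plc.cz_dom])⟩, (h rfl).elim]

theorem Z_one {β} (h : (F.p a).One l Prod.snd (F.tm l a) β q)
    (h1 : (F.p a).pw l β (F.g a).pin false = vi) (h2 : (F.p a).pw l β (F.g a).pout true = vo)
    (h3 : (F.p a).pw l β (F.g a).p3 true = v3)
    (k : G.dg (F.g a) + G.dv l vi = G.dv l vo + G.dv l v3) : F.Z l q a vi vo v3 = 1 := by
  rw [Z, if_pos k, ← h1, ← h2, ← h3, cz, ← Plc.cnt_cz _ _ _ _ _ (F.gd a).1, ← Plc.zc_eq, h.zc]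

theorem Z_lift {c : Cst mk G} {r} (hl : LF c r (F.p a) Γ (F.tm l a) q) {ε n y}
    (h : (F.p a).Fit Γ vi vo (some ⟨ε, Γ.lf ε n y⟩)) (ht : (ty ε).1.kd = .tor)
    (k : F.Z l q a vi vo (some ⟨ε, Γ.lf ε n y⟩) ≠ 0) : |n| ≤ c.K (F.g a) := by
  obtain ⟨i, e, rfl⟩ := Option.map_eq_some_iff.1 h.e3.symm
  exact hl.lift i e ((congrArg (·.1.kd) ((F.p a).ty i)).symm.trans ht) _ n y (h.inV (F.gd a).1)
    (((F.p a).bcv_3 l (F.gd a).1 e).trans (l.get_some _ _)) (Z_ne k).2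

theorem cz_fc (H : FcStmt κ lam ν) (hty : ∀ ε, (ty ε).1.OK mk) (hi : Injective ty) {D ι φ n}
    (h : (F.g a).FcT (F.g a') D ι φ n (F.τ a) (F.τ a')) (hb : BijOn (· ∘ ι) D (F.g a').dom) {m o}
    (k : (F.p a).Fit Γ (Γ.val m o) vo v3) (k' : (F.p a').Fit Γ (Γ.val (m + n) o) vo v3) :
    F.cz l q a D (Γ.val m o) vo v3 = F.cz l q a' (F.g a').dom (Γ.val (m + n) o) vo v3 := by
  refine cnt_eq (d := l.dt ty Prod.snd) _ hb (fun t ht => H _ _ D ι φ n _ _ _ (F.gd a).1 (F.gd a').1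
    ((F.ok a).map _) ((F.ok a').map _) (h.map Prod.fst) 𝓔 ty Sl _ _ l Prod.snd hi (fun ε => (hty ε).u)
    (fun ε => (Γ.ok ε).ok) Γ.w0 _ _ (fun j s hj => ?_) ?_ ?_ ?_ t ht) q
  · obtain ⟨i, rfl, hk⟩ := ((F.p a').lev_inf _ l j s).1 hj
    exact ((Γ.rs _).gd _ (k'.inV (F.gd a').1 i s hk)).crit
  · rw [Plc.pv_zero, Plc.pw_in k'.ei, Γ.pv_val hty _ _ _ _ k.ei]
  · rw [Plc.pv_zero, Plc.pv_zero, Plc.pw_out k'.eo, Plc.pw_out k.eo]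
  · rw [Plc.pv_zero, Plc.pv_zero, Plc.pw_3 (F.gd a').1 k'.e3, Plc.pw_3 (F.gd a).1 k.e3]

end Fst

/-! ### stages -/

/-- an environment at a good level -/
structure Stg (c : Cst mk G) (hf : FreqStmt G mk) (m : ℕ) : Type 1 extends Env mk where
  l : Lv (Fin n)
  Γ : l.Cx ty
  q : l.W ty T.W →₀ ℝ
  dz : ∀ ε, (l.e ty ε).YC → (l.e ty ε).YC → ℕ
  K₀ : ℕ
  hK : ∀ x ∈ 𝒦, c.K x.1 ≤ K₀
  lt : ∀ ε, LT c m Γ ε
  lf : ∀ a, LF c m (p a) Γ ((toEnv.F hf).tm l a) q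
  out : (toEnv.F hf).Out Γ q m (Γ.D K₀) dz

theorem exStg (H : Lanes mk G) (c : Cst mk G) (m : ℕ) (E : Env mk) :
    ∃ S : Stg c H.freq m, S.toEnv = E := by
  have := E.T.ne
  obtain ⟨K, hK⟩ := (E.fin.image fun x => c.K x.1).bddAbove
  obtain ⟨l, Γ, q, dz, h1, h2, h3⟩ := (E.F H.freq).level c m H E.ok E.inj K
  exact ⟨⟨E, l, Γ, q, dz, K, fun x h => hK ⟨x, h, rfl⟩, h1, h2, h3⟩, rfl⟩

namespace Stg
variable {c : Cst mk G} {hf : FreqStmt G mk} {m : ℕ} (S : Stg c hf m) {a b x : EE mk}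

open Classical in
/-- the counts of a node -/
def Zv (y : Nod κ lam ν) (vi vo v3 : S.l.PV S.ty) : ℕ :=
  if h : y ∈ S.𝒦 then if (S.p (.inl ⟨y, h⟩)).Fit S.Γ vi vo v3 then
    (S.F hf).Z S.l S.q (.inl ⟨y, h⟩) vi vo v3 else 0 else 0

open Classical in
/-- the counts on cylinders -/
def dv (v v' : S.l.PV S.ty) : ℕ := v.elim 0 fun y =>
  if (S.ty y.1).1.kd = .qhs ∧ v'.map Sigma.fst = some y.1 then S.dz y.1 y.2 (S.l.get y.1 v') else 0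

/-- labels -/
def lab (i : S.Γ.ι a) : a.L × ℚ := (i.1.1, G.dv S.l (S.Γ.val 0 i.1.2))

/-- the generator of the empty end -/
def pt : S.Γ.ι (none : EE mk) := ⟨((), none), rfl⟩

/-- the differential -/
def d (i j : S.Γ.ι a) : K := S.dv (S.Γ.val 0 i.1.2) (S.Γ.val 0 j.1.2)

/-- the matrices of cells with three ports -/
def z3 (σ : C3 a b x) (i : S.Γ.ι a) (k : S.Γ.ι b) (j : S.Γ.ι x) : K :=
  S.Zv ⟨σ.g, σ.τ⟩ (S.Γ.val σ.n i.1.2) (S.Γ.val 0 k.1.2) (S.Γ.val σ.n j.1.2)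

open Classical in
/-- the matrices of cells -/
def z (A : (KA mk).Sub) (σ : C2 a b) (i : S.Γ.ι a) (k : S.Γ.ι b) : K :=
  if ⟨a, b, σ⟩ ∈ A.F ∧ |σ.n| ≤ m then S.z3 σ i k S.pt else 0

variable {S}

theorem Zv_eq {y vi vo v3} (h : y ∈ S.𝒦) (k : (S.p (.inl ⟨y, h⟩)).Fit S.Γ vi vo v3) :
    S.Zv y vi vo v3 = (S.F hf).Z S.l S.q (.inl ⟨y, h⟩) vi vo v3 := by rw [Zv, dif_pos h, if_pos k]

theorem Zv_ne {y vi vo v3} (k : S.Zv y vi vo v3 ≠ 0) : ∃ h : y ∈ S.𝒦,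
    (S.p (.inl ⟨y, h⟩)).Fit S.Γ vi vo v3 ∧ (S.F hf).Z S.l S.q (.inl ⟨y, h⟩) vi vo v3 ≠ 0 := by
  rw [Zv] at k
  split_ifs at k with h h'
  exacts [⟨h, h', k⟩, (k rfl).elim, (k rfl).elim]

theorem dv_ne {v v'} (k : S.dv v v' ≠ 0) : ∃ ε y y', v = some ⟨ε, y⟩ ∧ v' = some ⟨ε, y'⟩ ∧
    (S.ty ε).1.kd = .qhs ∧ S.dz ε y y' ≠ 0 := by
  obtain _ | ⟨ε, y⟩ := v
  · exact (k rfl).elim
  · rw [dv, Option.elim_some] at k
    split_ifs at k with h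
    · obtain ⟨⟨_, y'⟩, rfl, rfl⟩ := Option.map_eq_some_iff.1 h.2
      exact ⟨_, y, y', rfl, rfl, h.1, by rwa [Lv.get_some] at k⟩
    · exact (k rfl).elim

theorem dv_eq {ε y y'} (h : (S.ty ε).1.kd = .qhs) :
    S.dv (some ⟨ε, y⟩) (some ⟨ε, y'⟩) = S.dz ε y y' := by
  rw [dv, Option.elim_some, if_pos ⟨h, rfl⟩, Lv.get_some]

theorem dv_val (n o) : G.dv S.l (S.Γ.val n o) = G.dv S.l (S.Γ.val 0 o) := by
  cases o
  exacts [rfl, ((S.lt _).lf _ _).trans ((S.lt _).lf _ _).symm]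

theorem cast_ne {n : ℕ} (h : (n : K) ≠ 0) : n ≠ 0 := fun e => h (by rw [e, Nat.cast_zero])

theorem hz3 {σ : C3 a b x} {i k j} (h : S.z3 σ i k j ≠ 0) : (S.lab i).1 = σ.s ∧ (S.lab k).1 = σ.t ∧
    (S.lab j).1 = σ.u ∧ (S.lab k).2 + (S.lab j).2 = (S.lab i).2 + G.dg σ.g := by
  obtain ⟨h1, h2, h3⟩ := Zv_ne (cast_ne h)
  have e := (Fst.Z_ne h3).1
  obtain ⟨e1, e2, e3⟩ := (Lv.Cx.fit_iff S.inj σ _).1 h2
  rw [dv_val σ.n, dv_val σ.n] at e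
  exact ⟨e1, e2, e3, e.symm.trans (add_comm _ _)⟩

theorem z_ne {A} {σ : C2 a b} {i k} (h : S.z A σ i k ≠ 0) :
    (⟨a, b, σ⟩ ∈ A.F ∧ |σ.n| ≤ m) ∧ S.z3 σ i k S.pt ≠ 0 := by
  rw [z] at h
  split_ifs at h with e
  exacts [⟨e, h⟩, (h rfl).elim]

theorem lab_some {s ε y h} : S.lab (a := a) ⟨(s, some ⟨ε, y⟩), h⟩ =
    (s, G.d S.l ε ((S.Γ.g ε).x y)) := congrArg (Prod.mk s) ((S.lt ε).lf 0 y)

theorem lat (i : S.Γ.ι a) : ∃ k : ℕ, (S.lab i).2 = (a.ty (S.lab i).1).elim 0 c.w + k := by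
  obtain ⟨⟨s, _ | ⟨ε, y⟩⟩, e⟩ := i
  · exact ⟨0, by simp [lab, show a.ty s = none from e, Lv.Cx.val, Gr.dv]⟩
  · rw [lab_some, show a.ty s = some (S.ty ε) from e]
    exact (S.lt ε).lat y

theorem bd (x : a.L × ℚ) : (S.lab (a := a) ⁻¹' {x}).ncard ≤ (a.ty x.1).elim 1 c.B := by
  rcases (S.lab (a := a) ⁻¹' {x}).eq_empty_or_nonempty with h | ⟨⟨⟨s, _ | ⟨ε, y⟩⟩, e⟩, rfl⟩
  · simp [h]
  · obtain rfl := EE.ty_none e
    exact (ncard_le_one (toFinite _)).2 fun i _ j _ =>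
      Lv.Cx.ι_ext ((Lv.Cx.ι_none i).trans (Lv.Cx.ι_none j).symm)
  · rw [lab_some, show a.ty s = some (S.ty ε) from e]
    refine le_trans ?_ ((S.lt ε).bd (G.d S.l ε ((S.Γ.g ε).x y)))
    refine (ncard_le_ncard (fun j hj => ?_) (toFinite _)).trans
      (ncard_image_le (f := fun y => (⟨(s, some ⟨ε, y⟩), e⟩ : S.Γ.ι a)) (toFinite _))
    obtain ⟨y', k⟩ := S.Γ.of_fst ((Lv.Cx.ι_fst S.inj j (o := some ε) e).2
      (congrArg (fun x : a.L × ℚ => x.1) hj))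
    obtain rfl : ⟨(s, some ⟨ε, y'⟩), e⟩ = j := Lv.Cx.ι_ext k.symm
    exact ⟨y', congrArg Prod.snd (lab_some.symm.trans hj), rfl⟩

theorem hom {i k : S.Γ.ι a} (h : S.d i k ≠ 0) : S.lab k = Win22.sh (S.lab i) := by
  obtain ⟨ε, y, y', e, e', -, h'⟩ := dv_ne (cast_ne h)
  have := S.out.hom ε y (S.Γ.val_in _ _ _ e) y' (S.Γ.val_in _ _ _ e') h'
  refine Prod.ext (EE.ty_eq ?_) ?_
  · refine k.2.trans (Eq.trans ?_ i.2.symm)
    rw [← S.Γ.val_fst 0, ← S.Γ.val_fst 0, e, e']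
    rfl
  · show G.dv _ _ = G.dv _ _ - 1
    rw [e, e']
    exact eq_sub_iff_add_eq.2 this.symm

theorem wfin (A a b) : {σ : C2 a b | S.z A σ ≠ 0}.Finite := by
  refine Finite.of_finite_image (f := fun σ => ((⟨σ.g, σ.τ⟩ : Nod κ lam ν), σ.s, σ.t, σ.n))
    ((S.fin.prod (finite_univ.prod (finite_univ.prod (finite_Icc (-m : ℤ) m)))).subset ?_) ?_
  · rintro _ ⟨σ, h, rfl⟩
    obtain ⟨i, h⟩ := ne_iff.1 h
    obtain ⟨k, h⟩ := ne_iff.1 h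
    exact ⟨(Zv_ne (cast_ne (z_ne h).2)).1, trivial, trivial, abs_le.1 (z_ne h).1.2⟩
  · rintro ⟨g, τ, _, s, t, u, n, _⟩ - ⟨g', τ', _, s', t', u', n', _⟩ - h
    cases h
    rfl

theorem bnd {A} {σ : C2 a b} {i k} (h : S.z A σ i k ≠ 0) (e ρ) (hρ : -ρ ≤ G.dg σ.g) :
    |σ.g.pr σ.n e| ≤ c.c _ e ρ := by
  obtain ⟨h1, h2, h3⟩ := Zv_ne (cast_ne (z_ne h).2)
  refine (S.lf (.inl ⟨_, h1⟩)).bnd (Option.map_eq_none_iff.1 σ.hu) _ _ (h2.inV σ.wf.gd.1)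
    (fun j hj => ?_) (Fst.Z_ne h3).2 e ρ hρ
  obtain ⟨y, k⟩ := S.Γ.of_fst ((S.Γ.val_fst _ _).symm.trans (h2.ei.trans
    (congrArg _ (show σ.g.pin = some j from hj))))
  exact ⟨y, by rw [Plc.bcv_in, k]; exact S.l.get_some _ _⟩

variable (S) in
/-- the level of a stage -/
def lr (I : IndStmt G mk) (A : (KA mk).Sub) : Lr (c.gl I A) where
  ι := S.Γ.ι
  ft _ := inferInstance
  de _ := Classical.decEq _
  lab _ := S.lab
  lat _ := lat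
  bd _ := bd
  d _ := S.d
  hom _ _ _ := hom
  z := S.z A
  z3 := S.z3
  hz σ i k h := by
    obtain ⟨h1, h2, -, h3⟩ := hz3 (z_ne h).2
    exact ⟨h1, Prod.ext h2 ((add_zero _).symm.trans h3)⟩
  hz3 _ _ _ _ := hz3
  wfin := wfin A
  pt := S.pt
  pt_eq i := Lv.Cx.ι_ext (Lv.Cx.ι_none i)
  pt_deg := rfl
  bnd a b β e ρ σ h i k h1 h2 := by
    subst h
    exact bnd h2 e ρ h1
  thin := by
    rintro _ ⟨e, rfl, h⟩ ⟨⟨s, _ | ⟨ε, y⟩⟩, e1⟩ ⟨⟨s', _ | ⟨ε', y'⟩⟩, e2⟩ k <;> try cases e1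
    · cases e2
    obtain rfl : s = s' := (h.elim (fun h => (e.2.tor h).2) (·.2.2)).elim _ _
    obtain rfl := S.inj (Option.some.inj (e1.symm.trans e2))
    have e3 : e.1 = (S.ty ε).1 := congrArg (·.1) (Option.some.inj e1)
    obtain rfl := (S.lt ε).thin (e3 ▸ h.imp_right fun h => ⟨h.1, h.2.1⟩)
      ((congrArg Prod.snd lab_some).symm.trans (k.trans (congrArg Prod.snd lab_some)))
    rfl
  dead := by
    rintro _ h
    refine ⟨?_⟩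
    rintro ⟨⟨s, _ | ⟨ε, y⟩⟩, e⟩
    · obtain rfl := EE.ty_none e
      obtain ⟨_, h, -⟩ := h
      cases h
    · exact ((S.lt ε).dead ((EE.ty_some e (p := fun e => e.kd = .dead)).1 h)).elim y

end Stg

end Crest.Agent.X212.Flo2
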