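import Crest.Agent.X212.Flo2.An3

/-!
# Row 212, layer AN-S (helper2): the terms of the master equation
-/

set_option autoImplicit false
set_option linter.unusedSectionVars false
noncomputable section
open scoped Manifold ContDiff Topology InnerProductSpace
open MeasureTheory Set Function Filter

universe u

namespace Crest.Agent.X212.Flo2
open An Cyf70 Sw
open M (Mf)
open Bor5 (K)

/-- the master equation -/
def Lr.Mas {S : Sk.{u}} {Γ : Gl S} (Z : Lr Γ) {a b : S.E} (σ : S.F a b) (i : Z.ι a) (k : Z.ι b) : Prop :=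
  ∑ j, Z.d a i j * Z.z σ j k + ∑ j, Z.z σ i j * Z.d b j k =
    ((S.fc σ).map fun τ => Z.z τ i k).sum +
    ((S.nk σ).map fun p => ∑ j, Z.z p.2.1 i j * Z.z p.2.2 j k).sum +
    ∑ c ∈ Γ.D σ, ∑ j, Z.z3 (S.cp σ c).2.1 i k j * Z.z (S.cp σ c).2.2 j Z.pt

theorem Lr.mas0 {S : Sk.{u}} {Γ : Gl S} (Z : Lr Γ) {a b : S.E} (σ : S.F a b) (i k)
    (hfc : ∀ τ ∈ S.fc σ, S.s τ = S.s σ ∧ S.t τ = S.t σ)
    (hnk : ∀ p ∈ S.nk σ, S.s p.2.1 = S.s σ ∧ S.t p.2.2 = S.t σ)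
    (hcp : ∀ c, S.s3 (S.cp σ c).2.1 = S.s σ ∧ S.t3 (S.cp σ c).2.1 = S.t σ)
    (h : ¬((Z.lab a i).1 = S.s σ ∧ (Z.lab b k).1 = S.t σ ∧
      Γ.dg σ + (Z.lab a i).2 = (Z.lab b k).2 + 1)) : Z.Mas σ i k := by
  have z : ∀ {x y : K}, (x ≠ 0 → y ≠ 0 → False) → x * y = 0 := fun h => by_contra fun k =>
    h (left_ne_zero_of_mul k) (right_ne_zero_of_mul k)
  rw [Lr.Mas, Finset.sum_eq_zero, Finset.sum_eq_zero, List.sum_eq_zero, List.sum_eq_zero,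
    Finset.sum_eq_zero, add_zero, add_zero]
  · refine fun c _ => Finset.sum_eq_zero fun j _ => z fun h1 h2 => ?_
    obtain ⟨e1, e2, -, e3⟩ := Z.hz3 _ _ _ _ h1
    have e4 := congrArg Prod.snd (Z.hz _ _ _ h2).2
    have := Γ.dg_cp σ c fun e => (Z.dead _ e).elim j
    rw [Z.pt_deg] at e4
    exact h ⟨e1.trans (hcp c).1, e2.trans (hcp c).2, by linarith⟩
  · refine List.forall_mem_map.2 fun p hp => Finset.sum_eq_zero fun j _ => z fun h1 h2 => ?_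
    obtain ⟨e1, e2⟩ := Z.hz _ _ _ h1
    obtain ⟨-, e3⟩ := Z.hz _ _ _ h2
    exact h ⟨e1.trans (hnk p hp).1, (congrArg Prod.fst e3).trans (hnk p hp).2, by
      linarith [Γ.dg_nk σ p hp, congrArg Prod.snd e2, congrArg Prod.snd e3]⟩
  · refine List.forall_mem_map.2 fun τ hτ => by_contra fun h1 => ?_
    obtain ⟨e1, e2⟩ := Z.hz _ _ _ h1
    exact h ⟨e1.trans (hfc τ hτ).1, (congrArg Prod.fst e2).trans (hfc τ hτ).2, by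
      linarith [Γ.dg_fc σ τ hτ, congrArg Prod.snd e2]⟩
  · refine fun j _ => z fun h1 h2 => ?_
    obtain ⟨e1, e2⟩ := Z.hz _ _ _ h1
    have e3 := Z.hom _ _ _ h2
    rw [e2] at e3
    exact h ⟨e1, congrArg Prod.fst e3, by rw [e3, Win22.sh]; ring⟩
  · refine fun j _ => z fun h1 h2 => ?_
    obtain ⟨e1, e2⟩ := Z.hz _ _ _ h2
    rw [Z.hom _ _ _ h1] at e1 e2
    exact h ⟨e1, congrArg Prod.fst e2, by rw [e2, Win22.sh]; ring⟩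

theorem sum_fm {α : Type u} {k : ℕ} (f : Fin k → List α) (g : α → K) :
    (((List.finRange k).flatMap f).map g).sum = ∑ c, ((f c).map g).sum := by
  rw [Fin.sum_univ_def]
  induction List.finRange k <;> simp [*]

variable {κ lam ν : Type} [Fintype κ] [Fintype lam] [Fintype ν] [DecidableEq ν]
  {mk : Mk κ lam ν} {G : Gr κ lam ν}

section faces
variable {A : (KA mk).Sub} {a b : EE mk} {σ : C2 a b} (hA : ⟨a, b, σ⟩ ∈ A.F) (u : Fin σ.g.k → K)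
include hA

theorem fc_eq (hk : σ.g.Kp σ.g.pin .qhs) (f : C2 a b → K) (h1 : ∀ c h, f (σ.f1 c h) = u c)
    (h0 : ∀ c, σ.g.wl c ≠ none → u c = 0) :
    ((((KA mk).cut A).fc σ).map f).sum = ∑ c, (f (σ.f0 c) + u c) := by
  classical
  have e : ((KA mk).cut A).fc σ = ((List.finRange σ.g.k).flatMap fun c =>
      σ.f0 c :: if h : σ.g.wl c = none then [σ.f1 c h] else [] : List (C2 a b)) :=
    (if_pos hA).trans (if_pos hk)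
  refine (congrArg (fun l : List (C2 a b) => (l.map f).sum) e).trans
    ((sum_fm _ _).trans (Finset.sum_congr rfl fun c _ => ?_))
  split_ifs with h
  · simp [h1]
  · simp [h0 c h]

theorem nk_eq (f : (Σ x, C2 a x × C2 x b) → K) (h1 : ∀ c i hi hc, f (σ.nk c i hi hc) = u c)
    (h0 : ∀ c, σ.g.wl c = none ∨ σ.τ.nd.cap c = true → u c = 0) :
    ((((KA mk).cut A).nk σ).map f).sum = ∑ c, u c := by
  classical
  have e : ((KA mk).cut A).nk σ = ((List.finRange σ.g.k).flatMap fun c =>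
      if h : (σ.g.wl c).isSome ∧ σ.τ.nd.cap c = false then
        [σ.nk c _ (Option.some_get h.1).symm h.2] else [] : List (Σ x, C2 a x × C2 x b)) :=
    if_pos hA
  refine (congrArg (fun l : List (Σ x, C2 a x × C2 x b) => (l.map f).sum) e).trans
    ((sum_fm _ _).trans (Finset.sum_congr rfl fun c _ => ?_))
  split_ifs with h
  · simp [h1]
  · exact (h0 c (by simpa [imp_iff_not_or] using h)).symm

theorem cp_eq (c : Cst mk G) (I : IndStmt G mk) (f : (Σ x, C3 a b x × C2 x none) → K)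
    (h1 : ∀ k i hi hc, ∑ n ∈ (σ.g.en i).kd.Zi (c.K (σ.τ.nd.g1 k)), f (σ.cp k i hi hc n) = u k)
    (h0 : ∀ c, σ.g.wl c = none ∨ σ.τ.nd.cap c = false → u c = 0) :
    ∑ x ∈ (c.gl I A).D σ, f (((KA mk).cut A).cp σ x) = ∑ c, u c := by
  classical
  refine (Finset.sum_subtype_of_mem (s := c.DD σ) (fun x => f ((KA mk).cp σ x)) fun _ _ => hA).trans
    ((Finset.sum_sigma _ _ _).trans (Fintype.sum_of_injective (fun p => p.1.1) ?_ _ _ (fun k hk => ?_)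
      fun p => (Kd.sum_Zs _ _ fun n => f (σ.cp _ _ p.2.1 p.2.2 n)).trans (h1 _ _ _ _)))
  · rintro ⟨⟨k, i⟩, h⟩ ⟨⟨_, j⟩, h'⟩ rfl
    obtain rfl := Option.mem_unique h.1 h'.1
    rfl
  · refine h0 k ?_
    rcases e : σ.g.wl k with _ | i
    exacts [.inl rfl, .inr (Bool.eq_false_iff.2 fun e' => hk ⟨⟨(k, i), e, e'⟩, rfl⟩)]

end faces

theorem Kd.toZ_mem {k : Kd} {K : ℕ} (z : k.Z) (h : k = .tor → |k.toZ z| ≤ K) : k.toZ z ∈ k.Zi K := by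
  cases k
  exacts [Finset.mem_singleton_self _, Finset.mem_Icc.2 (abs_le.1 (h rfl)), Finset.mem_singleton_self _]

theorem Plc.Fit.fc {𝓔 : Type} [Fintype 𝓔] {ty : 𝓔 → Ty κ lam ν} {Sl : Type} [Fintype Sl]
    {g g' : Gc κ lam ν} {p : Plc ty Sl g} {l : Lv 𝓔} {Γ : l.Cx ty} {m o vo v3}
    (h : p.Fit Γ (Γ.val m o) vo v3) (hi : Injective ty) {D ι φ n} (k : g.Fc g' D ι φ n)
    (p' : Plc ty Sl g') (m') : p'.Fit Γ (Γ.val m' o) vo v3 :=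
  ⟨(Γ.val_fst _ _).trans ((Γ.val_fst _ _).symm.trans (h.ei.trans (p.pe_eq hi p' k.ports.1).symm)),
    h.eo.trans (p.pe_eq hi p' k.ports.2.1).symm, h.e3.trans (p.pe_eq hi p' k.ports.2.2).symm,
    Γ.val_in _ _, h.ho, h.h3⟩

namespace Stg
variable {c : Cst mk G} {hf : FreqStmt G mk} {m : ℕ} {S : Stg c hf m} {a b x : EE mk}
  {A : (KA mk).Sub}

theorem sum_V {s ε} (h : a.ty s = some (S.ty ε)) (hq : (S.ty ε).1.kd = .qhs) (K₁)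
    (f : S.l.PV S.ty → ℕ) (hf : ∀ v, f v ≠ 0 → v.map Sigma.fst = some ε) :
    ∑ j : S.Γ.ι a, (f (S.Γ.val 0 j.1.2) : K) = (∑ v ∈ S.Γ.D K₁ ε, f (some ⟨ε, v⟩) : ℕ) := by
  rw [S.Γ.sum_Dq K₁ hq, Nat.cast_sum]
  exact Lv.Cx.sum_ι h (fun o => (f (S.Γ.val 0 o) : K)) fun o e =>
    (S.Γ.val_fst 0 o).symm.trans (hf _ (cast_ne e))

theorem Zv_site {y vi vo v3} (h : y ∈ S.𝒦) {t : Sit S.𝒦} (e : t = .inl ⟨y, h⟩)
    (k : (S.p t).Fit S.Γ vi vo v3) : S.Zv y vi vo v3 = (S.F hf).Z S.l S.q t vi vo v3 := by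
  subst e
  exact Zv_eq h k

theorem z_eq {σ : C2 a b} (hA : ⟨a, b, σ⟩ ∈ A.F) (hn : |σ.n| ≤ m) (i k) : S.z A σ i k =
    S.Zv ⟨σ.g, σ.τ⟩ (S.Γ.val σ.n i.1.2) (S.Γ.val 0 k.1.2) none := if_pos ⟨hA, hn⟩

theorem d_none (i j : S.Γ.ι (none : EE mk)) : S.d i j = 0 := by
  rw [d, Lv.Cx.ι_none i]
  exact Nat.cast_zero

theorem lift {σ : C2 a b} {y : σ.C} (h : y ∉ c.DD σ) (i k j) :
    S.z3 ((KA mk).cp σ y).2.1 i k j = 0 := by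
  obtain ⟨⟨⟨t, i₀⟩, h1, h2⟩, n⟩ := y
  by_contra e
  obtain ⟨e1, e2, e3⟩ := Zv_ne (cast_ne e)
  obtain ⟨⟨s, _ | ⟨ε, y⟩⟩, e4⟩ := j
  · cases e4
  · have e5 : σ.g.en i₀ = (S.ty ε).1 := congrArg (·.1) (Option.some.inj e4)
    exact h (Finset.mem_sigma.2 ⟨Finset.mem_univ _, Kd.mem_Zs.2 (Kd.toZ_mem _ fun h =>
      Fst.Z_lift (F := S.F hf) (S.lf (.inl ⟨_, e1⟩)) e2 (e5 ▸ h) e3)⟩)

section core
variable {σ : C2 a b} (hA : ⟨a, b, σ⟩ ∈ A.F) (hn : |σ.n| ≤ m) (hy : ⟨σ.g, σ.τ⟩ ∈ S.𝒦)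
  (hk : σ.g.Kp σ.g.pin .qhs) {i : S.Γ.ι a} {k : S.Γ.ι b}
  (fit : (S.p (.inl ⟨_, hy⟩)).Fit S.Γ (S.Γ.val 0 i.1.2) (S.Γ.val 0 k.1.2) none)
include hA hn hk fit

theorem t_in : ∑ j, S.d i j * S.z A σ j k = (σ.g.pin.elim 0 fun i₀ =>
    ∑ v ∈ S.Γ.D S.K₀ ((S.p (.inl ⟨_, hy⟩)).ι i₀).1, S.dz _ (S.l.get _ (S.Γ.val 0 i.1.2)) v *
      (S.F hf).Z S.l S.q (.inl ⟨_, hy⟩) (some ⟨_, v⟩) (S.Γ.val 0 k.1.2) none : ℕ) := by
  have e1 := σ.hs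
  have e2 := fit.ei
  have e3 := hk
  rcases e : σ.g.pin with _ | i₀ <;> rw [e] at e1 e2 e3
  · obtain rfl := EE.ty_none e1.symm
    rw [Option.elim_none]
    simp [d_none]
  · have e4 := (S.p (.inl ⟨_, hy⟩)).ty i₀
    have hq := (congrArg (·.1.kd) e4).trans (e3 _ rfl)
    obtain ⟨⟨_, y⟩, e5, rfl⟩ := Option.map_eq_some_iff.1 e2
    simp only [d, z_eq hA hn, Lv.Cx.val_q S.ok (EE.kp σ.hs hk) σ.n, ← Nat.cast_mul]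
    rw [Option.elim_some, sum_V (e1.symm.trans (congrArg some e4.symm)) hq S.K₀
      (fun v => S.dv _ v * S.Zv _ v _ none) fun v h =>
        (Zv_ne (right_ne_zero_of_mul h)).2.1.ei.trans (congrArg _ e)]
    refine congrArg _ (Finset.sum_congr rfl fun v hv => ?_)
    rw [Zv_eq (vi := some ⟨_, v⟩) hy ⟨(congrArg (S.p (.inl ⟨_, hy⟩)).pe e).symm, fit.eo, fit.e3,
      Lv.Cx.in_some.2 (S.Γ.D_sub _ _ v hv), fit.ho, fit.h3⟩, e5, dv_eq hq, Lv.get_some]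

theorem t_out : ∑ j, S.z A σ i j * S.d j k = (σ.g.pout.elim 0 fun i₀ =>
    ∑ v ∈ S.Γ.D S.K₀ ((S.p (.inl ⟨_, hy⟩)).ι i₀).1, (S.F hf).Z S.l S.q (.inl ⟨_, hy⟩)
      (S.Γ.val 0 i.1.2) (some ⟨_, v⟩) none * S.dz _ v (S.l.get _ (S.Γ.val 0 k.1.2)) : ℕ) := by
  have e1 := σ.ht
  have e2 := fit.eo
  have e3 := σ.τ.nd.ok.kout
  rcases e : σ.g.pout with _ | i₀ <;> rw [e] at e1 e2 e3
  · obtain rfl := EE.ty_none e1.symm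
    rw [Option.elim_none]
    simp [d_none]
  · have e4 := (S.p (.inl ⟨_, hy⟩)).ty i₀
    have hq := (congrArg (·.1.kd) e4).trans (e3 _ rfl)
    obtain ⟨⟨_, y⟩, e5, rfl⟩ := Option.map_eq_some_iff.1 e2
    simp only [d, z_eq hA hn, Lv.Cx.val_q S.ok (EE.kp σ.hs hk) σ.n, ← Nat.cast_mul]
    rw [Option.elim_some, sum_V (e1.symm.trans (congrArg some e4.symm)) hq S.K₀
      (fun v => S.Zv _ _ v none * S.dv v _) fun v h =>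
        (Zv_ne (left_ne_zero_of_mul h)).2.1.eo.trans (congrArg _ e)]
    refine congrArg _ (Finset.sum_congr rfl fun v hv => ?_)
    rw [Zv_eq (vo := some ⟨_, v⟩) hy ⟨fit.ei, (congrArg (S.p (.inl ⟨_, hy⟩)).pe e).symm, fit.e3, fit.hi,
      Lv.Cx.in_some.2 (S.Γ.D_sub _ _ v hv), fit.h3⟩, e5, dv_eq hq, Lv.get_some]

omit hn in
theorem t_nk (t i₀ hi hc) :
    ∑ j, S.z A (σ.nk t i₀ hi hc).2.1 i j * S.z A (σ.nk t i₀ hi hc).2.2 j k =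
      (∑ v ∈ S.Γ.D (c.K (σ.τ.nd.g1 t)) ((S.p (.inl ⟨_, hy⟩)).ι i₀).1,
        (S.F hf).ZL S.l S.q (.inl ⟨_, hy⟩) t (S.Γ.val 0 i.1.2) (S.Γ.val 0 k.1.2) (some ⟨_, v⟩) *
          (S.F hf).ZR S.l S.q (.inl ⟨_, hy⟩) t (S.Γ.val 0 k.1.2) (some ⟨_, v⟩) : ℕ) := by
  have e4 := (S.p (.inl ⟨_, hy⟩)).ty i₀
  have hq := (congrArg (·.1.kd) e4).trans (Tr.nk_q hi hc)
  have h := A.nk _ _ _ hA _ (mem_nk.2 ⟨t, i₀, hi, hc, rfl⟩)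
  have hw : σ.g.wl t ≠ none := by simp [hi]
  simp only [z_eq h.1 (by simp [C3.nk]), z_eq h.2 (by simp [C3.nk]), ← Nat.cast_mul]
  refine (sum_V (a := σ.en i₀) (s := σ.g.cl i₀) (congrArg some e4.symm) hq _
    (fun v => S.Zv ⟨_, σ.τ.f1 t⟩ _ v none * S.Zv ⟨_, σ.τ.f2 t⟩ v _ none) fun v h => ?_).trans
    (congrArg _ (Finset.sum_congr rfl fun v hv => ?_))
  · obtain ⟨h1, h2, -⟩ := Zv_ne (left_ne_zero_of_mul h)
    exact h2.eo.trans ((S.p (.inl ⟨_, hy⟩)).pe_eq S.inj _ (o := some i₀) (σ.nk t i₀ hi hc).2.1.ht)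
  · have := Fst.fit_wl (F := S.F hf) (a := .inl ⟨_, hy⟩) S.inj hi fit rfl (S.Γ.D_sub _ _ v hv)
    rw [Fst.ZL, Fst.ZR]
    rw [show (S.F hf).cap (.inl ⟨_, hy⟩) t = false from hc] at this ⊢
    exact congrArg₂ _ (Zv_eq (S.cld _ hy t).2.1 this.1)
      (Zv_site ((S.cld _ hy t).2.2 hw) (S.R_nk ⟨_, hy⟩ hw hc) this.2)

omit hn in
theorem t_cp (H : Lanes mk G) (t i₀ hi hc)
    (hm : ∀ n ∈ (σ.g.en i₀).kd.Zi (c.K (σ.τ.nd.g1 t)), ⟨_, _, (σ.cp t i₀ hi hc n).2.2⟩ ∈ A.F ∧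
      |(σ.cp t i₀ hi hc n).2.2.n| ≤ m) :
    ∑ n ∈ (σ.g.en i₀).kd.Zi (c.K (σ.τ.nd.g1 t)), ∑ j, S.z3 (σ.cp t i₀ hi hc n).2.1 i k j *
      S.z A (σ.cp t i₀ hi hc n).2.2 j S.pt =
      (∑ v ∈ S.Γ.D (c.K (σ.τ.nd.g1 t)) ((S.p (.inl ⟨_, hy⟩)).ι i₀).1,
        (S.F hf).ZL S.l S.q (.inl ⟨_, hy⟩) t (S.Γ.val 0 i.1.2) (S.Γ.val 0 k.1.2) (some ⟨_, v⟩) *
          (S.F hf).ZR S.l S.q (.inl ⟨_, hy⟩) t (S.Γ.val 0 k.1.2) (some ⟨_, v⟩) : ℕ) := by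
  have e4 := (S.p (.inl ⟨_, hy⟩)).ty i₀
  have hq : _ = (σ.g.en i₀).kd := congrArg (·.1.kd) e4
  have hw : σ.g.wl t ≠ none := by simp [hi]
  rw [Lv.Cx.sum_D, hq, Nat.cast_sum]
  refine Finset.sum_congr rfl fun n h => ?_
  simp only [z_eq (hm n h).1 (hm n h).2, z3, Lv.Cx.val_q S.ok (EE.kp σ.hs hk) _ i, ← Nat.cast_mul]
  rw [Nat.cast_sum]
  refine (Lv.Cx.sum_ι (a := σ.en i₀) (s := σ.g.cl i₀) (congrArg some e4.symm)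
    (fun o => ((S.Zv ⟨_, σ.τ.f1 t⟩ _ _ (S.Γ.val n o) * S.Zv ⟨_, σ.τ.f2 t⟩
      (S.Γ.val (bif σ.τ.nd.fx t then 0 else n + σ.τ.nd.n1 t) o) none none : ℕ) : K)) fun o h => ?_).trans
    (Finset.sum_congr rfl fun y _ => congrArg _ ?_)
  · obtain ⟨h1, h2, -⟩ := Zv_ne (left_ne_zero_of_mul (cast_ne h))
    exact (S.Γ.val_fst _ _).symm.trans (h2.e3.trans
      ((S.p (.inl ⟨_, hy⟩)).pe_eq S.inj _ (o := some i₀) (σ.cp t i₀ hi hc n).2.1.hu))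
  have := Fst.fit_wl (F := S.F hf) (a := .inl ⟨_, hy⟩) S.inj hi fit rfl (S.Γ.lf_mem _ n y)
  rw [Fst.ZL, Fst.ZR]
  rw [show (S.F hf).cap (.inl ⟨_, hy⟩) t = true from hc,
    show (S.F hf).R (.inl ⟨_, hy⟩) t = _ from S.R_cap ⟨_, hy⟩ hw hc] at this ⊢
  refine congrArg₂ _ (Zv_eq (S.cld _ hy t).2.1 this.1) ?_
  obtain ⟨n', e1, e2⟩ : ∃ n', (bif σ.τ.nd.fx t then 0 else n + σ.τ.nd.n1 t) = n + n' ∧
      (n' = σ.τ.nd.n1 t ∨ σ.τ.nd.fx t = true) := by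
    cases σ.τ.nd.fx t
    exacts [⟨_, rfl, .inl rfl⟩, ⟨-n, by simp, .inr rfl⟩]
  obtain ⟨-, -, w1, w2, -⟩ := σ.τ.nd.wl t i₀ hi
  have h2 := (S.cld _ hy t).2.2 hw
  have k1 : (S.p (.inr ⟨⟨_, hy⟩, t, hw, hc⟩)).Fit S.Γ (S.Γ.val n (some ⟨_, y⟩)) none none := this.2
  have k2 := k1.fc S.inj w2 (S.p (.inl ⟨_, h2⟩)) (n + n')
  have k3 := Fst.cz_fc (F := S.F hf) (a := .inr ⟨⟨_, hy⟩, t, hw, hc⟩) (a' := .inl ⟨_, h2⟩) (q := S.q)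
    H.fc S.ok S.inj ((S.T.cp _ hy t i₀ hi hc).2.2.2 n' e2)
    (w2.bij (Bs.const_mem _ le_rfl zero_le_one) fun t => by simp [w1.range_eq]) k1 k2
  rw [e1, Zv_eq h2 k2, Fst.Z, Fst.Z, ← k3, dv_val (n + n'), ← dv_val n]
  exact if_congr (by rw [show G.dg ((S.F hf).g (.inl ⟨_, h2⟩)) = _ from σ.wf.dg_2 H.ind hi fun e =>
    ((S.lt _).dead (hq.trans e)).elim y]; rfl) rfl rfl

omit hA hn in
theorem t_fc (H : Lanes mk G) {τ : C2 a b} (h1 : ⟨a, b, τ⟩ ∈ A.F) (h2 : τ.n = 0)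
    (h3 : ⟨τ.g, τ.τ⟩ ∈ S.𝒦) {t ι φ n} {r : ℝ} (r0 : 0 ≤ r) (r1 : r ≤ 1) (hι : range ι = {t}ᶜ)
    (h4 : σ.g.Fc τ.g {s ∈ σ.g.dom | s t = r} ι φ n)
    (h5 : σ.g.FcT τ.g {s ∈ σ.g.dom | s t = r} ι φ n (S.T.τ ⟨σ.g, σ.τ⟩) (S.T.τ ⟨τ.g, τ.τ⟩))
    (hd : G.dg σ.g + (S.lab i).2 = (S.lab k).2 + 1) : S.z A τ i k = (S.F hf).cz S.l S.q (.inl ⟨_, hy⟩)
      {s ∈ σ.g.dom | s t = r} (S.Γ.val 0 i.1.2) (S.Γ.val 0 k.1.2) none := by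
  have k2 := fun n => fit.fc S.inj h4 (S.p (.inl ⟨_, h3⟩)) n
  rw [z_eq h1 (by simp [h2]), h2, Zv_eq h3 (k2 0), Fst.Z, if_pos, Fst.cz_fc (F := S.F hf)
    (a := .inl ⟨_, hy⟩) (a' := .inl ⟨_, h3⟩) H.fc S.ok S.inj h5 (h4.bij1 hι r0 r1) fit (k2 _),
    Lv.Cx.val_q S.ok (EE.kp σ.hs hk) (0 + n)]
  have := σ.wf.dg_fc H.ind hk τ.wf.gd h4 hι r0 r1
  show G.dg τ.g + (S.lab i).2 = (S.lab k).2 + 0
  linarith

end core

end Stg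

end Crest.Agent.X212.Flo2
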