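import Crest.Agent.X212.Flo2.An4

/-!
# Row 212, layer AN-S (helper2): the analysis from the lanes
-/

set_option autoImplicit false
set_option linter.unusedSectionVars false
noncomputable section
open scoped Manifold ContDiff Topology InnerProductSpace
open MeasureTheory Set Function Filter

universe u

namespace Crest.Agent.X212.Flo2
open An Cyf70 Sw
open M (Mf)
open Bor5 (K)

theorem Lr.mas_nil {S : Sk.{u}} {Γ : Gl S} (Z : Lr Γ) {a b : S.E} {σ : S.F a b} {i k}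
    (h1 : ∀ j, Z.d a i j * Z.z σ j k = 0) (h2 : ∀ j, Z.z σ i j * Z.d b j k = 0) (hfc : S.fc σ = [])
    (hnk : S.nk σ = []) (hC : IsEmpty (S.C σ)) : Z.Mas σ i k := by
  simp [Lr.Mas, h1, h2, hfc, hnk, Finset.eq_empty_of_isEmpty (Γ.D σ)]

theorem char2 {k : ℕ} {f : Fin k → ℕ} {x y : ℕ} (h : Even (∑ c, f c + x + y)) {u v w : Fin k → K}
    (e : ∀ c, u c + v c + w c = f c) : (y : K) + x = ∑ c, u c + ∑ c, v c + ∑ c, w c := by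
  have := ZMod.natCast_eq_zero_iff_even.2 h
  rw [← Finset.sum_add_distrib, ← Finset.sum_add_distrib, Finset.sum_congr rfl fun c _ => e c,
    ← Nat.cast_sum, ← CharTwo.add_eq_zero, ← this]
  push_cast
  ring

theorem elim_add {α : Type} (o : Option α) (x : ℕ) (f : α → ℕ) :
    ((o.elim x fun _ => 0 : ℕ) : K) + (o.elim 0 f : ℕ) = (o.elim x f : ℕ) := by
  cases o <;> simp

theorem Kd.ex_Z {k : Kd} {K : ℕ} {n : ℤ} (h : n ∈ k.Zi K) : ∃ z, k.toZ z = n := by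
  cases k
  exacts [⟨(), (Finset.mem_singleton.1 h).symm⟩, ⟨n, rfl⟩, ⟨(), (Finset.mem_singleton.1 h).symm⟩]

variable {κ lam ν : Type} [Fintype κ] [Fintype lam] [Fintype ν] [DecidableEq ν]
  {mk : Mk κ lam ν} {G : Gr κ lam ν}

theorem Plc.kp {𝓔 : Type} [Fintype 𝓔] {ty : 𝓔 → Ty κ lam ν} {Sl : Type} [Fintype Sl] {g : Gc κ lam ν}
    (p : Plc ty Sl g) {o k ε} (h : g.Kp o k) (e : p.pe o = some ε) : (ty ε).1.kd = k := by
  obtain ⟨i, e', rfl⟩ := Option.map_eq_some_iff.1 e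
  exact (congrArg (·.1.kd) (p.ty i)).trans (h i e')

namespace Stg
variable {c : Cst mk G} {hf : FreqStmt G mk} {m : ℕ} {S : Stg c hf m} {a b : EE mk}
  {A : (KA mk).Sub} {σ : C2 a b}

variable (S σ) in
/-- the stage sees the cell -/
structure Good : Prop where
  mem : σ.τ.Irr → ⟨σ.g, σ.τ⟩ ∈ S.𝒦
  n : |σ.n| ≤ m
  cp : ∀ y ∈ c.DD σ, |((KA mk).cp σ y).2.2.n| ≤ m
  N : ∀ i ∈ σ.g.pout, 2 * c.N (σ.g.en i) ≤ m

theorem fit {hy : ⟨σ.g, σ.τ⟩ ∈ S.𝒦} {n} {i : S.Γ.ι a} {k : S.Γ.ι b} (e1 : i.1.1 = σ.s)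
    (e2 : k.1.1 = σ.t) : (S.p (.inl ⟨_, hy⟩)).Fit S.Γ (S.Γ.val n i.1.2) (S.Γ.val 0 k.1.2) none :=
  (Lv.Cx.fit_iff S.inj σ _ (j := S.pt) (n'' := 0)).2 ⟨e1, e2, rfl⟩

theorem mas1 (H : Lanes mk G) (hA : ⟨a, b, σ⟩ ∈ A.F) (g : S.Good σ) (hI : σ.τ.Irr)
    (hk : σ.g.Kp σ.g.pin .qhs) {i : S.Γ.ι a} {k : S.Γ.ι b} (hi : (S.lab i).2 ≤ m) (e1 : i.1.1 = σ.s)
    (e2 : k.1.1 = σ.t) (hd : G.dg σ.g + (S.lab i).2 = (S.lab k).2 + 1) :
    (S.lr H.ind A).Mas σ i k := by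
  have hy := g.mem hI
  have ft := fit (hy := hy) (n := 0) e1 e2
  have key := S.out.stk (.inl ⟨_, hy⟩) _ _ ft (fun ε h => S.Γ.full (S.ok ε)
    (h.elim (Plc.kp _ hk) (Plc.kp _ σ.τ.nd.ok.kout)) _) hi hd (fun t => S.Γ.D (c.K (σ.τ.nd.g1 t)))
    (fun t => S.Γ.D_mono (S.hK _ (S.cld _ hy t).2.1)) (by
      rintro t i₀ hi _ ⟨⟨n, y⟩, rfl⟩ hn
      by_contra e
      have fw := (Fst.fit_wl (F := S.F hf) S.inj hi ft rfl (S.Γ.lf_mem _ n y)).1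
      rcases kd : (S.ty ((S.p (.inl ⟨_, hy⟩)).ι i₀).1).1.kd with _ | _ | _
      · exact hn (S.Γ.full (S.ok _) kd _ _ (S.Γ.lf_mem _ n y))
      · have hc : σ.τ.nd.cap t = true := by_contra fun hc => by
          cases kd.symm.trans ((congrArg (·.1.kd) ((S.p (.inl ⟨_, hy⟩)).ty i₀)).trans
            (Tr.nk_q hi (Bool.eq_false_iff.2 hc)))
        rw [Fst.ZL] at e
        rw [show (S.F hf).cap (.inl ⟨_, hy⟩) t = true from hc] at e fw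
        refine hn (S.Γ.mem_D ?_ y)
        rw [show (S.ty _).1.kd = .tor from kd]
        exact Finset.mem_Icc.2 (abs_le.1 (Fst.Z_lift (F := S.F hf) (S.lf _) fw kd e))
      · exact ((S.lt _).dead kd).elim y)
  let w : Fin σ.g.k → K := fun t => ((σ.g.wl t).elim 0 fun i₀ =>
    ∑ v ∈ S.Γ.D (c.K (σ.τ.nd.g1 t)) ((S.p (.inl ⟨_, hy⟩)).ι i₀).1,
      (S.F hf).ZL S.l S.q (.inl ⟨_, hy⟩) t (S.Γ.val 0 i.1.2) (S.Γ.val 0 k.1.2) (some ⟨_, v⟩) *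
        (S.F hf).ZR S.l S.q (.inl ⟨_, hy⟩) t (S.Γ.val 0 k.1.2) (some ⟨_, v⟩) : ℕ)
  have w0 : ∀ t, σ.g.wl t = none → w t = 0 := fun t e => by
    simp only [w, e, Option.elim_none, Nat.cast_zero]
  have hfc := fun τ h => A.fc _ _ _ hA τ (mem_fc.2 ⟨hk, h⟩)
  refine (congrArg₂ (· + ·) (t_in hA g.n hy hk ft) (t_out hA g.n hy hk ft)).trans
    (Eq.trans (char2 key fun t => ?_) (congrArg₂ (· + ·) (congrArg₂ (· + ·)
      (fc_eq hA (fun t => ((σ.g.wl t).elim ((S.F hf).cz S.l S.q (.inl ⟨_, hy⟩) {s ∈ σ.g.dom | s t = 1}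
        (S.Γ.val 0 i.1.2) (S.Γ.val 0 k.1.2) none) fun _ => 0 : ℕ)) hk (fun τ => S.z A τ i k)
        (fun t e => ?_) fun t e => ?_)
      (nk_eq hA (fun t => bif σ.τ.nd.cap t then 0 else w t)
        (fun p => ∑ j, S.z A p.2.1 i j * S.z A p.2.2 j k) (fun t i₀ hi hc => ?_) fun t e => ?_))
      (cp_eq hA (fun t => bif σ.τ.nd.cap t then w t else 0) c H.ind
        (fun y => ∑ j, S.z3 y.2.1 i k j * S.z A y.2.2 j S.pt) (fun t i₀ hi hc => ?_)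
        fun t e => ?_)).symm)
  · rw [t_fc hy hk ft H (hfc _ ⟨t, .inl rfl⟩) rfl (S.cld _ hy t).1 le_rfl zero_le_one
      (σ.τ.nd.f0 t).1 (σ.τ.nd.f0 t).2 (S.T.f0 _ hy t) hd, Nat.cast_add, add_assoc, add_assoc]
    refine congrArg₂ _ rfl ?_
    rw [show (bif σ.τ.nd.cap t then 0 else w t) + (bif σ.τ.nd.cap t then w t else 0) = w t by
      cases σ.τ.nd.cap t <;> simp]
    exact elim_add _ _ _
  · rw [t_fc hy hk ft H (hfc _ ⟨t, .inr ⟨e, rfl⟩⟩) rfl (S.cld _ hy t).2.1 zero_le_one le_rfl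
      (σ.τ.nd.f1 t e).1 (σ.τ.nd.f1 t e).2.2 (S.T.f1 _ hy t e) hd, e, Option.elim_none]
  · obtain ⟨_, e⟩ := Option.ne_none_iff_exists'.1 e
    rw [e, Option.elim_some, Nat.cast_zero]
  · simp only [hc, cond_false, w]
    rw [hi, Option.elim_some]
    exact t_nk hA hy hk ft t i₀ hi hc
  · rcases e with e | e
    · simp [w0 t e]
    · simp [e]
  · simp only [hc, cond_true, w]
    rw [hi, Option.elim_some]
    refine t_cp hA hy hk ft H t i₀ hi hc fun n h => ?_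
    obtain ⟨z, rfl⟩ := Kd.ex_Z h
    exact ⟨(A.cp _ _ _ hA ⟨⟨(t, i₀), hi, hc⟩, z⟩).2, g.cp ⟨⟨(t, i₀), hi, hc⟩, z⟩
      (Finset.mem_sigma.2 ⟨Finset.mem_univ _, Kd.mem_Zs.2 h⟩)⟩
  · rcases e with e | e
    · simp [w0 t e]
    · simp [e]

theorem mas (H : Lanes mk G) (g : ⟨a, b, σ⟩ ∈ A.F → S.Good σ) {i : S.Γ.ι a} (k : S.Γ.ι b)
    (hi : (S.lab i).2 ≤ m) : (S.lr H.ind A).Mas σ i k := by
  classical
  by_cases h : i.1.1 = σ.s ∧ k.1.1 = σ.t ∧ G.dg σ.g + (S.lab i).2 = (S.lab k).2 + 1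
  swap
  · refine (S.lr H.ind A).mas0 (a := a) (b := b) σ i k (fun τ h => ?_) (fun p h => ?_) (fun _ => ⟨rfl, rfl⟩) h
    · obtain ⟨-, _, rfl | ⟨_, rfl⟩⟩ := mem_fc.1 (List.mem_ite_nil_right.1 h).2 <;> exact ⟨rfl, rfl⟩
    · obtain ⟨_, _, _, _, rfl⟩ := mem_nk.1 (List.mem_ite_nil_right.1 h).2
      exact ⟨rfl, rfl⟩
  obtain ⟨e1, e2, hd⟩ := h
  by_cases hA : ⟨a, b, σ⟩ ∈ A.F
  swap
  · have z : ∀ i k, S.z A σ i k = 0 := fun _ _ => if_neg fun h => hA h.1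
    exact (S.lr H.ind A).mas_nil (a := a) (b := b) (fun j => mul_eq_zero_of_right _ (z _ _))
      (fun j => mul_eq_zero_of_left (z _ _) _) (if_neg hA) (if_neg hA) ⟨fun x => hA x.2⟩
  by_cases hk : σ.g.Kp σ.g.pin .qhs
  swap
  · obtain ⟨h1, -, -, h2⟩ := σ.τ.nd.ok.kin.resolve_left hk
    obtain rfl := EE.ty_none (σ.ht.symm.trans (congrArg _ h1))
    refine (S.lr H.ind A).mas_nil (a := a) (b := none)
      (fun j => mul_eq_zero_of_left (by_contra fun h => hk fun i₀ hi => ?_) _)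
      (fun j => mul_eq_zero_of_right _ (d_none _ _)) ((if_pos hA).trans (if_neg hk))
      (List.eq_nil_iff_forall_not_mem.2 fun p h => ?_) ⟨fun x => ?_⟩
    · obtain ⟨ε, y, -, e, -, h, -⟩ := dv_ne (cast_ne h)
      have := σ.hs.trans (e1 ▸ i.2)
      rw [← S.Γ.val_fst 0, e, show σ.g.pin = some i₀ from hi] at this
      exact (congrArg (·.1.kd) (Option.some.inj this)).trans h
    · obtain ⟨t, _, hi, -⟩ := mem_nk.1 (List.mem_ite_nil_right.1 h).2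
      cases (h2 t).symm.trans hi
    · cases (h2 _).symm.trans x.1.1.2.1
  by_cases hI : σ.τ.Irr
  · exact mas1 H hA (g hA) hI hk hi e1 e2 hd
  exfalso
  obtain rfl := EE.ty_none (σ.hs.symm.trans (congrArg _ (by_contra fun h => hI (σ.τ.irr_of h))))
  obtain ⟨x, h1, h2⟩ := (σ.wf.all.2.2.2.2.2.1.resolve_left hI).resolve_left
    (not_not.2 (Option.map_eq_none_iff.1 σ.hu))
  rw [H.ind.tp _ σ.wf.gd x h1, Lv.Cx.ι_ext (j := S.pt) (Lv.Cx.ι_none i)] at hd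
  rw [σ.ht, ← e2, k.2] at h2
  obtain ⟨⟨s, _ | ⟨ε, y⟩⟩, e⟩ := k
  · have : x + 0 = 0 + 1 := hd
    have : x < 0 := h2
    linarith
  · rw [lab_some] at hd
    have : x + 0 = G.d S.l ε ((S.Γ.g ε).x y) + 1 := hd
    have : x < mk.lw (S.ty ε) := h2
    linarith [(S.lt ε).lw y]

theorem mem_X {i : S.Γ.ι a} {s x} (e : S.lab i = (s, x)) (h : x ≤ m) : x ∈ c.X S.ty m := by
  obtain ⟨⟨_, _ | ⟨ε, y⟩⟩, _⟩ := i
  · exact ⟨h, .inl (congrArg Prod.snd e).symm⟩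
  · obtain ⟨k, hk⟩ := (S.lt ε).lat y
    exact ⟨h, .inr ⟨ε, k, (congrArg Prod.snd (e.symm.trans lab_some)).trans hk⟩⟩

theorem ex_val (hy : ⟨σ.g, σ.τ⟩ ∈ S.𝒦) {v} (h : S.Γ.In v)
    (e : v.map Sigma.fst = (S.p (.inl ⟨_, hy⟩)).pe σ.g.pout) :
    ∃ k : S.Γ.ι b, S.Γ.val 0 k.1.2 = v ∧ k.1.1 = σ.t := by
  have e' := σ.ht.symm.trans (((S.p (.inl ⟨_, hy⟩)).pe_ty _).symm.trans (congrArg _ e.symm))
  obtain _ | ⟨ε, v⟩ := v
  · exact ⟨⟨(σ.t, none), e'⟩, rfl, rfl⟩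
  · obtain ⟨⟨n, y⟩, rfl⟩ := Lv.Cx.in_some.1 h
    exact ⟨⟨(σ.t, some ⟨ε, y⟩), e'⟩, congrArg (fun v => some (Sigma.mk ε v))
      (S.Γ.lf_q (S.ok ε) (Plc.kp _ σ.τ.nd.ok.kout e.symm) n y).symm, rfl⟩

theorem ex_k (g : S.Good σ) (hy : ⟨σ.g, σ.τ⟩ ∈ S.𝒦) : ∃ k : S.Γ.ι b, k.1.1 = σ.t := by
  have e' := σ.ht.symm.trans ((S.p (.inl ⟨_, hy⟩)).pe_ty _).symm
  rcases e : σ.g.pout with _ | j <;> rw [e] at e'
  · exact ⟨⟨(σ.t, none), e'⟩, rfl⟩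
  · have e4 : _ = σ.g.en j := congrArg (·.1) ((S.p (.inl ⟨_, hy⟩)).ty j)
    obtain ⟨y, -⟩ := ((S.lt _).ev ((congrArg (·.kd) e4).trans (σ.τ.nd.ok.kout j e))
      (2 * c.N (σ.g.en j)) (by exact_mod_cast g.N j e) (by rw [e4]; omega)).1 (even_two_mul _)
    exact ⟨⟨(σ.t, some ⟨_, y⟩), e'⟩, rfl⟩

theorem z_one (hA : ⟨a, b, σ⟩ ∈ A.F) (hn : |σ.n| ≤ m) (hy : ⟨σ.g, σ.τ⟩ ∈ S.𝒦) {i : S.Γ.ι a}
    {k : S.Γ.ι b} (e1 : i.1.1 = σ.s) (e2 : k.1.1 = σ.t) {β}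
    (h : (S.p (.inl ⟨_, hy⟩)).One S.l Prod.snd ((S.F hf).tm S.l (.inl ⟨_, hy⟩)) β S.q)
    (h1 : (S.p (.inl ⟨_, hy⟩)).pw S.l β σ.g.pin false = S.Γ.val σ.n i.1.2)
    (h2 : (S.p (.inl ⟨_, hy⟩)).pw S.l β σ.g.pout true = S.Γ.val 0 k.1.2)
    (hd : (S.lab k).2 = (S.lab i).2 + G.dg σ.g) : S.z A σ i k = 1 := by
  rw [z_eq hA hn, Zv_eq hy (fit e1 e2), Fst.Z_one (F := S.F hf) (v3 := none) h h1 h2
    (congrArg (Plc.pw _ _ _ · true) (Option.map_eq_none_iff.1 σ.hu)), Nat.cast_one]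
  rw [dv_val]
  exact (add_comm _ _).trans (hd.symm.trans (add_zero _).symm)

theorem wF (H : Lanes mk G) (g : ⟨a, b, σ⟩ ∈ A.F → S.Good σ) : (S.lr H.ind A).WF m σ := by
  classical
  have dp : ∀ {hy : ⟨σ.g, σ.τ⟩ ∈ S.𝒦} {n} {i : S.Γ.ι a} {k : S.Γ.ι b}, i.1.1 = σ.s → k.1.1 = σ.t →
      let β := (S.p (.inl ⟨_, hy⟩)).bcv S.l (S.Γ.val n i.1.2) (S.Γ.val 0 k.1.2) none
      (S.p (.inl ⟨_, hy⟩)).dp G S.l β σ.g.pin false = (S.lab i).2 ∧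
      (S.p (.inl ⟨_, hy⟩)).dp G S.l β σ.g.pout true = (S.lab k).2 := fun e1 e2 =>
    ⟨(Plc.dp_eq ..).trans ((congrArg _ (Plc.pw_in (fit e1 e2).ei)).trans (dv_val _ _)),
      (Plc.dp_eq ..).trans (congrArg _ (Plc.pw_out (fit (n := 0) e1 e2).eo))⟩
  refine ⟨fun i hi k => ⟨fun y hy j => lift (fun h => hy (Finset.mem_subtype.2 h)) i k j,
    mas H g k hi⟩, ?_, fun h x h1 h2 i e k => by_contra fun hz => ?_, ?_, ?_⟩
  · rintro ⟨hA, hI, h⟩ x h1 h2 i e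
    have hy := (g hA).mem hI
    obtain ⟨k₀, e0⟩ := ex_k (g hA) hy
    have e1 := congrArg Prod.fst e
    have ft := fit (hy := hy) (n := σ.n) e1 e0
    obtain ⟨β, b1, b2, b3, b4⟩ := (S.lf (.inl ⟨_, hy⟩)).hi1 h x (mem_X e h2) h1 _ (ft.inV σ.τ.nd.ok)
      ((dp e1 e0).1.trans (congrArg Prod.snd e))
    obtain ⟨k, k1, k2⟩ := ex_val hy (b1.fit σ.τ.nd.ok).ho (b1.fit σ.τ.nd.ok).eo
    exact ⟨k, (z_one hA (g hA).n hy e1 k2 b4 (Plc.pw_of ft.ei fun _ _ => b2 _) k1.symm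
      ((congrArg (G.dv S.l) k1).trans ((Plc.dp_eq ..).symm.trans (b3.trans
        (congrArg (·.2 + _) e.symm))))).trans_ne one_ne_zero⟩
  · obtain ⟨hy, ft, hz'⟩ := Zv_ne (cast_ne (z_ne hz).2)
    obtain ⟨e1, e2, -, e3⟩ := hz3 (z_ne hz).2
    refine (Fst.Z_ne hz').2.ne_empty ((S.lf (.inl ⟨_, hy⟩)).hi0 ⟨h.1, h.2.1,
      Option.map_eq_none_iff.1 σ.hu, h.2.2⟩ x (mem_X e h2) h1 _ (ft.inV σ.τ.nd.ok)
      ((dp e1 e2).1.trans (congrArg Prod.snd e)) ((dp (n := σ.n) e1 e2).2.trans ?_))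
    exact (add_zero _).symm.trans (e3.trans (congrArg (·.2 + _) e))
  · rintro ⟨hA, hI, h⟩ x h2 i k e e'
    have hy := (g hA).mem hI
    have e1 := congrArg Prod.fst e
    have e2 := congrArg Prod.fst e'
    have ft := fit (hy := hy) (n := σ.n) e1 e2
    exact z_one hA (g hA).n hy e1 e2 ((S.lf (.inl ⟨_, hy⟩)).al1 h x (mem_X e h2) _ (ft.inV σ.τ.nd.ok)
      ((dp e1 e2).1.trans (congrArg Prod.snd e)) ((dp (n := σ.n) e1 e2).2.trans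
        (congrArg Prod.snd e'))) (Plc.pw_in ft.ei) (Plc.pw_out ft.eo)
      ((congrArg Prod.snd e').trans (congrArg (·.2 + _) e.symm))
  · rintro ⟨hA, hI, h⟩ x h2 i e
    have hy := (g hA).mem hI
    obtain ⟨k, e2⟩ := ex_k (g hA) hy
    have e1 := congrArg Prod.fst e
    have ft := fit (hy := hy) (n := σ.n) e1 e2
    obtain ⟨h1, h2, h3, h4⟩ := (S.lf (.inl ⟨_, hy⟩)).ex1 h
    refine ⟨k, (z_one hA (g hA).n hy e1 e2 (h4 _) (Plc.pw_in (v3 := none) ft.ei) (Plc.pw_out ft.eo)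
      ?_).trans_ne one_ne_zero⟩
    rw [← (dp (hy := hy) (n := 0) e1 e2).1, ← (dp (hy := hy) (n := 0) e1 e2).2,
      show σ.g.pin = none from h1, show σ.g.pout = none from h2, show G.dg σ.g = 0 from h3]
    exact (add_zero _).symm

theorem wE (I : IndStmt G mk) (h : a ∈ A.E → ∀ s, ∀ ε ∈ a.ty s, ε ∈ range S.ty) :
    (S.lr I A).WE m a := by
  have ev : ((KA mk).cut A).qhs a → ∀ s (k : ℕ), (c.gl I A).N a ≤ k → (k : ℚ) ≤ m →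
      ∃ ε, ∃ e : a.ty s = some (S.ty ε), (c.gl I A).w a s = c.w (S.ty ε) ∧
        (Even k → ∃! i, G.d S.l ε ((S.Γ.g ε).x i) = c.w (S.ty ε) + k) ∧
        (Odd k → ∀ i, G.d S.l ε ((S.Γ.g ε).x i) ≠ c.w (S.ty ε) + k) := by
    rintro ⟨hA, e, rfl, hq⟩ s k h1 h2
    obtain ⟨ε, e1⟩ := h hA s _ rfl
    have e2 : (S.ty ε).1 = e.1 := congrArg (·.1) e1
    exact ⟨ε, congrArg some e1.symm, congrArg c.w e1.symm, (S.lt ε).ev (e2 ▸ hq) k h2 (e2 ▸ h1)⟩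
  have fs : ∀ {s ε} (e : a.ty s = some (S.ty ε)) {x} (j : S.Γ.ι a), S.lab j = (s, x) →
      ∃ y, G.d S.l ε ((S.Γ.g ε).x y) = x ∧ ⟨(s, some ⟨ε, y⟩), e⟩ = j := fun {s ε} e x j hj => by
    obtain ⟨y, k⟩ := S.Γ.of_fst ((Lv.Cx.ι_fst S.inj j (o := some ε) e).2 (congrArg Prod.fst hj))
    obtain rfl : ⟨(s, some ⟨ε, y⟩), e⟩ = j := Lv.Cx.ι_ext k.symm
    exact ⟨y, congrArg Prod.snd (lab_some.symm.trans hj), rfl⟩
  refine ⟨fun i hi k => by_contra fun h => ?_, fun hq s k h1 h2 h3 => ?_,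
    fun hq s k h1 h2 h3 i hi => ?_⟩
  · obtain ⟨j, -, hj⟩ := Finset.exists_ne_zero_of_sum_ne_zero h
    obtain ⟨ε, y, y', e1, e2, hq, -⟩ := dv_ne (cast_ne (left_ne_zero_of_mul hj))
    obtain ⟨_, _, y'', e3, e4, -⟩ := dv_ne (cast_ne (right_ne_zero_of_mul hj))
    cases e2.symm.trans e3
    refine h ?_
    show ∑ j, S.d i j * S.d j k = 0
    simp only [d, ← Nat.cast_mul]
    rw [sum_V (s := i.1.1) (by rw [i.2, ← S.Γ.val_fst 0, e1]; rfl) hq S.K₀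
      (fun v => S.dv _ v * S.dv v _) fun v h => by
        obtain ⟨_, _, _, e, rfl, -⟩ := dv_ne (left_ne_zero_of_mul h)
        cases e1.symm.trans e
        rfl, e1, e4, ZMod.natCast_eq_zero_iff_even]
    simp only [dv_eq hq]
    exact S.out.dd ε (S.Γ.full (S.ok ε) hq _) y (S.Γ.val_in _ _ _ e1) y'' (S.Γ.val_in _ _ _ e4)
      (le_of_eq_of_le (congrArg (G.dv S.l) e1).symm hi)
  · obtain ⟨ε, e, e1, h, -⟩ := ev hq s k h1 h2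
    obtain ⟨y, h4, h5⟩ := h h3
    rw [e1]
    refine ⟨⟨(s, some ⟨ε, y⟩), e⟩, lab_some.trans (congrArg _ h4), fun j hj => ?_⟩
    obtain ⟨y', h6, rfl⟩ := fs e j hj
    rw [h5 y' h6]
  · obtain ⟨ε, e, e1, -, h⟩ := ev hq s k h1 h2
    obtain ⟨y, h4, -⟩ := fs e i hi
    exact h h3 y (e1 ▸ h4)

end Stg

/-- **the analysis from the lanes** -/
theorem anStmt (H : Lanes mk G) : AnStmt mk := fun A => by
  obtain ⟨c⟩ := exCst H
  obtain ⟨f, hf⟩ := countable_iff_exists_injOn.1 A.cF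
  obtain ⟨f', hf'⟩ := countable_iff_exists_injOn.1 A.cE
  have fin : ∀ {α : Type 1} {s : Set α} {f : α → ℕ}, InjOn f s → ∀ m, {x ∈ s | f x ≤ m}.Finite :=
    fun h m => Finite.of_injOn (fun _ k => k.2) (h.mono fun _ k => k.1) (finite_Iic m)
  have hE := fun m : ℕ => exEnv H.ext
    (𝒩 := (fun x : Σ a b, C2 a b => (⟨x.2.2.g, x.2.2.τ⟩ : Nod κ lam ν)) ''
      {x | (x ∈ A.F ∧ f x ≤ m) ∧ x.2.2.τ.Irr})
    (((fin hf m).subset fun _ h => h.1).image _) (by rintro _ ⟨x, h, rfl⟩; exact ⟨x.2.2.wf, h.2⟩)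
    (𝒯 := ⋃ a ∈ {a ∈ A.E | f' a ≤ m}, some ⁻¹' range (EE.ty a))
    ((fin hf' m).biUnion fun a _ => (finite_range _).preimage (Option.some_injective _).injOn) (by
      intro ε h
      obtain ⟨_ | e, -, s, h⟩ := mem_iUnion₂.1 h <;> cases h
      exact e.2)
  choose E h1 h2 using hE
  choose S hS using fun m => exStg H c m (E m)
  refine ⟨Gl.cs (fun m => (S m).lr H.ind A) (fun a => (eventually_ge_atTop (f' a)).mono
    fun m h => Stg.wE _ fun hA s ε e => hS m ▸ h2 m (mem_biUnion ⟨hA, h⟩ ⟨s, e⟩)) fun a b σ => ?_⟩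
  have k : ∀ n : ℤ, ∀ᶠ m : ℕ in atTop, n ≤ m := fun n =>
    (tendsto_natCast_atTop_atTop (R := ℤ)).eventually_ge_atTop n
  exact ((eventually_ge_atTop (f ⟨a, b, σ⟩)).and ((k _).and (((eventually_all_finset _).2
    fun y _ => k _).and (eventually_all.2 fun i => eventually_ge_atTop _)))).mono
      fun m h => Stg.wF H fun hA => ⟨fun hI => hS m ▸ h1 m ⟨_, ⟨⟨hA, h.1⟩, hI⟩, rfl⟩, h.2.1, h.2.2.1,
        fun i _ => h.2.2.2 i⟩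

end Crest.Agent.X212.Flo2
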