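import Crest.Agent.X212.Win22.Pt
import Crest.Agent.X212.Win22.Ob

/-!
# Row 212, layer AN-S (helper2): count systems

`Sk` : the combinatorial skeleton of a world (ends, families of pieces with a class, facets, necks,
marks).  `Cs S` : what the analysis delivers, matrices over `F₂` at every level `m`.
The empty end `one` makes caps and closed manifolds special cases.
-/

set_option autoImplicit false
set_option linter.unusedSectionVars false

open Module Function Filter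

noncomputable section

universe u

namespace Crest.Agent.X212.Flo2

open Win22
open Bor5 (K)

/-- the skeleton -/
structure Sk : Type (u + 1) where
  /-- ends, and their classes -/
  E : Type u
  L : E → Type
  one : E
  sub : ∀ c c' : L one, c = c'
  /-- families with one incoming and one outgoing end -/
  F : E → E → Type u
  /-- pieces with one incoming and two outgoing ends -/
  F3 : E → E → E → Type u
  s : ∀ {a b}, F a b → L a
  t : ∀ {a b}, F a b → L b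
  s3 : ∀ {a b x}, F3 a b x → L a
  t3 : ∀ {a b x}, F3 a b x → L b
  u3 : ∀ {a b x}, F3 a b x → L x
  /-- facets -/
  fc : ∀ {a b}, F a b → List (F a b)
  /-- necks that separate the two ends -/
  nk : ∀ {a b}, F a b → List (Σ x, F a x × F x b)
  /-- necks that cut off a cap, with all lifts -/
  C : ∀ {a b}, F a b → Type
  cp : ∀ {a b} (σ : F a b), C σ → Σ x, F3 a b x × F x one
  /-- underlying families (without class), test forms, labels -/
  B : Type u
  base : ∀ {a b}, F a b → B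
  T : B → Type
  pr : ∀ {a b} (σ : F a b), T (base σ) → ℝ
  /-- the topological degree shift, where it is known -/
  tp : ∀ {a b}, F a b → ℚ → Prop
  /-- marks on ends: rational homology sphere, positive scalar curvature, the sphere, at most one
  generator in each degree, no generator -/
  qhs : E → Prop
  psc : E → Prop
  sph : E → Prop
  thin : E → Prop
  dead : E → Prop
  /-- marks on families -/
  idn : ∀ {a}, F a a → Prop
  hi1 : ∀ {a b}, F a b → Prop
  hi0 : ∀ {a b}, F a b → Prop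
  al1 : ∀ {a b}, F a b → Prop
  ex1 : ∀ {a b}, F a b → Prop
  al0 : ∀ {a b}, F a b → Prop

/-- the label of `σ` at a test form of its base -/
def Sk.prB (S : Sk) {a b : S.E} (σ : S.F a b) {β : S.B} (h : S.base σ = β) (e : S.T β) : ℝ :=
  S.pr σ (h ▸ e)

open Classical in
/-- the counts -/
structure Cs (S : Sk.{u}) : Type (max u 1) where
  A : ∀ e, Gen (S.L e)
  d : ∀ e m, (A e).ι m → (A e).ι m → K
  hom : ∀ e m i k, d e m i k ≠ 0 → (A e).lab m k = sh ((A e).lab m i)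
  dd : ∀ e r, ∀ᶠ m in atTop, ∀ i, ((A e).lab m i).2 ≤ r → ∀ k, ∑ j, d e m i j * d e m j k = 0
  z : ∀ {a b} (_ : S.F a b) m, (A a).ι m → (A b).ι m → K
  z3 : ∀ {a b x} (_ : S.F3 a b x) m, (A a).ι m → (A b).ι m → (A x).ι m → K
  dg : ∀ {a b}, S.F a b → ℚ
  dg3 : ∀ {a b x}, S.F3 a b x → ℚ
  hz : ∀ {a b} (σ : S.F a b) m i k, z σ m i k ≠ 0 → ((A a).lab m i).1 = S.s σ ∧
    (A b).lab m k = (S.t σ, ((A a).lab m i).2 + dg σ)
  hz3 : ∀ {a b x} (σ : S.F3 a b x) m i k j, z3 σ m i k j ≠ 0 → ((A a).lab m i).1 = S.s3 σ ∧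
    ((A b).lab m k).1 = S.t3 σ ∧ ((A x).lab m j).1 = S.u3 σ ∧
      ((A b).lab m k).2 + ((A x).lab m j).2 = ((A a).lab m i).2 + dg3 σ
  dg_fc : ∀ {a b} (σ : S.F a b), ∀ τ ∈ S.fc σ, dg τ + 1 = dg σ
  dg_nk : ∀ {a b} (σ : S.F a b), ∀ p ∈ S.nk σ, dg p.2.1 + dg p.2.2 + 1 = dg σ
  dg_cp : ∀ {a b} (σ : S.F a b) c, ¬S.dead (S.cp σ c).1 →
    dg3 (S.cp σ c).2.1 + dg (S.cp σ c).2.2 + 1 = dg σ
  dg_tp : ∀ {a b} (σ : S.F a b) r, S.tp σ r → dg σ = r
  /-- every level sees finitely many families -/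
  wfin : ∀ a b m, {σ : S.F a b | z σ m ≠ 0}.Finite
  /-- the empty end -/
  pt : ∀ m, (A S.one).ι m
  pt_eq : ∀ m i, i = pt m
  pt_deg : ∀ m, ((A S.one).lab m (pt m)).2 = 0
  /-- **the master equation** -/
  mas : ∀ {a b} (σ : S.F a b) r, ∃ D : Finset (S.C σ), ∀ᶠ m in atTop, ∀ i,
    ((A a).lab m i).2 ≤ r → ∀ k, (∀ c ∉ D, ∀ j, z3 (S.cp σ c).2.1 m i k j = 0) ∧
      ∑ j, d a m i j * z σ m j k + ∑ j, z σ m i j * d b m j k =
        ((S.fc σ).map fun τ => z τ m i k).sum +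
        ((S.nk σ).map fun p => ∑ j, z p.2.1 m i j * z p.2.2 m j k).sum +
        ∑ c ∈ D, ∑ j, z3 (S.cp σ c).2.1 m i k j * z (S.cp σ c).2.2 m j (pt m)
  /-- labels of living families are bounded -/
  bnd : ∀ a b β (e : S.T β) (ρ : ℚ), ∃ c : ℝ, ∀ r, ∀ᶠ m in atTop, ∀ (σ : S.F a b)
    (h : S.base σ = β) i k, -ρ ≤ dg σ → ((A a).lab m i).2 ≤ r → z σ m i k ≠ 0 → |S.prB σ h e| ≤ c
  /-- towers in high degrees -/
  N : S.E → ℕ
  ev : ∀ e, S.qhs e → ∀ s (k : ℕ), N e ≤ k → Even k → ∀ᶠ m in atTop,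
    ∃! i, (A e).lab m i = (s, (A e).w s + k)
  od : ∀ e, S.qhs e → ∀ s (k : ℕ), N e ≤ k → Odd k → ∀ᶠ m in atTop,
    ∀ i, (A e).lab m i ≠ (s, (A e).w s + k)
  psc : ∀ e, S.psc e → N e = 0
  sph : ∀ e, S.sph e → ∀ s, (A e).w s = 0
  thin : ∀ e, S.thin e → ∀ m i j, ((A e).lab m i).2 = ((A e).lab m j).2 → i = j
  dead : ∀ e, S.dead e → ∀ m, IsEmpty ((A e).ι m)
  idn : ∀ {a} (σ : S.F a a), S.idn σ → ∀ r, ∀ᶠ m in atTop, ∀ i, ((A a).lab m i).2 ≤ r → ∀ k,
    z σ m i k = if i = k ∧ ((A a).lab m i).1 = S.s σ then 1 else 0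
  hi1 : ∀ {a b} (σ : S.F a b), S.hi1 σ → ∃ n : ℚ, ∀ x, n ≤ x → ∀ᶠ m in atTop, ∀ i,
    (A a).lab m i = (S.s σ, x) → ∃ k, z σ m i k ≠ 0
  hi0 : ∀ {a b} (σ : S.F a b), S.hi0 σ → ∃ n : ℚ, ∀ x, n ≤ x → ∀ᶠ m in atTop, ∀ i,
    (A a).lab m i = (S.s σ, x) → ∀ k, z σ m i k = 0
  al1 : ∀ {a b} (σ : S.F a b), S.al1 σ → ∀ x, ∀ᶠ m in atTop, ∀ i k,
    (A a).lab m i = (S.s σ, x) → (A b).lab m k = (S.t σ, x + dg σ) → z σ m i k = 1
  ex1 : ∀ {a b} (σ : S.F a b), S.ex1 σ → ∀ x, ∀ᶠ m in atTop, ∀ i,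
    (A a).lab m i = (S.s σ, x) → ∃ k, z σ m i k ≠ 0
  al0 : ∀ {a b} (σ : S.F a b), S.al0 σ → ∀ r, ∀ᶠ m in atTop, ∀ i, ((A a).lab m i).2 ≤ r →
    ∀ k, z σ m i k = 0

namespace Sk
variable (S : Sk)

/-- no walls and no facets -/
structure Pt {a b : S.E} (σ : S.F a b) : Prop where
  fc : S.fc σ = []
  nk : S.nk σ = []
  cp : IsEmpty (S.C σ)

/-- prescribed facets and necks, no caps -/
structure Bd {a b : S.E} (σ : S.F a b) (l : List (S.F a b)) (n : List (Σ x, S.F a x × S.F x b)) :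
    Prop where
  fc : (S.fc σ).Perm l
  nk : (S.nk σ).Perm n
  cp : IsEmpty (S.C σ)

/-- a family of classes over one base with finitely many members in every bounded set of labels -/
def Prp {a b : S.E} {I : Type} (f : I → S.F a b) : Prop :=
  ∃ (β : S.B) (h : ∀ i, S.base (f i) = β) (D : Finset (S.T β)),
    ∀ c : ℝ, {i | ∀ e ∈ D, |S.prB (f i) (h i) e| ≤ c}.Finite

end Sk

namespace Cs
variable {S : Sk} (Z : Cs S)

/-- the complex of an end -/
def cx (e : S.E) : WC (S.L e) := (Z.A e).wc (Z.d e) (Z.hom e) (Z.dd e)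

/-- the maps of a family -/
def wm {a b : S.E} (σ : S.F a b) : WM (Z.cx a).toWG (Z.cx b).toWG :=
  Gen.wm (Z.z σ) fun r => ⟨r + Z.dg σ, Eventually.of_forall fun m i k hi h => by
    rw [(Z.hz σ m i k h).2]
    linarith⟩

/-- the chain map of a point -/
def ch {a b : S.E} {σ : S.F a b} (h : S.Pt σ) : WCh (Z.cx a) (Z.cx b) where
  toWM := Z.wm σ
  ch := (Z.A a).loc (fun m => mat (Z.d b m) ∘ₗ mat (Z.z σ m))
    (fun m => mat (Z.z σ m) ∘ₗ mat (Z.d a m)) fun r => by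
      obtain ⟨D, hD⟩ := Z.mas σ r
      refine hD.mono fun m hm i hi => funext fun k => ?_
      have h1 := (hm i hi k).2
      have := h.cp
      rw [h.fc, h.nk, Finset.eq_empty_of_isEmpty D] at h1
      simp only [List.map_nil, List.sum_nil, Finset.sum_empty, add_zero] at h1
      simp only [LinearMap.comp_apply, mat_single, mat_apply]
      exact (CharTwo.add_eq_zero.1 h1).symm

end Cs

end Crest.Agent.X212.Flo2
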