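import Crest.Agent.X212.Flo2.Real

/-!
# Row 212, layer AN-S (helper2): countable parts of a skeleton
-/

set_option autoImplicit false
set_option linter.unusedSectionVars false

open Set Function

noncomputable section

universe u

namespace Crest.Agent.X212.Flo2

open Bor5.T

namespace Sk
variable (S : Sk.{u})

/-- a countable set of ends and cells that is closed under faces -/
structure Sub : Type (max u 1) where
  E : Set S.E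
  F : Set (Σ a b, S.F a b)
  F3 : Set (Σ a b x, S.F3 a b x)
  cE : E.Countable
  cF : F.Countable
  cF3 : F3.Countable
  one : S.one ∈ E
  en : ∀ a b σ, ⟨a, b, σ⟩ ∈ F → a ∈ E ∧ b ∈ E
  en3 : ∀ a b x σ, ⟨a, b, x, σ⟩ ∈ F3 → a ∈ E ∧ b ∈ E ∧ x ∈ E
  fc : ∀ a b σ, ⟨a, b, σ⟩ ∈ F → ∀ τ ∈ S.fc σ, ⟨a, b, τ⟩ ∈ F
  nk : ∀ a b σ, ⟨a, b, σ⟩ ∈ F → ∀ p ∈ S.nk σ, ⟨a, p.1, p.2.1⟩ ∈ F ∧ ⟨p.1, b, p.2.2⟩ ∈ F
  cp : ∀ a b σ, ⟨a, b, σ⟩ ∈ F → ∀ c, ⟨a, b, (S.cp σ c).1, (S.cp σ c).2.1⟩ ∈ F3 ∧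
    ⟨(S.cp σ c).1, S.one, (S.cp σ c).2.2⟩ ∈ F

open Classical in
/-- outside `A` all faces and all marks that assert existence are removed -/
def cut (A : S.Sub) : Sk.{u} :=
  { S with
    fc := fun {a b} σ => if ⟨a, b, σ⟩ ∈ A.F then S.fc σ else []
    nk := fun {a b} σ => if ⟨a, b, σ⟩ ∈ A.F then S.nk σ else []
    C := fun {a b} σ => {_c : S.C σ // ⟨a, b, σ⟩ ∈ A.F}
    cp := fun σ c => S.cp σ c.1
    tp := fun {a b} σ r => ⟨a, b, σ⟩ ∈ A.F ∧ S.tp σ r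
    qhs := fun e => e ∈ A.E ∧ S.qhs e
    idn := fun {a} σ => ⟨a, a, σ⟩ ∈ A.F ∧ S.idn σ
    hi1 := fun {a b} σ => ⟨a, b, σ⟩ ∈ A.F ∧ S.hi1 σ
    al1 := fun {a b} σ => ⟨a, b, σ⟩ ∈ A.F ∧ S.al1 σ
    ex1 := fun {a b} σ => ⟨a, b, σ⟩ ∈ A.F ∧ S.ex1 σ }

end Sk

/-- the same text as `Bor5.T.CntStmt` -/
def Cnt : Prop := (∀ (A B : Q3) (C : Cob A B), Countable C.L) ∧ ∀ (B : Q3) (C : Cp B), Countable C.L

/-- ALG-7: a realisation uses countably many cells -/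
def SubStmt : Prop := ∀ (S : Scene) (K : Sk.{u}) (r : Rl S K.clo) (Q : Prd) (R : ℝ) (P : Pent S Q R),
  r.NV P → (∀ a b (σ : K.F a b), Countable (K.C σ)) → Cnt →
  ∃ (A : K.Sub) (r' : Rl S (K.cut A).clo), r'.NV P

/-- the theory from a skeleton all of whose countable parts have counts -/
theorem th_of (h5 : CloStmt.{u}) (h6 : AsmStmt.{u}) (h7 : SubStmt.{u}) (hc : Cnt)
    (K : Sk.{u}) (hC : ∀ a b (σ : K.F a b), Countable (K.C σ))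
    (an : ∀ A : K.Sub, Nonempty (Cs (K.cut A))) (Q : Prd) (R : ℝ) (hT : Taub Q)
    (geo : ∀ (S : Scene) (P : Pent S Q R), ∃ r : Rl S K.clo, r.NV P) : ThStmt := by
  refine ⟨Q, R, hT, fun S P => ?_⟩
  obtain ⟨r, hr⟩ := geo S P
  obtain ⟨A, r', hr'⟩ := h7 S K r Q R P hr hC hc
  obtain ⟨θ, hθ⟩ := h6 S _ r' (h5 _ (an A))
  exact ⟨θ, hθ Q R P hr'⟩

end Crest.Agent.X212.Flo2
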