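import Crest.Agent.X212.Flo2.Fst

/-!
# Row 212, layer AN-S (helper2): the counts of a forest at a level
-/

set_option autoImplicit false
set_option linter.unusedSectionVars false
noncomputable section
open scoped Manifold ContDiff Topology InnerProductSpace
open MeasureTheory Set Function Filter

universe u

namespace Crest.Agent.X212.Flo2
open An Cyf70 Sw
open M (Mf)

variable {κ lam ν : Type} [Fintype κ] [Fintype lam] [Fintype ν] [DecidableEq ν]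
  {𝓔 : Type} [Fintype 𝓔] {ty : 𝓔 → Ty κ lam ν} {Sl : Type} [Fintype Sl] {W : Type}
  {mk : Mk κ lam ν} {G : Gr κ lam ν}

namespace Plc
variable {g : Gc κ lam ν} {p : Plc ty Sl g} {l : Lv 𝓔} {yt : l.YT ty W} {β : Sw.BC (l.dt ty yt) Sl}

theorem pw_up {o : Option g.N} {s : Bool} {j b v} (h : ∀ i, o = some i → p.ι i ≠ j ∨ s ≠ b) :
    p.pw l (β.up j b v) o s = p.pw l β o s := by
  cases o with
  | none => rfl
  | some i => exact congrArg (fun v => some (Sigma.mk _ v)) (up_ne β v (h i rfl))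

theorem pw_up' {o : Option g.N} {i b v} (h : o = some i) :
    p.pw l (β.up (p.ι i) b v) o b = some ⟨_, v⟩ := by
  subst h
  exact congrArg (fun v => some (Sigma.mk _ v)) (up_self β _ b v)

open Classical in
theorem sum_inf {o : Option g.N} {b : Bool} (h : ∀ i, g.s.Inf i b ↔ o = some i) (f : 𝓔 × Sl → ℕ) :
    ∑ j with (p.site l yt).Inf j b, f j = o.elim 0 fun i => f (p.ι i) := by
  have e : ∀ j, (p.site l yt).Inf j b ↔ o.map p.ι = some j := fun j =>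
    (p.lev_inf _ l j b).trans (by simp [h, and_comm])
  cases o with
  | none => exact Finset.sum_eq_zero fun j hj => by simp [e] at hj
  | some i =>
    exact Finset.sum_eq_single_of_mem _ (by simp [e]) fun j hj k => by simp [e, k.symm] at hj

end Plc

theorem Gr.dv_ge {l : Lv 𝓔} {Γ : l.Cx ty} {B : ℚ} (hB : 0 ≤ B)
    (lb : ∀ ε, ∀ v ∈ Γ.V ε, -B ≤ G.d l ε v) {v : l.PV ty} (h : Γ.In v) : -B ≤ G.dv l v := by
  obtain _ | ⟨ε, v⟩ := v
  exacts [neg_nonpos.2 hB, lb ε v (Lv.Cx.in_some.1 h)]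

section evo
variable {g : Gc κ lam ν}
  {Q : ∀ {𝓔 : Type} [Fintype 𝓔] {ty : 𝓔 → Ty κ lam ν} {Sl : Type} [Fintype Sl] (_ : Plc ty Sl g)
    (l : Lv 𝓔) (_ : l.Cx ty) {W : Type} (_ : l.YT ty W) (_ : Tm g W) (_ : W →₀ ℝ), Prop}
  (p : Plc ty Sl g) (hty : ∀ ε, (ty ε).1.OK mk) {τ : Tm g W} (hτ : τ.OK)
include hτ

theorem op_sm (H : LokStmt mk) (hg : g.OK) {l : Lv 𝓔} (Γ : l.Cx ty) {η : ℝ} (h0 : 0 < η) :
    ∃ O, St.IsOp O ∧ O 0 ∧ ∀ q, O q → ∀ t,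
      ((p.fam l (W := l.W ty W) Prod.snd (τ.map Prod.fst)).P t).Small 6 η q :=
  op_sz (d := l.dt ty (W := l.W ty W) Prod.snd) _
    (H.sz g hg 𝓔 ty Sl p l _ _ _ (fun ε => (Γ.ok ε).ok) (hτ.map _)) h0

include hty

theorem Gc.Ev.evO (h : g.Ev mk Q) (H : LokStmt mk) (hg : g.OK) :
    EvO ty W fun l Γ q => Q p l Γ Prod.snd (τ.map Prod.fst) q :=
  (h 𝓔 ty Sl p hty).mono fun _ Γ ⟨_, h0, k⟩ => (op_sm p hτ H hg Γ h0).imp fun _ o =>
    ⟨o.1, o.2.1, fun q hq => k _ _ _ (hτ.map _) q (o.2.2 q hq)⟩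

theorem Gc.EvW.evO (h : g.EvW mk Q) : EvO ty W fun l Γ q => Q p l Γ Prod.snd (τ.map Prod.fst) q :=
  (h 𝓔 ty Sl p hty).mono fun _ _ k => let ⟨s, k⟩ := k _ _ _ (hτ.map _)
    ⟨_, isOp_wt s 1, by simp, k⟩

end evo

theorem ev_unif {p : ℝ → ℝ → Prop} (mono : ∀ C C' η η', C ≤ C' → η' ≤ η → p C η → p C' η')
    (h : ∃ C, ∃ η > 0, p C η) : ∀ᶠ x : ℝ × ℝ in atTop ×ˢ 𝓝[>] 0, p x.1 x.2 := by
  obtain ⟨C, η, h0, h⟩ := h
  exact ((eventually_ge_atTop C).prod_mk ((eventually_le_nhds h0).filter_mono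
    nhdsWithin_le_nhds)).mono fun x k => mono _ _ _ _ k.1 k.2 h

namespace Fst
variable {F : Fst.{0} ty Sl W mk G} {l : Lv 𝓔}
  {x : ∀ a (c : {c // (F.g a).wl c ≠ none}), F.WD l a c} {Γ : l.Cx ty} {a : F.Y}
  {β : Sw.BC (F.dt l) Sl} {q : l.W ty W →₀ ℝ}

theorem inV_up (hβ : (F.p a).InV Γ β) {j : 𝓔 × Sl} {b v} (hv : v ∈ Γ.V j.1) :
    (F.p a).InV Γ (β.up j b v) := fun i s hi => by
    by_cases e : (F.p a).ι i = j ∧ s = b
    · obtain ⟨rfl, rfl⟩ := e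
      exact (up_self β _ s v).symm ▸ hv
    · exact (up_ne β v (not_and_or.1 e)).symm ▸ hβ i s hi

section n
variable (H : Lanes mk G) (hty : ∀ ε, (ty ε).1.OK mk) (hi : Injective ty) (hx : ∀ a c, (x a c).OK)
include H hty hi hx

theorem n_T (hβ : (F.p a).InV Γ β) : (((F.pw l x).pc a (.top _) β).n : ℚ) = G.dg (F.g a) +
    G.dv l ((F.p a).pw l β (F.g a).pin false) - G.dv l ((F.p a).pw l β (F.g a).pout true) -
      G.dv l ((F.p a).pw l β (F.g a).p3 true) := by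
  have h := pw_ok H.lok hi hx Γ a
  simp only [← Plc.dp_eq]
  exact H.ind.cel _ (F.gd a) 𝓔 ty Sl _ l _ _ _ β (Pw.cel_ok h (vb_iff.2 hβ)) _
    (Pw.ind_top (H.lvs _ _) h (vb_iff.2 hβ))

omit hi hx in
theorem n_C {ε u v} (hu : u ∈ Γ.V ε) (hv : v ∈ Γ.V ε) :
    (((F.pw l x).cy ε u v).n : ℚ) = G.d l ε u - G.d l ε v - 1 := by
  have h := (H.lvs (F.dt l) Sl).cc1 (Γ.ctx Prod.snd) (ε, F.s₀) (cb_mem (Γ.ctx Prod.snd) F.s₀ hu hv)
  have := H.ind.cyl 𝓔 ty Sl l _ Prod.snd (ε, F.s₀) (Empty → ℝ) 1 _ hty h _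
    ((H.lvs _ _).ind (σ := (F.pw l x).cy ε u v) h)
  rw [cb_false, cb_true, Nat.cast_one] at this
  exact this

theorem z0_T (hβ : (F.p a).InV Γ β) : ((F.pw l x).pc a (.top _) β).z0 q =
    F.Z l q a ((F.p a).pw l β (F.g a).pin false) ((F.p a).pw l β (F.g a).pout true)
      ((F.p a).pw l β (F.g a).p3 true) := by
  have := n_T H hty hi hx hβ
  refine if_congr ⟨fun e => ?_, fun e => ?_⟩ ?_ rfl
  · rw [e, Int.cast_zero] at this
    linarith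
  · exact Int.cast_injective (α := ℚ) (by rw [this, Int.cast_zero]; linarith)
  · rw [Pw.z_pc rfl, Fa.pl_top, inter_univ, dom_eq]
    exact Plc.cnt_cz _ _ _ _ _ (F.gd a).1 _ β

theorem z0_B {vi vo v3} (h : (F.p a).Fit Γ vi vo v3) :
    ((F.pw l x).pc a (.top _) ((F.p a).bcv l vi vo v3)).z0 q = F.Z l q a vi vo v3 := by
  rw [z0_T H hty hi hx (h.inV (F.gd a).1), Plc.pw_in h.ei, Plc.pw_out h.eo, Plc.pw_3 (F.gd a).1 h.e3]

theorem deg_le {B : ℚ} (hB : 0 ≤ B) (lb : ∀ ε, ∀ v ∈ Γ.V ε, -B ≤ G.d l ε v) (hβ : (F.p a).InV Γ β)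
    {f} (hn : 0 ≤ ((F.pw l x).pc a f β).n) :
    ∀ v, v = (F.p a).pw l β (F.g a).pout true ∨ v = (F.p a).pw l β (F.g a).p3 true →
      G.dv l v ≤ G.dg (F.g a) + B + G.dv l ((F.p a).pw l β (F.g a).pin false) := by
  have h1 : (0 : ℚ) ≤ _ := Int.cast_nonneg
    (hn.trans (Pw.n_le (H.lvs _ _) (pw_ok H.lok hi hx Γ a) (vb_iff.2 hβ)))
  rw [n_T H hty hi hx hβ] at h1
  have k := hβ.fit (F.gd a).1
  have h2 := G.dv_ge hB lb k.ho
  have h3 := G.dv_ge hB lb k.h3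
  rintro _ (rfl | rfl) <;> linarith

end n

variable (x Γ) in
/-- the cells in the window -/
def Gd (r M : ℚ) (σ : (F.pw l x).wld.Cl) : Prop := σ.n ≤ 1 ∧
  ((∃ a f β, σ = (F.pw l x).pc a f β ∧ (F.p a).InV Γ β ∧
    G.dv l ((F.p a).pw l β (F.g a).pin false) ≤ r + (2 - (F.g a).k) * M) ∨
  ∃ ε u v, σ = (F.pw l x).cy ε u v ∧ u ∈ Γ.V ε ∧ v ∈ Γ.V ε ∧ En3.L v < En3.L u ∧
    G.d l ε u ≤ r + 3 * M)

section ok
variable (H : Lanes mk G) (hty : ∀ ε, (ty ε).1.OK mk) (hi : Injective ty) (hx : ∀ a c, (x a c).OK)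
  {r M B : ℚ}
include H hty hi hx

theorem gd_ok {σ} (h : Gd x Γ r M σ) : σ.Ok (Γ.ctx Prod.snd) (Gd x Γ r M) (Γ.ctx Prod.snd).rank := by
  obtain ⟨hn, ⟨a, f, β, rfl, h1, h2⟩ | ⟨ε, u, v, rfl, h1, h2, -⟩⟩ := h
  · refine Pw.ok_pc (H.lvs _ _) (pw_ok H.lok hi hx Γ) (vb_iff.2 h1) hn fun c s hc _ =>
      ⟨?_, .inl ⟨a, _, β, rfl, h1, h2⟩⟩
    rw [Pw.n_fc (H.lvs _ _) (pw_ok H.lok hi hx Γ a) (vb_iff.2 h1) hc]
    omega
  · exact Pw.ok_cy (H.lvs _ _) h1 h2 hn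

theorem gd_chl (hB : 0 ≤ B) (lb : ∀ ε, ∀ v ∈ Γ.V ε, -B ≤ G.d l ε v) (hM : 0 ≤ M)
    (hM' : ∀ a, G.dg (F.g a) + B ≤ M) {σ} (h : Gd x Γ r M σ) (r') :
    σ.Chl (Γ.ctx Prod.snd) (Gd x Γ r M) r' := by
  have ok := gd_ok H hty hi hx h
  have L := H.lvs (F.dt l) Sl
  obtain ⟨hn, ⟨a, f, β, rfl, h1, h2⟩ | ⟨ε, u, v, rfl, h1, h2, h3, h4⟩⟩ := h
  · have k0 : (0 : ℚ) ≤ (F.g a).k := Nat.cast_nonneg _
    have hg := (F.gd a).1
    refine Pw.chl_pc (fun c hc v hv => ?_) (fun j hj v hv hl => ?_) (fun j hj v hv hl => ?_) r'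
    · have k := fit_x hi (hx a c) h1 hv
      have e : ((F.g (F.L a c)).k + (F.g (F.R a c)).k + 1 : ℚ) = (F.g a).k := by
        exact_mod_cast (by simpa using Fintype.card_of_bijective (hx a c).bij)
      have k1 : (0 : ℚ) ≤ (F.g (F.L a c)).k := Nat.cast_nonneg _
      have k2 : (0 : ℚ) ≤ (F.g (F.R a c)).k := Nat.cast_nonneg _
      refine ⟨fun n => ⟨n.trans zero_le_one, .inl ⟨_, _, _, rfl, k.1.inV (F.gd _).1, ?_⟩⟩,
        fun n => ⟨?_, .inl ⟨_, _, _, rfl, k.2.inV (F.gd _).1, ?_⟩⟩⟩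
      · refine (congrArg _ (Plc.pw_in k.1.ei)).trans_le (h2.trans ?_)
        show _ ≤ r + (2 - (F.g (F.L a c)).k) * M
        nlinarith
      · have := Pw.add_wl L ok (pw_ok H.lok hi hx Γ a) c hc hv
        omega
      · have := deg_le H hty hi hx hB lb (k.1.inV (F.gd _).1) n (some ⟨_, v⟩) (by
          rw [Plc.pw_out k.1.eo, Plc.pw_3 (F.gd _).1 k.1.e3]
          cases F.cap a c <;> simp)
        rw [Plc.pw_in k.1.ei] at this
        refine (congrArg _ (Plc.pw_in k.2.ei)).trans_le (this.trans ?_)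
        show _ ≤ r + (2 - (F.g (F.R a c)).k) * M
        nlinarith [hM' (F.L a c)]
    · have k := inV_up h1 (b := true) hv
      have e : (F.p a).pw l (β.up j true v) (F.g a).pin false = (F.p a).pw l β (F.g a).pin false :=
        Plc.pw_up (yt := Prod.snd) fun _ _ => .inr (by simp)
      refine ⟨fun n => ⟨n.trans zero_le_one, .inl ⟨_, _, _, rfl, k, e ▸ h2⟩⟩, fun n =>
        ⟨?_, .inr ⟨_, _, _, rfl, hv, vb_iff (x := x).2 h1 _ _ hj, hl, ?_⟩⟩⟩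
      · have := Pw.add_out L ok hj hv hl
        omega
      · obtain ⟨i, rfl, hk⟩ := ((F.p a).lev_inf _ l j true).1 hj
        have := deg_le H hty hi hx hB lb k n (some ⟨_, v⟩)
          (((hg.out i).1 hk).imp (fun e => (Plc.pw_up' e).symm) fun e => (Plc.pw_up' e).symm)
        rw [e] at this
        refine le_trans this ?_
        nlinarith [hM' a]
    · obtain ⟨i, rfl, hk⟩ := ((F.p a).lev_inf _ l j false).1 hj
      have e := (hg.inn i).1 hk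
      have hu := h1 i false hk
      have h3 : G.d l _ (β ((F.p a).ι i) false) ≤ r + (2 - (F.g a).k) * M := by
        rw [e] at h2
        exact h2
      refine ⟨fun n => ⟨n.trans zero_le_one, .inr ⟨_, _, _, rfl, hu, hv, hl, by nlinarith⟩⟩, fun n =>
        ⟨?_, .inl ⟨_, _, _, rfl, inV_up h1 hv, ?_⟩⟩⟩
      · have := Pw.add_inn L ok hj hv hl
        omega
      · have h4 : (0 : ℚ) ≤ _ := Int.cast_nonneg n
        rw [n_C H hty hu hv] at h4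
        rw [Plc.pw_up' e]
        show G.d l _ v ≤ _
        linarith
  · refine Pw.chl_cy (fun w hw a1 a2 => ⟨fun n => ⟨n.trans zero_le_one,
      .inr ⟨_, _, _, rfl, h1, hw, a2, h4⟩⟩, fun n => ⟨?_, .inr ⟨_, _, _, rfl, hw, h2, a1, ?_⟩⟩⟩) r'
    · have := Pw.add_cy L ok hw a1 a2
      omega
    · have h5 : (0 : ℚ) ≤ _ := Int.cast_nonneg n
      rw [n_C H hty h1 hw] at h5
      linarith

end ok

variable (F Γ) in
/-- the analysis on one family -/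
def AnA (a : F.Y) (r : ℚ) (C η₀ : ℝ) : Prop := ∃ O, St.IsOp O ∧ O 0 ∧ ∀ q, O q → ∀ β,
  (F.p a).InV Γ β → ((F.p a).dp G l β (F.g a).pin false ≤ r →
    ∀ y ∈ (F.p a).M l Prod.snd (F.tm l a) β q, (F.cel l a β).Bnd C η₀ y) ∧
  ∀ y : (F.cel l a β).Pnt, y.1.1 ∈ (F.g a).dom → (((F.ps l).fam a).P y.1.1).bg.Sol
    ((((F.ps l).fam a).P y.1.1).pt q) y.1.2 → ∃ x, y.1.2.Φ x ≠ 0

variable (F Γ) in
/-- the analysis on the cylinders -/
def AnC (r : ℚ) (C η₀ : ℝ) : Prop := ∃ η > 0, ∀ (i : 𝓔 × Sl) β q, (∀ s, β i s ∈ Γ.V i.1) →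
  G.d l i.1 (β i false) ≤ r → ((F.dt l).cc Prod.fst i (Empty → ℝ) 1 β).Sm η q → ∀ y,
  ((F.dt l).cc Prod.fst i (Empty → ℝ) 1 β).Sol q y → ((F.dt l).cc Prod.fst i (Empty → ℝ) 1 β).Bnd C η₀ y

variable (H : Lanes mk G) (hty : ∀ ε, (ty ε).1.OK mk)
include H hty

theorem ev_anA (a : F.Y) (r : ℚ) :
    Ev ty fun _ Γ => ∀ᶠ x : ℝ × ℝ in atTop ×ˢ 𝓝[>] 0, F.AnA Γ a r x.1 x.2 := by
  obtain ⟨C, hC⟩ := H.bnd.en (F.g a).toBs
  have hg := (F.gd a).1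
  refine ((F.fq a r 𝓔 ty Sl (F.p a) hty).and (((hC _ rfl (F.gd a)).evO (F.p a) hty (F.ok a) H.lok
    hg).and ((H.irr _ (F.gd a) (F.ir a)).evO (F.p a) hty (F.ok a) H.lok hg))).mono ?_
  rintro l Γ ⟨⟨η₀, h0, η, h1, h2⟩, O, o1, o2, o3⟩
  refine ev_unif (fun C C' η η' a1 a2 => Exists.imp fun O k => ⟨k.1, k.2.1, fun q hq β hβ =>
    ⟨fun b y hy => ((k.2.2 q hq β hβ).1 b y hy).mono a1 a2, (k.2.2 q hq β hβ).2⟩⟩) ?_
  obtain ⟨C', h3⟩ := H.lok.sup _ hg 𝓔 ty Sl (F.p a) l (fun ε => (Γ.ok ε).ok) Γ.w0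
  obtain ⟨O₁, a1, a2, a3⟩ := op_sm (F.p a) (F.ok a) H.lok hg Γ h1
  obtain ⟨O₂, b1, b2, b3⟩ := op_sm (F.p a) (F.ok a) H.lok hg Γ one_pos
  exact ⟨max _ C', η₀, h0, _, o1.and (a1.and b1), ⟨o2, a2, b2⟩, fun q hq β hβ => ⟨fun b y hy =>
    ⟨((o3 q hq.1).1 β hβ y hy).trans (ENNReal.ofReal_le_ofReal (le_max_left _ _)),
      fun z => (h3 _ _ _ ((F.ok a).map _) q (b3 q hq.2.2) β y hy z).trans (le_max_right _ _),
      h2 _ _ _ ((F.ok a).map _) q (a3 q hq.2.1) β hβ b y hy⟩, (o3 q hq.1).2 β hβ⟩⟩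

theorem ev_anC (r : ℚ) : Ev ty fun l Γ => (∀ ε, ∃ C, (l.e ty ε).Nb C) →
    ∀ᶠ x : ℝ × ℝ in atTop ×ˢ 𝓝[>] 0, F.AnC Γ r x.1 x.2 := by
  refine (H.freq.cyl r 𝓔 ty Sl hty).mono ?_
  rintro l Γ ⟨η₀, h0, η, h1, h2⟩ hN
  obtain ⟨C, η', h3, h4⟩ := H.bnd.cyl 𝓔 ty Sl hty l Γ hN
  refine ev_unif (fun C C' η η' a1 a2 => Exists.imp fun O k => ⟨k.1, fun i β q b1 b2 b3 y hy =>
    (k.2 i β q b1 b2 b3 y hy).mono a1 a2⟩) ⟨C, η₀, h0, _, lt_min h1 h3, fun i β q b1 b2 b3 y hy => ?_⟩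
  have := h4 _ _ i _ 1 β q b1 (b3.mono (min_le_right _ _)) y hy
  exact ⟨this.1, this.2, h2 _ _ i _ 1 β q b1 b2 (b3.mono (min_le_left _ _)) y hy⟩

variable (hi : Injective ty) (hx : ∀ a c, (x a c).OK) {r M : ℚ}
include hi hx

theorem gd_an [Nonempty W] {C η₀ : ℝ} (hA : ∀ a, F.AnA Γ a (r + (2 - (F.g a).k) * M) C η₀)
    (hC : F.AnC Γ (r + 3 * M) C η₀) :
    ∃ O, St.IsOp O ∧ O 0 ∧ ∀ σ, Gd x Γ r M σ → σ.An C η₀ O := by
  classical
  choose O o1 o2 o3 using hA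
  obtain ⟨η, h1, h2⟩ := hC
  obtain ⟨η', h3, h4⟩ := Pw.an_cy (P := F.pw l x) (H.lvs _ _) (H.densZ _ _) (Γ.ctx Prod.snd) C
  obtain ⟨O', a1, a2, a3⟩ := op_cc (d := F.dt l) (Sl := Sl) (fun ε => (Γ.ok ε).ok) (Empty → ℝ)
    (lt_min h1 h3)
  refine ⟨_, (isOp_all o1).and a1, ⟨o2, a2⟩, ?_⟩
  rintro _ ⟨-, ⟨a, f, β, rfl, b1, b2⟩ | ⟨ε, u, v, rfl, b1, b2, b3, b4⟩⟩
  · have e := (dom_eq (x := x) (a := a)).le
    exact Pw.an_pc (H.lvs _ _) (pw_ok H.lok hi hx Γ a) (vb_iff.2 b1) (H.dens _ _) (fun t ht =>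
      H.lok.rich _ 𝓔 ty Sl _ l W _ (F.rich a) t (e ht)) (fun q hq y c1 c2 =>
      (o3 a q (hq.1 a) β b1).1 (((F.p a).dp_eq l β G _ _).trans_le b2) y ⟨c1, e c2⟩)
      fun q hq y c1 => (o3 a q (hq.1 a) β b1).2 y (e c1)
  · refine h4 ε u v b1 b2 b3 (fun T => ⟨(Classical.arbitrary W, update (fun _ => none) ε (some T)),
      by simp⟩) _ _ fun q hq => ?_
    have k : ((F.pw l x).cy ε u v).cel.Sm (min η η') q := fun t _ => a3 q hq.2 (ε, F.s₀) t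
    exact ⟨k.mono (min_le_right _ _), h2 (ε, F.s₀) _ q (cb_mem (Γ.ctx Prod.snd) F.s₀ b1 b2)
      ((congrArg _ (cb_false ..)).trans_le b4) (k.mono (min_le_left _ _))⟩

theorem out_of (hM : 0 ≤ M) {D : ∀ ε, Finset (l.e ty ε).YC} {r₀ : ℝ}
    (hD : ∀ ε, ∀ v ∈ D ε, v ∈ Γ.V ε ∧ |En3.hol v| ≤ r₀)
    (hc : ∀ ε, ∀ u ∈ D ε, ∀ v ∈ D ε, Gd x Γ r M ((F.pw l x).cy ε u v) →
      ((F.pw l x).cy ε u v).n = 1 → ((F.pw l x).cy ε u v).Stk (Γ.ctx Prod.snd) r₀ q)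
    (hp : ∀ a vi vo, (∀ y ∈ vi, y.2 ∈ D y.1) → (∀ y ∈ vo, y.2 ∈ D y.1) →
      Gd x Γ r M ((F.pw l x).pc a (.top _) ((F.p a).bcv l vi vo none)) →
      ((F.pw l x).pc a (.top _) ((F.p a).bcv l vi vo none)).n = 1 →
      ((F.pw l x).pc a (.top _) ((F.p a).bcv l vi vo none)).Stk (Γ.ctx Prod.snd) r₀ q) :
    F.Out Γ q r D ((F.pw l x).dz q) := by
  classical
  have hom : ∀ ε, ∀ u ∈ Γ.V ε, ∀ v ∈ Γ.V ε, (F.pw l x).dz q ε u v ≠ 0 →
      En3.L v < En3.L u ∧ G.d l ε u = G.d l ε v + 1 := fun ε u hu v hv h => by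
    have h1 : En3.L v < En3.L u := by_contra fun e => h (if_neg e)
    have h2 : ((F.pw l x).cy ε u v).n = 0 := by_contra fun e => h ((if_pos h1).trans (if_neg e))
    have := n_C H hty (x := x) hu hv
    rw [h2, Int.cast_zero] at this
    exact ⟨h1, by linarith⟩
  refine ⟨fun ε u hu v hv h => (hom ε u hu v hv h).2, fun ε hε u hu v hv h => ?_,
    fun a vi vo hf hε h1 h2 Dw h3 h4 => ?_⟩
  · by_cases e : ∃ w ∈ D ε, (F.pw l x).dz q ε u w * (F.pw l x).dz q ε w v ≠ 0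
    · obtain ⟨w, hw, e⟩ := e
      have e1 := hom ε u hu w (hD ε w hw).1 (left_ne_zero_of_mul e)
      have e2 := hom ε w (hD ε w hw).1 v hv (right_ne_zero_of_mul e)
      have n : ((F.pw l x).cy ε u v).n = 1 := Int.cast_injective (α := ℚ) (by
        rw [n_C H hty hu hv, Int.cast_one]
        linarith [e1.2, e2.2])
      exact Pw.stk_cy (hc ε u (hε u hu) v (hε v hv)
        ⟨n.le, .inr ⟨ε, u, v, rfl, hu, hv, e2.1.trans e1.1, by linarith⟩⟩ n) _ (hD ε)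
        fun w hw k => (k (hε w hw)).elim
    · push Not at e
      rw [Finset.sum_eq_zero e]
      exact .zero
  have hg := (F.gd a).1
  have hβ := hf.inV hg
  have p3 : (F.g a).p3 = none := Option.map_eq_none_iff.1 hf.e3.symm
  have P := pw_ok H.lok hi hx Γ a
  have L := H.lvs (F.dt l) Sl
  have e1 := Plc.pw_in (vo := vo) (v3 := none) hf.ei
  have e2 := Plc.pw_out (vi := vi) (v3 := none) hf.eo
  have e3 := Plc.pw_3 (vi := vi) (vo := vo) hg hf.e3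
  have n : ((F.pw l x).pc a (.top _) ((F.p a).bcv l vi vo none)).n = 1 :=
    Int.cast_injective (α := ℚ) (by
      rw [n_T H hty hi hx hβ, e1, e2, e3, Int.cast_one]
      show _ - 0 = _
      linarith)
  have k2 : ((F.g a).k : ℚ) ≤ 2 := by exact_mod_cast hg.k2
  have dm : ∀ v : l.PV ty, Γ.In v → (∀ ε, v.map Sigma.fst = some ε → ∀ v ∈ Γ.V ε, v ∈ D ε) →
      ∀ y ∈ v, y.2 ∈ D y.1 := by
    rintro _ h k y rfl
    exact k _ rfl _ (h y rfl)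
  have fl : ∀ (j : 𝓔 × Sl) b, ((F.ps l).s a).Inf j b → ∀ v ∈ Γ.V j.1, v ∈ D j.1 := by
    intro j b hj
    obtain ⟨i, rfl, hk⟩ := ((F.p a).lev_inf _ l j b).1 hj
    cases b
    · exact hε _ (.inl (congrArg (F.p a).pe ((hg.inn i).1 hk)))
    · have e : (F.g a).pout = some i := ((hg.out i).1 hk).resolve_right (by simp [p3])
      exact hε _ (.inr (congrArg (F.p a).pe e))
  have wl : ∀ (c : {c // (F.g a).wl c ≠ none}) v, v ∈ Γ.V (x a c).2.2.ε →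
      ((F.pw l x).pc _ (.top _) (F.bl l a c ((F.p a).bcv l vi vo none) (some ⟨_, v⟩))).z0 q =
        F.ZL l q a c vi vo (some ⟨_, v⟩) ∧
      ((F.pw l x).pc _ (.top _) (F.br l a c ((F.p a).bcv l vi vo none) (some ⟨_, v⟩))).z0 q =
        F.ZR l q a c vo (some ⟨_, v⟩) := fun c v hv => by
    have k := fit_x hi (hx a c) hβ hv
    refine ⟨(z0_B H hty hi hx k.1).trans ?_, (z0_B H hty hi hx k.2).trans ?_⟩
    · rw [e1, e2, ZL]
    · rw [e2, ZR]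
  have fc : ∀ (c : Fin (F.g a).k) (s : Bool), ((F.pw l x).pc a ((Fa.top _).fc (c.1, s))
      ((F.p a).bcv l vi vo none)).z0 q =
      F.cz l q a {t ∈ (F.g a).dom | t c = bif s then 1 else 0} vi vo none := fun c s => by
    rw [Wld.Cl.z0, if_pos (by rw [Pw.n_fc L P (vb_iff.2 hβ) rfl, n]; rfl), Pw.z_pc rfl, dom_eq]
    exact congrArg (fun D => F.cz l q a D vi vo none) (Set.ext fun t => and_congr_right' Fa.pl_fc)
  have := Pw.stk_pc P (hp a vi vo (dm _ hf.hi fun ε e => hε ε (.inl (hf.ei ▸ e)))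
    (dm _ hf.ho fun ε e => hε ε (.inr (hf.eo ▸ e))) ⟨n.le, .inl ⟨a, _, _, rfl, hβ, by
      rw [e1]; nlinarith⟩⟩ n) (fun c => Dw c _) (fun j _ => D j.1)
    (fun c _ v hv => hD _ v (h3 _ _ hv)) (fun c _ v hv hn => ?_) (fun j _ _ => hD _)
    (fun j hj v hv hn => (hn (fl j _ hj v hv)).elim) fun j hj v hv hn => (hn (fl j _ hj v hv)).elim
  swap
  · obtain ⟨i, hc⟩ := Option.ne_none_iff_exists'.1 c.2
    have e : ∀ ε, ε = ((F.p a).ι i).1 → ∀ v ∈ Γ.V ε, v ∉ Dw c ε →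
        F.ZL l q a c vi vo (some ⟨ε, v⟩) = 0 := by
      rintro _ rfl
      exact h4 c i hc
    exact mul_eq_zero_of_left ((wl c v hv).1.trans
      (e _ (congrArg Prod.fst ((hx a c).nk i hc)) v hv hn)) _
  convert this using 1
  refine congrArg₂ (· + ·) (congrArg₂ (· + ·) ?_ ?_) ?_
  · rw [Finset.filter_true_of_mem fun _ _ => rfl]
    refine Finset.sum_congr rfl fun c _ => congrArg₂ (· + ·) (fc c false).symm ?_
    rcases e : (F.g a).wl c with _ | i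
    · rw [Option.elim_none]
      rw [dif_neg (show ¬(F.pw l x).iw a c from not_not.2 e)]
      exact (fc c true).symm
    · have hc : (F.g a).wl c ≠ none := by simp [e]
      rw [Option.elim_some]
      rw [dif_pos (show (F.pw l x).iw a c from hc)]
      refine (congrArg (fun ε => ∑ v ∈ Dw c ε, F.ZL l q a c vi vo (some ⟨ε, v⟩) *
        F.ZR l q a c vo (some ⟨ε, v⟩)) (congrArg Prod.fst ((hx a ⟨c, hc⟩).nk i e))).symm.trans ?_
      exact Finset.sum_congr rfl fun v hv => (congrArg₂ (· * ·) (wl ⟨c, hc⟩ v (hD _ v (h3 _ _ hv)).1).1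
        (wl ⟨c, hc⟩ v (hD _ v (h3 _ _ hv)).1).2).symm
  · refine Eq.trans ?_ (Plc.sum_inf (o := (F.g a).pout) (fun i => by simp [hg.out, p3]) _).symm
    rcases e : (F.g a).pout with _ | i
    · rw [Option.elim_none, Option.elim_none]
    rw [Option.elim_some, Option.elim_some]
    refine Finset.sum_congr rfl fun v hv => congrArg₂ (· * ·) ?_ (congrArg _ (Plc.bcv_out _ l e).symm)
    rw [z0_T H hty hi hx (inV_up hβ (hD _ v hv).1), Plc.pw_up' e, Plc.pw_up (yt := Prod.snd)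
      fun _ _ => .inr (by simp), e1, p3]
    rfl
  · refine Eq.trans ?_ (Plc.sum_inf hg.inn _).symm
    rcases e : (F.g a).pin with _ | i
    · rw [Option.elim_none, Option.elim_none]
    rw [Option.elim_some, Option.elim_some]
    refine Finset.sum_congr rfl fun v hv => congrArg₂ (· * ·)
      (congrArg ((F.pw l x).dz q _ · v) (Plc.bcv_in ..).symm) ?_
    rw [z0_T H hty hi hx (inV_up hβ (hD _ v hv).1), Plc.pw_up' e, Plc.pw_up (yt := Prod.snd)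
      fun _ _ => .inr (by simp), e2, p3]
    rfl

end Fst

/-- the conclusion for a forest -/
def Fst.Res (F : Fst.{u} ty Sl W mk G) (r B : ℚ) (l : Lv 𝓔) (Γ : l.Cx ty) : Prop :=
  (∀ ε, ∀ v ∈ Γ.V ε, -B ≤ G.d l ε v) → (∀ ε, ∃ C, (l.e ty ε).Nb C) →
  ∀ D : ∀ ε, Finset (l.e ty ε).YC, (∀ ε, ∀ v ∈ D ε, v ∈ Γ.V ε) → ∀ O, St.IsOp O → O 0 →
    ∃ q, O q ∧ ∃ dz, F.Out Γ q r D dz

variable [Nonempty W] (H : Lanes mk G) (hty : ∀ ε, (ty ε).1.OK mk) (hi : Injective ty) (r : ℚ)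
  {B : ℚ} (hB : 0 ≤ B)
include H hty hi hB

theorem Fst.res0 (F : Fst.{0} ty Sl W mk G) : Ev ty (F.Res r B) := by
  classical
  obtain ⟨M, hM⟩ := ((finite_range fun a => G.dg (F.g a) + B).insert 0).bddAbove
  have hM0 : 0 ≤ M := hM (mem_insert _ _)
  refine ((Ev.all fun a => ev_anA H hty a (r + (2 - (F.g a).k) * M)).and
    (ev_anC (F := F) H hty (r + 3 * M))).mono ?_
  rintro l Γ ⟨hA, hC⟩ lb hN D hD O o1 o2
  obtain ⟨⟨C, η₀⟩, ⟨h1, h2⟩, h3⟩ := (((eventually_all.2 hA).and (hC hN)).and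
    (eventually_mem_nhdsWithin.prod_inr _)).exists
  choose x hx using fun a (c : {c // (F.g a).wl c ≠ none}) => F.exW l a c H.wl hi c.2
  obtain ⟨O', a1, a2, a3⟩ := gd_an H hty hi hx h1 h2
  obtain ⟨r₀, hr⟩ := ((Finset.univ.sigma D).finite_toSet.image fun y => |En3.hol y.2|).bddAbove
  let S : Set (l.PV ty) := {v | ∀ y ∈ v, y.2 ∈ D y.1}
  have hS : S.Finite := (((Finset.univ.sigma D).finite_toSet.image some).insert none).subset (by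
    rintro (_ | y) h
    exacts [.inl rfl, .inr ⟨y, by simpa using h y rfl, rfl⟩])
  obtain ⟨𝒦, A, b1, -, b2, b3, -, -, b4⟩ := (H.lvs (F.dt l) Sl).wld (F.pw l x).wld (Γ.ctx Prod.snd)
    (Gd x Γ r M) _ C η₀ r₀ O' h3 a1 a2 (fun σ h => ⟨gd_ok H hty hi hx h, gd_chl H hty hi hx hB lb hM0
      (fun a => hM (mem_insert_of_mem _ ⟨a, rfl⟩)) h, a3 σ h⟩)
    (((fun y : F.Y × l.PV ty × l.PV ty => (F.pw l x).pc y.1 (.top _)
        ((F.p y.1).bcv l y.2.1 y.2.2 none)) '' univ ×ˢ S ×ˢ S ∪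
      (fun y : Σ ε, (l.e ty ε).YC × (l.e ty ε).YC => (F.pw l x).cy y.1 y.2.1 y.2.2) ''
        (Finset.univ.sigma fun ε => D ε ×ˢ D ε)) ∩ {σ | Gd x Γ r M σ})
    ((((finite_univ.prod (hS.prod hS)).image _).union ((Finset.finite_toSet _).image _)).inter_of_left
      _) fun _ h => h.2
  obtain ⟨q, c1, c2⟩ := b3.gg.ex O o1 0 b2 o2
  exact ⟨q, c1, _, out_of H hty hi hx hM0 (fun ε v hv => ⟨hD ε v hv, hr ⟨⟨ε, v⟩, by simpa, rfl⟩⟩)
    (fun ε u hu v hv h => b4 q c2 _ (b1 ⟨.inr ⟨⟨ε, u, v⟩, by simp [hu, hv], rfl⟩, h⟩))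
    fun a vi vo k1 k2 h => b4 q c2 _ (b1 ⟨.inl ⟨⟨a, vi, vo⟩, ⟨trivial, k1, k2⟩, rfl⟩, h⟩)⟩

omit H hty hi hB in
/-- a small copy -/
def Fst.shr (F : Fst.{u} ty Sl W mk G) {Y : Type} (e : Y ≃ F.Y) : Fst.{0} ty Sl W mk G :=
  haveI := Finite.of_equiv _ e.symm
  { Y := Y, g a := F.g (e a), τ a := F.τ (e a), p a := F.p (e a), s₀ := F.s₀
    L a c := e.symm (F.L (e a) c), R a c := e.symm (F.R (e a) c), cap a := F.cap (e a)
    gd a := F.gd _, ir a := F.ir _, fq a := F.fq _, ok a := F.ok _, rich a := F.rich _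
    wl a c i hi := by
      rw [e.apply_symm_apply, e.apply_symm_apply]
      exact F.wl _ c i hi }

/-- **the counts of a forest** -/
theorem Fst.res (F : Fst.{u} ty Sl W mk G) : Ev ty (F.Res r B) := by
  obtain ⟨n, ⟨e⟩⟩ := Finite.exists_equiv_fin F.Y
  refine ((F.shr e.symm).res0 H hty hi r hB).mono fun l Γ h lb hN D hD O o1 o2 => ?_
  obtain ⟨q, h1, dz, h2⟩ := h lb hN D hD O o1 o2
  refine ⟨q, h1, dz, h2.hom, h2.dd, fun a => ?_⟩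
  obtain ⟨a, rfl⟩ := e.symm.surjective a
  have e1 : ∀ c vi vo v, (F.shr e.symm).ZL l q a c vi vo v = F.ZL l q (e.symm a) c vi vo v :=
    fun c vi vo v => congrArg (F.Z l q · _ _ _) (e.symm.apply_symm_apply _)
  have e2 : ∀ c vo v, (F.shr e.symm).ZR l q a c vo v = F.ZR l q (e.symm a) c vo v :=
    fun c vo v => congrArg (F.Z l q · _ _ _) (e.symm.apply_symm_apply _)
  have := h2.stk a
  simp only [e1, e2] at this
  exact this

end Crest.Agent.X212.Flo2
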