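import Crest.Agent.X212.Flo2.Lev

/-!
# Row 212, layer AN-S (helper2): the families at a level; the list of the lanes
-/

set_option autoImplicit false
set_option linter.unusedSectionVars false
noncomputable section
open scoped Manifold ContDiff Topology InnerProductSpace
open MeasureTheory Set Function Filter

namespace Crest.Agent.X212.Flo2
open An Cyf70 Sw

variable {κ lam ν : Type} [Fintype κ] [Fintype lam] [Fintype ν] [DecidableEq ν] (mk : Mk κ lam ν)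

/-- LEV-OK: the families at a level -/
structure LokStmt : Prop where
  fam : LevStmt κ lam ν
  yt : ∀ e : En3 κ lam ν, e.OK → ∀ T : e.YT, ∃ r, T.Sz 6 r
  sz : ∀ g : Gc κ lam ν, g.OK → ∀ (𝓔 : Type) [Fintype 𝓔] (ty : 𝓔 → Ty κ lam ν) (Sl : Type)
    [Fintype Sl] (p : Plc ty Sl g) (l : Lv 𝓔) (W : Type) (yt : l.YT ty W) (τ : Tm g W),
    (∀ ε, (l.e ty ε).OK) → τ.OK → ∀ w, ∃ r, 0 ≤ r ∧ ∀ t, ((p.fam l yt τ).P t).Sz 6 w r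
  rich : ∀ g : Gc κ lam ν, ∀ (𝓔 : Type) [Fintype 𝓔] (ty : 𝓔 → Ty κ lam ν) (Sl : Type)
    [Fintype Sl] (p : Plc ty Sl g) (l : Lv 𝓔) (W : Type) (τ : Tm g W), τ.Rich → ∀ t ∈ g.dom,
    ((p.fam l (W := W × ∀ ε, Option (l.e ty ε).YT) Prod.snd (τ.map Prod.fst)).P t).Rich
  hol : ∀ g : Gc κ lam ν, g.Gd mk → ∀ (𝓔 : Type) [Fintype 𝓔] (ty : 𝓔 → Ty κ lam ν) (Sl : Type)
    [Fintype Sl] (p : Plc ty Sl g) (l : Lv 𝓔) (W : Type) (yt : l.YT ty W) (τ : Tm g W),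
    (∀ ε, (l.e ty ε).OK) → 0 < l.w → τ.OK → ∀ c, ∀ i ∈ g.wl c, ∀ β,
      (∃ B, (p.cel l yt τ β).HolB (p.ι i) B) ∧ (p.cel l yt τ β).FoN (p.ι i) ∧
        (p.cel l yt τ β).Nul (p.ι i)
  sup : ∀ g : Gc κ lam ν, g.OK → ∀ (𝓔 : Type) [Fintype 𝓔] (ty : 𝓔 → Ty κ lam ν) (Sl : Type)
    [Fintype Sl] (p : Plc ty Sl g) (l : Lv 𝓔), (∀ ε, (l.e ty ε).OK) → 0 < l.w → ∃ C : ℝ,
    ∀ (W : Type) (yt : l.YT ty W) (τ : Tm g W), τ.OK → ∀ q,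
      (∀ t, ((p.fam l yt τ).P t).Small 6 1 q) → ∀ β, ∀ y ∈ p.M l yt τ β q, ∀ x, ‖y.1.2.Φ x‖ ≤ C

/-- all lanes -/
structure Lanes (G : Gr κ lam ν) : Prop where
  lvs : ∀ (d : Dt κ lam ν) [Fintype d.𝓔] (Sl : Type) [Fintype Sl], Lvs d Sl
  dens : ∀ (d : Dt κ lam ν) [Fintype d.𝓔] (Sl : Type) [Fintype Sl] X nc (I : Type) [Fintype I],
    DensStmt d (Prod.fst : d.𝓔 × Sl → _) X nc (I → ℝ)
  densZ : ∀ (d : Dt κ lam ν) [Fintype d.𝓔] (Sl : Type) [Fintype Sl], DensZStmt d Sl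
  lok : LokStmt mk
  ext : ExtStmt mk
  fc : FcStmt κ lam ν
  wl : WlStmt κ lam ν
  ex : ExStmt mk
  tow : TowStmt G mk
  ind : IndStmt G mk
  freq : FreqStmt G mk
  bnd : BndStmt G mk
  rad : RadStmt G mk
  irr : IrrStmt mk
  lw : LwStmt G mk

end Crest.Agent.X212.Flo2
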