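import Crest.Agent.X212.Flo2.Lev
import Crest.Agent.X212.Pb50.Cyl

/-!
# Row 212, layer AN-S (helper2): placements, lifts, counts, existence of levels
-/

set_option autoImplicit false
set_option linter.unusedSectionVars false
noncomputable section
open scoped Manifold ContDiff Topology InnerProductSpace
open MeasureTheory Set Function Filter

namespace Crest.Agent.X212.Flo2
open An Cyf70 Sw
open M (Mf)

variable {κ lam ν : Type} [Fintype κ] [Fintype lam] [Fintype ν] [DecidableEq ν]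

/-! ### the action on cross-sections -/

section act
variable {e : En3 κ lam ν} {u u' : e.Y.M → ℂ}

theorem act_one (v : e.YC) : v.act (fun _ => 1) = v :=
  congrArg (En3.sl · 0) (Pb50.act_one (b := e.cyl) (En3.fz v))

theorem fz_act (hu : Gau e.Y.I u) (v : e.YC) :
    En3.fz (v.act u) = e.cyl.act (fun x => u x.1) (En3.fz v) := by
  refine Cfg.ext (funext fun i => funext fun x => ?_) rfl
  cases i with
  | none =>
    show 0 = 0 - (star (u x.1) * (cylP e.D.F.toPre).D none (fun x => u x.1) x).im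
    rw [D_none_fst _ hu.1]
    simp
  | some k =>
    show v.a k x.1 - (star (u x.1) * (cylP e.D.F.toPre).D (some k) (fun x => u x.1) (x.1, 0)).im =
      v.a k x.1 - (star (u x.1) * (cylP e.D.F.toPre).D (some k) (fun x => u x.1) x).im
    rw [D_some_fst _ hu.1]

theorem act_act (he : e.OK) (hu : Gau e.Y.I u) (hu' : Gau e.Y.I u') (v : e.YC) :
    (v.act u).act u' = v.act fun y => u' y * u y := by
  unfold En3.YC.act
  rw [← Pb50.act_act he.cyl (Pb50.gau_fst hu) (Pb50.gau_fst hu')]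
  exact congrArg (fun c => En3.sl (e.cyl.act _ c) 0) (fz_act hu v)

theorem gau_zpow (hu : Gau e.Y.I u) (n : ℤ) : Gau e.Y.I fun y => u y ^ n := by
  refine ⟨fun y => ?_, fun y => by rw [norm_zpow, hu.2, one_zpow]⟩
  have h : u y ≠ 0 := fun h => by simpa [h] using hu.2 y
  have k : AnalyticAt ℂ (fun z : ℂ => z ^ n) (u y) := analyticAt_id.zpow h
  exact ((k.contDiffAt (n := ∞)).restrict_scalars ℝ).contMDiffAt.comp y (hu.1 y)

theorem act_zpow (he : e.OK) (hu : Gau e.Y.I u) (m n : ℤ) (v : e.YC) :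
    (v.act fun y => u y ^ m).act (fun y => u y ^ n) = v.act fun y => u y ^ (m + n) := by
  rw [act_act he (gau_zpow hu m) (gau_zpow hu n)]
  refine congrArg v.act (funext fun y => ?_)
  rw [add_comm, zpow_add₀ fun h => by simpa [h] using hu.2 y]

theorem eqv_act (hu : Gau e.Y.I u) (v : e.YC) : En3.Eqv v (v.act u) := ⟨u, hu, fz_act hu v⟩

end act

/-! ### placements -/

variable {𝓔 : Type} [Fintype 𝓔] {ty : 𝓔 → Ty κ lam ν} {Sl : Type} [Fintype Sl]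

section rt
variable {X : Mf 4} {nc : ℕ} {b : Bg X.I X.M κ lam ν nc} {ε ε' : Ty κ lam ν} (h : ε = ε')
  (K : Nk ε.en b)

theorem rt_p : (rt h K).p = K.p := by subst h; rfl

theorem rt_q : (rt h K).q = K.q := by subst h; rfl

theorem rt_inf (s : Bool) : (rt h K).Inf s ↔ K.Inf s := by subst h; rfl

end rt

namespace Plc
variable {g : Gc κ lam ν} (p : Plc ty Sl g) {nc : ℕ} (P : Pz g.X nc fun i => (g.ty i).en)

theorem rix_nk (i : g.N) : (p.rix P).nk (p.ι i) = (P.nk i).map (rt (p.ty i).symm) := by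
  have h : ∃ j, p.ι j = p.ι i := ⟨i, rfl⟩
  have : ∀ j (e : p.ι j = p.ι i), (P.nk j).map (rt ((p.ty _).symm.trans
      (congrArg (fun j : 𝓔 × Sl => ty j.1) e))) = (P.nk i).map (rt (p.ty i).symm) := fun j e => by
    obtain rfl := p.inj e
    rfl
  exact (dif_pos h).trans (this _ h.choose_spec)

theorem rix_none {j : 𝓔 × Sl} (h : ∀ i, p.ι i ≠ j) : (p.rix P).nk j = none :=
  dif_neg fun ⟨i, e⟩ => h i e

variable (l : Lv 𝓔)

theorem lev_nk (i : g.N) : (p.lev l P).nk (p.ι i) =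
    (P.nk i).map fun K => (rt (p.ty i).symm K).re _ _ _ _ := by
  exact (congrArg (Option.map _) (p.rix_nk P i)).trans (Option.map_map ..)

theorem lev_none {j : 𝓔 × Sl} (h : ∀ i, p.ι i ≠ j) : (p.lev l P).nk j = none := by
  show ((p.rix P).nk j).map _ = _
  rw [p.rix_none P h]
  rfl

theorem lev_inf (j : 𝓔 × Sl) (s : Bool) : (p.lev l P).Inf j s ↔ ∃ i, p.ι i = j ∧ P.Inf i s := by
  by_cases h : ∃ i, p.ι i = j
  · obtain ⟨i, rfl⟩ := h
    simp only [p.inj.eq_iff, exists_eq_left, Pz.Inf, lev_nk]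
    cases P.nk i with
    | none => exact ⟨fun ⟨_, h, _⟩ => (nomatch h), fun ⟨_, h, _⟩ => (nomatch h)⟩
    | some K =>
      exact ⟨fun ⟨_, h2, h3⟩ => ⟨K, rfl, (rt_inf _ K s).1 (by cases h2; exact h3)⟩,
        fun ⟨_, h1, h2⟩ => ⟨_, rfl, (rt_inf (p.ty i).symm K s).2 (by cases h1; exact h2)⟩⟩
  · refine ⟨fun ⟨K, h1, _⟩ => ?_, fun ⟨i, h1, _⟩ => (h ⟨i, h1⟩).elim⟩
    rw [p.lev_none P l fun i e => h ⟨i, e⟩] at h1
    cases h1

theorem lev_len (i : g.N) : (p.lev l P).len (p.ι i) = P.len i := by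
  rw [Pz.len, Pz.len, lev_nk]
  cases P.nk i with
  | none => rfl
  | some K => exact congrArg₂ (·.getD 0 - ·.getD 0) (rt_q _ K) (rt_p _ K)

end Plc

/-! ### counts -/

section cnt
variable {d : Dt κ lam ν} [Fintype d.𝓔] {X X' : Mf 4} {nc nc' : ℕ} {T T' : Type}

/-- the number of classes of solutions over `D` -/
def cnt (P : T → PcS d Sl X nc) (D : Set T) (β : Sw.BC d Sl) (q : d.W →₀ ℝ) : ℕ :=
  Nat.card (Quot fun y y' : {y : T × Cfg X.M κ ν // y.1 ∈ D ∧ (P y.1).Sol β q y.2} =>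
    y.1.1 = y'.1.1 ∧ (P y.1.1).Eqv y.1.2 y'.1.2)

theorem cnt_eq {P : T → PcS d Sl X nc} {P' : T' → PcS d Sl X' nc'} {D : Set T} {D' : Set T'}
    {β β' : Sw.BC d Sl} (f : T → T') (hf : BijOn f D D')
    (h : ∀ t ∈ D, SameS (P' (f t)) (P t) β' β) (q : d.W →₀ ℝ) : cnt P D β q = cnt P' D' β' q := by
  choose e h1 h2 using h
  let F : {y : T × Cfg X.M κ ν // y.1 ∈ D ∧ (P y.1).Sol β q y.2} →
      {y : T' × Cfg X'.M κ ν // y.1 ∈ D' ∧ (P' y.1).Sol β' q y.2} := fun y =>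
    ⟨(f y.1.1, ((e _ y.2.1).symm ⟨y.1.2, y.2.2.1.1⟩).1), hf.1 y.2.1,
      (h1 _ y.2.1 q _).2 (by simpa using y.2.2)⟩
  have hF : Bijective F := by
    refine ⟨?_, ?_⟩
    · rintro ⟨⟨t, c⟩, h⟩ ⟨⟨t', c'⟩, h'⟩ k
      obtain rfl : t = t' := hf.2.1 h.1 h'.1 (congrArg (·.1.1) k)
      have := (e _ h.1).symm.injective (Subtype.ext (congrArg (·.1.2) k))
      exact Subtype.ext (Prod.ext rfl (congrArg (·.1) this))
    · rintro ⟨⟨_, c⟩, h⟩
      obtain ⟨t, ht, rfl⟩ := hf.2.2 h.1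
      exact ⟨⟨(t, (e _ ht ⟨c, h.2.1.1⟩).1), ht, (h1 _ _ q ⟨c, _⟩).1 h.2⟩,
        Subtype.ext (Prod.ext rfl (congrArg (·.1) ((e _ ht).symm_apply_apply _)))⟩
  refine Nat.card_congr (Quot.congr (Equiv.ofBijective F hF) ?_)
  rintro ⟨⟨t, c⟩, h⟩ ⟨⟨t', c'⟩, h'⟩
  refine ⟨?_, fun k => ?_⟩
  · rintro ⟨rfl : t = t', k⟩
    exact ⟨rfl, (h2 _ h.1 _ _).2 (by simpa using k)⟩
  · obtain rfl : t = t' := hf.2.1 h.1 h'.1 k.1
    exact ⟨rfl, by simpa using (h2 _ h.1 _ _).1 k.2⟩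

theorem SameS.of_inf {P : PcS d Sl X nc} {β β' : Sw.BC d Sl}
    (h : ∀ j b, P.Inf j b → β j b = β' j b) : SameS P P β β' := by
  have k : ∀ c, P.As β c ↔ P.As β' c := fun c => and_congr_right fun _ =>
    forall₅_congr fun j b K hK hb => by rw [h j b ⟨K, hK, hb⟩]
  refine ⟨Equiv.subtypeEquivRight k, fun q c => ?_, fun c c' => ?_⟩
  · rw [Equiv.subtypeEquivRight_apply_coe, Pc.Sol, Pc.Sol, Pz.In, Pz.In, k]
  · rw [Equiv.subtypeEquivRight_apply_coe, Equiv.subtypeEquivRight_apply_coe]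

/-- the count of a cell without rows -/
theorem cel_cnt [NormedAddCommGroup T] [NormedSpace ℝ T] [FiniteDimensional ℝ T] {s : StS d Sl X}
    (σ : Cel s nc 0 T) (hQ : σ.Q = univ) (D : Set T) (q : d.W →₀ ℝ) :
    Nat.card (Quot fun y y' : {y : σ.Pnt // σ.Sol q y ∧ y.1.1 ∈ D} => σ.Eqv y.1 y'.1) =
      cnt σ.P D σ.β q :=
  Nat.card_congr (Quot.congr ⟨fun y => ⟨y.1.1, y.2.2, y.2.1.1⟩,
    fun y => ⟨⟨y.1, hQ ▸ mem_univ _, y.2.2.1.1⟩, ⟨y.2.2, Subsingleton.elim _ _⟩, y.2.1⟩,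
    fun _ => rfl, fun _ => rfl⟩ fun _ _ => Iff.rfl)

end cnt

namespace Plc
variable {g : Gc κ lam ν} (p : Plc ty Sl g) (l : Lv 𝓔) {W : Type} (yt : l.YT ty W) (τ : Tm g W)
  (β : BC (ty := ty) (Sl := Sl) l) (q : W →₀ ℝ)

theorem zc_eq : p.zc l yt τ β q = cnt (d := l.dt ty yt) (p.fam l yt τ).P g.dom β q :=
  cel_cnt (d := l.dt ty yt) (p.cel l yt τ β) rfl g.dom q

variable {p l yt τ β q}

theorem One.zc (h : p.One l yt τ β q) : p.zc l yt τ β q = 1 := by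
  obtain ⟨y, hy, h⟩ := h
  refine Nat.card_eq_one_iff_exists.2 ⟨Quot.mk _ ⟨y, hy⟩, fun z => ?_⟩
  obtain ⟨z, rfl⟩ := Quot.mk_surjective z
  exact Eq.symm (Quot.sound (h _ z.2))

theorem ne_of_zc (h : p.zc l yt τ β q ≠ 0) : (p.M l yt τ β q).Nonempty := by
  obtain ⟨z⟩ := (Nat.card_ne_zero.1 h).1
  obtain ⟨z, rfl⟩ := Quot.mk_surjective z
  exact ⟨_, z.2⟩

end Plc

/-! ### levels -/

variable (ty) in
/-- the indices of the terms at a level -/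
abbrev Lv.W (l : Lv 𝓔) (W : Type) : Type := W × ∀ ε, Option (l.e ty ε).YT

variable (ty) in
/-- for `μ` large, `w` small, and all perturbations in an open set -/
def EvO (W : Type) (Φ : ∀ l : Lv 𝓔, l.Cx ty → (l.W ty W →₀ ℝ) → Prop) : Prop :=
  Ev ty fun l Γ => ∃ O, St.IsOp O ∧ O 0 ∧ ∀ q, O q → Φ l Γ q

theorem Ev.mono {p p' : ∀ l : Lv 𝓔, l.Cx ty → Prop} (h : Ev ty p) (k : ∀ l Γ, p l Γ → p' l Γ) :
    Ev ty p' := h.imp fun _ h μ hμ => (h μ hμ).imp fun _ h =>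
  ⟨h.1, fun l h1 h2 Γ => k _ _ (h.2 l h1 h2 Γ)⟩

theorem Ev.of_forall {p : ∀ l : Lv 𝓔, l.Cx ty → Prop} (h : ∀ l Γ, p l Γ) : Ev ty p :=
  ⟨0, fun _ _ => ⟨1, one_pos, fun l _ _ Γ => h l Γ⟩⟩

theorem Ev.and {p p' : ∀ l : Lv 𝓔, l.Cx ty → Prop} (h : Ev ty p) (h' : Ev ty p') :
    Ev ty fun l Γ => p l Γ ∧ p' l Γ := by
  obtain ⟨a, h⟩ := h
  obtain ⟨a', h'⟩ := h'
  refine ⟨max a a', fun μ hμ => ?_⟩
  obtain ⟨w, h0, h⟩ := h μ (le_of_max_le_left hμ)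
  obtain ⟨w', h0', h'⟩ := h' μ (le_of_max_le_right hμ)
  exact ⟨min w w', lt_min h0 h0', fun l h1 h2 Γ => ⟨h l h1 (h2.trans (min_le_left _ _)) Γ,
    h' l h1 (h2.trans (min_le_right _ _)) Γ⟩⟩

theorem Ev.fin {I : Type*} {s : Set I} (hs : s.Finite) {p : I → ∀ l : Lv 𝓔, l.Cx ty → Prop}
    (h : ∀ i ∈ s, Ev ty (p i)) : Ev ty fun l Γ => ∀ i ∈ s, p i l Γ := by
  induction s, hs using Set.Finite.induction_on with
  | empty => exact .of_forall (by simp)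
  | insert _ _ ih =>
    exact ((h _ (mem_insert _ _)).and (ih fun i hi => h i (mem_insert_of_mem _ hi))).mono
      fun l Γ k => forall_mem_insert.2 k

theorem Ev.all {I : Type*} [Finite I] {p : I → ∀ l : Lv 𝓔, l.Cx ty → Prop}
    (h : ∀ i, Ev ty (p i)) : Ev ty fun l Γ => ∀ i, p i l Γ :=
  (Ev.fin finite_univ fun i _ => h i).mono fun _ _ k i => k i trivial

/-- one type of a level -/
abbrev Lv.at (l : Lv 𝓔) (ε : 𝓔) : Lv Unit := ⟨l.μ, l.w, fun _ => l.S ε, fun _ => l.ψ ε⟩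

/-- the generators of one type -/
abbrev Lv.Cx.at {l : Lv 𝓔} (Γ : l.Cx ty) (ε : 𝓔) : (l.at ε).Cx fun _ => ty ε :=
  ⟨fun _ => Γ.g ε, fun _ => Γ.ok ε, fun _ => Γ.rs ε, fun _ => Γ.inj ε, Γ.w0, fun _ => Γ.hb ε⟩

theorem Ev.at (ε : 𝓔) {p : ∀ l : Lv Unit, l.Cx (fun _ => ty ε) → Prop} (h : Ev (fun _ => ty ε) p) :
    Ev ty fun l Γ => p (l.at ε) (Γ.at ε) :=
  h.imp fun _ h μ hμ => (h μ hμ).imp fun _ h => ⟨h.1, fun l h1 h2 _ => h.2 (l.at ε) h1 h2 _⟩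

theorem Ev.exists {mk : Mk κ lam ν} (hx : ExStmt mk) (hty : ∀ ε, (ty ε).1.OK mk)
    {p : ∀ l : Lv 𝓔, l.Cx ty → Prop} (h : Ev ty p) : ∃ l Γ, p l Γ := by
  choose B hB hx using fun ε => hx (ty ε) (hty ε)
  obtain ⟨a, h⟩ := h
  obtain ⟨μ, h1, h2⟩ : ∃ μ ∈ Ioi (max a 0), μ ∉ ⋃ ε, B ε := by
    by_contra! k
    refine Cardinal.not_countable_real (Set.Countable.mono (fun y _ => ?_)
      (((countable_iUnion hB).mono k).image fun x => Real.log (x - max a 0)))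
    exact ⟨max a 0 + Real.exp y, mem_Ioi.2 (lt_add_of_pos_right _ (Real.exp_pos y)), by simp⟩
  obtain ⟨w, h0, h⟩ := h μ (le_of_max_le_left (le_of_lt h1))
  choose v hv hx using fun ε => hx ε μ (lt_of_le_of_lt (le_max_right _ _) h1)
    fun k => h2 (mem_iUnion.2 ⟨ε, k⟩)
  obtain ⟨w', h3, h4, h5⟩ : ∃ w' > 0, w' ≤ w ∧ ∀ ε, w' ≤ v ε := by
    have : ∀ᶠ x in 𝓝[>] (0 : ℝ), 0 < x ∧ x ≤ w ∧ ∀ ε, x ≤ v ε :=
      eventually_mem_nhdsWithin.and (((eventually_le_nhds h0).and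
        (eventually_all.2 fun ε => eventually_le_nhds (hv ε))).filter_mono nhdsWithin_le_nhds)
    exact this.exists
  have : ∀ ε, ∃ S ψ, Nonempty (Lv.Cx (fun _ : Unit => ty ε) ⟨μ, w', fun _ => S, fun _ => ψ⟩) :=
    fun ε => by
      obtain ⟨⟨_, _, S, ψ⟩, rfl, rfl, k⟩ := hx ε w' ⟨h3, h5 ε⟩
      exact ⟨S (), ψ (), k⟩
  choose S ψ Γ using this
  exact ⟨⟨μ, w', S, ψ⟩, ⟨fun ε => (Γ ε).some.g (), fun ε => (Γ ε).some.ok (),
    fun ε => (Γ ε).some.rs (), fun ε => (Γ ε).some.inj (), h3,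
    fun ε => (Γ ε).some.hb ()⟩, h _ rfl h4 _⟩

section evo
variable {W : Type} {Φ Φ' : ∀ l : Lv 𝓔, l.Cx ty → (l.W ty W →₀ ℝ) → Prop}

theorem EvO.mono (h : EvO ty W Φ) (k : ∀ l Γ q, Φ l Γ q → Φ' l Γ q) : EvO ty W Φ' :=
  Ev.mono h fun _ _ h => h.imp fun _ h => ⟨h.1, h.2.1, fun q hq => k _ _ _ (h.2.2 q hq)⟩

theorem Ev.evO {p : ∀ l : Lv 𝓔, l.Cx ty → Prop} (h : Ev ty p) : EvO ty W fun l Γ _ => p l Γ :=
  h.mono fun _ _ h => ⟨_, St.isOp_true, trivial, fun _ _ => h⟩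

theorem EvO.and (h : EvO ty W Φ) (h' : EvO ty W Φ') : EvO ty W fun l Γ q => Φ l Γ q ∧ Φ' l Γ q :=
  (Ev.and h h').mono fun _ _ ⟨⟨_, h⟩, _, h'⟩ => ⟨_, h.1.and h'.1, ⟨h.2.1, h'.2.1⟩,
    fun q hq => ⟨h.2.2 q hq.1, h'.2.2 q hq.2⟩⟩

theorem EvO.fin {I : Type*} {s : Set I} (hs : s.Finite)
    {Φ : I → ∀ l : Lv 𝓔, l.Cx ty → (l.W ty W →₀ ℝ) → Prop} (h : ∀ i ∈ s, EvO ty W (Φ i)) :
    EvO ty W fun l Γ q => ∀ i ∈ s, Φ i l Γ q := by
  induction s, hs using Set.Finite.induction_on with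
  | empty => exact (Ev.of_forall (p := fun _ _ => True) fun _ _ => trivial).evO.mono (by simp)
  | insert _ _ ih =>
    exact ((h _ (mem_insert _ _)).and (ih fun i hi => h i (mem_insert_of_mem _ hi))).mono
      fun l Γ q k => forall_mem_insert.2 k

theorem EvO.all {I : Type*} [Finite I] {Φ : I → ∀ l : Lv 𝓔, l.Cx ty → (l.W ty W →₀ ℝ) → Prop}
    (h : ∀ i, EvO ty W (Φ i)) : EvO ty W fun l Γ q => ∀ i, Φ i l Γ q :=
  (EvO.fin finite_univ fun i _ => h i).mono fun _ _ _ k i => k i trivial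

end evo

theorem isOp_wt {W : Type} (s : W → ℝ) (η : ℝ) :
    St.IsOp fun q : W →₀ ℝ => (q.sum fun w r => |r| * s w) < η := by
  classical
  rintro q₀ h0 ι l q ⟨J, hJ, hl⟩
  have e : ∀ q' : W →₀ ℝ, (∀ w ∉ J, q' w = q₀ w) →
      (q'.sum fun w r => |r| * s w) = ∑ w ∈ J ∪ q₀.support, |q' w| * s w := fun q' h =>
    Finsupp.sum_of_support_subset _ (fun w hw => by
      by_contra k
      simp only [Finset.mem_union, not_or, Finsupp.notMem_support_iff] at k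
      exact Finsupp.mem_support_iff.1 hw ((h w k.1).trans k.2)) _ (by simp)
  rw [e q₀ fun _ _ => rfl] at h0
  simp only [fun i => e (q i) (hJ i)]
  exact (tendsto_finsetSum _ fun w _ => (hl w).abs.mul_const _).eventually_lt_const h0

end Crest.Agent.X212.Flo2
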