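import Crest.Agent.X212.Flo2.Prt
import Crest.Agent.X212.Flo2.Lok
import Crest.Agent.X212.Sw.Cube2
import Crest.Agent.X212.Sw.Wld2

/-!
# Row 212, layer AN-S (helper2): finite forests of families and their pre-worlds
-/

set_option autoImplicit false
set_option linter.unusedSectionVars false
noncomputable section
open scoped Manifold ContDiff Topology InnerProductSpace
open MeasureTheory Set Function Filter

universe u

namespace Crest.Agent.X212.Flo2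
open An Cyf70 Sw
open M (Mf)

variable {κ lam ν : Type} [Fintype κ] [Fintype lam] [Fintype ν] [DecidableEq ν]
  {𝓔 : Type} [Fintype 𝓔] {ty : 𝓔 → Ty κ lam ν} {Sl : Type} [Fintype Sl] {W : Type}
  {mk : Mk κ lam ν} {G : Gr κ lam ν}

variable (mk G ty Sl W) in
/-- a finite forest of families with terms -/
structure Fst : Type (max (u + 1) 1) where
  Y : Type u
  [fin : Finite Y]
  g : Y → Gc κ lam ν
  τ : ∀ a, Tm (g a) W
  p : ∀ a, Plc ty Sl (g a)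
  s₀ : Sl
  L : ∀ a, Fin (g a).k → Y
  R : ∀ a, Fin (g a).k → Y
  cap : ∀ a, Fin (g a).k → Bool
  gd : ∀ a, (g a).Gd mk
  ir : ∀ a, (g a).Ir
  fq : ∀ a, (g a).Frq G mk
  ok : ∀ a, (τ a).OK
  rich : ∀ a, (τ a).Rich
  wl : ∀ a c, ∀ i ∈ (g a).wl c, ∃ ι₁ ι₂ l r, (g a).WlT (g (L a c)) (g (R a c)) c i (cap a c) ι₁ ι₂ l r
    (τ a) (τ (L a c)) (τ (R a c))

attribute [instance] Fst.fin

namespace Fst

section defs
variable (F : Fst.{u} ty Sl W mk G) (l : Lv 𝓔) (q : l.W ty W →₀ ℝ) (a : F.Y)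

/-- the terms at a level -/
abbrev tm : Tm (F.g a) (l.W ty W) := (F.τ a).map Prod.fst

/-- counts -/
abbrev cz (D : Set (Tk (F.g a).k)) (vi vo v3 : l.PV ty) : ℕ :=
  (F.p a).cz l Prod.snd (F.tm l a) q D vi vo v3

open Classical in
/-- counts in index zero -/
def Z (vi vo v3 : l.PV ty) : ℕ :=
  if G.dg (F.g a) + G.dv l vi = G.dv l vo + G.dv l v3 then F.cz l q a (F.g a).dom vi vo v3 else 0

/-- the count of the past piece at a wall -/
def ZL (c : Fin (F.g a).k) (vi vo v : l.PV ty) : ℕ :=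
  F.Z l q (F.L a c) vi (bif F.cap a c then vo else v) (bif F.cap a c then v else none)

/-- the count of the future piece at a wall -/
def ZR (c : Fin (F.g a).k) (vo v : l.PV ty) : ℕ :=
  F.Z l q (F.R a c) v (bif F.cap a c then none else vo) none

variable {l} in
/-- what a level gives in the window `r` -/
structure Out (Γ : l.Cx ty) (q : l.W ty W →₀ ℝ) (r : ℚ) (D : ∀ ε, Finset (l.e ty ε).YC)
    (dz : ∀ ε, (l.e ty ε).YC → (l.e ty ε).YC → ℕ) : Prop where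
  hom : ∀ ε, ∀ x ∈ Γ.V ε, ∀ y ∈ Γ.V ε, dz ε x y ≠ 0 → G.d l ε x = G.d l ε y + 1
  dd : ∀ ε, (∀ v ∈ Γ.V ε, v ∈ D ε) → ∀ x ∈ Γ.V ε, ∀ y ∈ Γ.V ε, G.d l ε x ≤ r →
    Even (∑ v ∈ D ε, dz ε x v * dz ε v y)
  stk : ∀ a vi vo, (F.p a).Fit Γ vi vo none →
    (∀ ε, (F.p a).pe (F.g a).pin = some ε ∨ (F.p a).pe (F.g a).pout = some ε →
      ∀ v ∈ Γ.V ε, v ∈ D ε) → G.dv l vi ≤ r → G.dg (F.g a) + G.dv l vi = G.dv l vo + 1 →
    ∀ Dw : Fin (F.g a).k → ∀ ε, Finset (l.e ty ε).YC, (∀ c ε, Dw c ε ⊆ D ε) →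
    (∀ c, ∀ i ∈ (F.g a).wl c, ∀ v ∈ Γ.V ((F.p a).ι i).1, v ∉ Dw c _ →
      F.ZL l q a c vi vo (some ⟨_, v⟩) = 0) →
    Even (∑ c, (F.cz l q a {t ∈ (F.g a).dom | t c = 0} vi vo none +
        ((F.g a).wl c).elim (F.cz l q a {t ∈ (F.g a).dom | t c = 1} vi vo none) fun i =>
          ∑ v ∈ Dw c ((F.p a).ι i).1,
            F.ZL l q a c vi vo (some ⟨_, v⟩) * F.ZR l q a c vo (some ⟨_, v⟩)) +
      ((F.g a).pout.elim 0 fun i => ∑ v ∈ D ((F.p a).ι i).1,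
        F.Z l q a vi (some ⟨_, v⟩) none * dz _ v (l.get _ vo)) +
      (F.g a).pin.elim 0 fun i => ∑ v ∈ D ((F.p a).ι i).1,
        dz _ (l.get _ vi) v * F.Z l q a (some ⟨_, v⟩) vo none)

variable {F l a} {Γ : l.Cx ty} {c : Fin (F.g a).k} {i : (F.g a).N} {vi vo v3 : l.PV ty}

theorem fit_wl (hi : Injective ty) (hc : (F.g a).wl c = some i) (h : (F.p a).Fit Γ vi vo v3)
    {ε : 𝓔} (e : ε = ((F.p a).ι i).1) {v} (hv : v ∈ Γ.V ε) :
    (F.p (F.L a c)).Fit Γ vi (bif F.cap a c then vo else some ⟨ε, v⟩)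
      (bif F.cap a c then some ⟨ε, v⟩ else none) ∧
    (F.p (F.R a c)).Fit Γ (some ⟨ε, v⟩) (bif F.cap a c then none else vo) none := by
  subst e
  obtain ⟨_, _, _, _, k⟩ := F.wl a c i hc
  obtain ⟨-, h1, h2, h3, h4, h5, h6⟩ := k.ports
  have n := Γ.in_none
  have s := Lv.Cx.in_some.2 hv
  have e1 := h.ei.trans ((F.p a).pe_eq hi (F.p (F.L a c)) h1).symm
  have e2 := ((F.p a).pe_eq hi (F.p (F.R a c)) (o := some i) h4).symm
  have e3 : none = (F.p (F.R a c)).pe (F.g (F.R a c)).p3 := by rw [h6]; rfl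
  rcases e : F.cap a c with _ | _ <;> rw [e] at h2 h3 h5
  · exact ⟨⟨e1, ((F.p a).pe_eq hi _ (o := some i) h2).symm,
      ((F.p a).pe_eq hi _ (o := none) h3).symm, h.hi, s, n⟩,
      ⟨e2, h.eo.trans ((F.p a).pe_eq hi _ h5).symm, e3, s, h.ho, n⟩⟩
  · exact ⟨⟨e1, h.eo.trans ((F.p a).pe_eq hi _ h2).symm,
      ((F.p a).pe_eq hi _ (o := some i) h3).symm, h.hi, h.ho, s⟩,
      ⟨e2, ((F.p a).pe_eq hi _ (o := none) h5).symm, e3, s, n, n⟩⟩

end defs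

variable (F : Fst.{0} ty Sl W mk G) (l : Lv 𝓔)

/-- the data of the level -/
abbrev dt (_ : Fst.{0} ty Sl W mk G) : Dt κ lam ν := l.dt ty (W := l.W ty W) Prod.snd

/-- the families -/
abbrev ps : Ps (F.dt l) Sl where
  S := F.Y
  X a := (F.g a).X
  nc a := (F.g a).nc
  s a := (F.p a).site l Prod.snd
  k a := (F.g a).k
  fam a := (F.p a).fam l Prod.snd (F.tm l a)
  iw a c := (F.g a).wl c ≠ none

/-- the cells -/
abbrev cel (a : F.Y) (β : Sw.BC (F.dt l) Sl) := (F.p a).cel l Prod.snd (F.tm l a) β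

section wall
variable (a : F.Y) (c : Fin (F.g a).k)

/-- the limits of the past piece -/
def bl (β : Sw.BC (F.dt l) Sl) (v : l.PV ty) : Sw.BC (F.dt l) Sl :=
  (F.p (F.L a c)).bcv l ((F.p a).pw l β (F.g a).pin false)
    (bif F.cap a c then (F.p a).pw l β (F.g a).pout true else v) (bif F.cap a c then v else none)

/-- the limits of the future piece -/
def br (β : Sw.BC (F.dt l) Sl) (v : l.PV ty) : Sw.BC (F.dt l) Sl :=
  (F.p (F.R a c)).bcv l v (bif F.cap a c then none else (F.p a).pw l β (F.g a).pout true) none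

/-- the data of a splitting -/
abbrev WD : Type := (Fin (F.g (F.L a c)).k → Fin (F.g a).k) × (Fin (F.g (F.R a c)).k → Fin (F.g a).k) ×
  Spl (F.g a).X (F.g (F.L a c)).X (F.g (F.R a c)).X (F.g a).nc (F.g (F.L a c)).nc (F.g (F.R a c)).nc
    (F.dt l) Sl (Tk (F.g a).k) (Tk (F.g (F.L a c)).k) (Tk (F.g (F.R a c)).k)

variable {F l a c} in
structure WD.OK (x : F.WD l a c) : Prop where
  nk : ∀ i ∈ (F.g a).wl c, (x.2.2.ε, x.2.2.a) = (F.p a).ι i
  o : x.2.2.o = none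
  bij : Bijective (Sum.elim (Sum.elim x.1 x.2.1) fun _ : Unit => c)
  j : ∃ r, ∀ y, x.2.2.j y ∘ x.1 = y.1 ∧ x.2.2.j y ∘ x.2.1 = y.2.1 ∧ x.2.2.j y c = y.2.2 + r
  iwL : ∀ c', (F.g (F.L a c)).wl c' ≠ none ↔ (F.g a).wl (x.1 c') ≠ none
  iwR : ∀ c', (F.g (F.R a c)).wl c' ≠ none ↔ (F.g a).wl (x.2.1 c') ≠ none
  mid : ∀ β v, F.bl l a c β (some ⟨x.2.2.ε, v⟩) (x.2.2.ε, x.2.2.aL) true = v
  spl : ∀ β v, (F.cel l a β).OK → (F.cel l (F.L a c) (F.bl l a c β (some ⟨x.2.2.ε, v⟩))).OK →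
    (F.cel l (F.R a c) (F.br l a c β (some ⟨x.2.2.ε, v⟩))).OK → x.2.2.OK (F.cel l a β)
      (F.cel l (F.L a c) (F.bl l a c β (some ⟨x.2.2.ε, v⟩)))
      (F.cel l (F.R a c) (F.br l a c β (some ⟨x.2.2.ε, v⟩)))

theorem exW (hW : WlStmt κ lam ν) (hi : Injective ty) (hc : (F.g a).wl c ≠ none) :
    ∃ x : F.WD l a c, x.OK := by
  obtain ⟨i, hc⟩ := Option.ne_none_iff_exists'.1 hc
  obtain ⟨ι₁, ι₂, lf, r, k⟩ := F.wl a c i hc
  obtain ⟨s, h1, h2, ⟨j₁, h3, h3'⟩, ⟨j₂, h4, h4'⟩, h5, h6, h7, -, -, h8⟩ := hW _ _ _ c i _ ι₁ ι₂ lf r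
    (l.W ty W) _ _ _ (F.gd a).1 (F.gd _).1 (F.gd _).1 ((F.ok _).map _) ((F.ok _).map _) hc
    (k.map Prod.fst) 𝓔 ty Sl (F.p a) (F.p _) (F.p _) l Prod.snd hi
  obtain ⟨-, -, -, -, r₁, r₂, -, -, -, -, -, w1, w2, -, -, h9, -⟩ := k.spl
  have iw : ∀ {N N' : Type} {o : Option N} {o' : Option N'} {r : N → N' → Prop},
      (o = none ∧ o' = none) ∨ (∃ j ∈ o, ∃ i' ∈ o', r j i') → (o ≠ none ↔ o' ≠ none) := by
    rintro _ _ _ _ _ (⟨rfl, rfl⟩ | ⟨_, rfl, _, rfl, -⟩) <;> simp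
  have mid : ∀ β v, F.bl l a c β (some ⟨s.ε, v⟩) (s.ε, s.aL) true = v := fun β v => by
    have e : ∀ j : 𝓔 × Sl, (F.p _).ι j₁ = j →
        F.bl l a c β (some ⟨s.ε, v⟩) j true = l.get j.1 (some ⟨s.ε, v⟩) := by
      rintro _ rfl
      unfold bl
      rcases e : F.cap a c with _ | _ <;> rw [e] at h3
      exacts [Plc.bcv_out _ l h3, Plc.bcv_3 _ l (F.gd _).1 h3]
    exact (e _ h3').trans (l.get_some _ _)
  refine ⟨⟨ι₁, ι₂, s⟩, fun i' e => Option.mem_unique hc e ▸ h1, h2, k.bij, h5, fun c' => iw (w1 c'),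
    fun c' => iw (w2 c'), mid, fun β v o1 o2 o3 => h8 _ _ _ o1 o2 o3
      ((mid β v).trans (l.get_some _ _).symm) fun j b _ hj => ?_⟩
  obtain ⟨i', rfl, hk⟩ := ((F.p a).lev_inf _ l j b).1 hj
  cases b with
  | false =>
    have e := ((F.gd a).1.inn i').1 hk
    rw [(h6 i' e).1, if_neg (by simp)]
    exact (Plc.get_pw β e _).symm
  | true =>
    have e := (((F.gd a).1.out i').1 hk).resolve_right (by simp [h9])
    obtain ⟨e1, e2⟩ := h7 i' e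
    have k1 : ∀ {g} (p : Plc ty Sl g) {j' j vi vo v3}, g.pout = some j' → p.ι j' = j →
        p.bcv l vi vo v3 j true = l.get j.1 vo := by
      rintro g p j' _ _ _ _ e rfl
      exact p.bcv_out l e
    rw [e1, bl, br]
    rcases e3 : F.cap a c with _ | _ <;> rw [e3] at e2 <;> obtain ⟨j', e4, e5⟩ := e2
    · rw [if_pos (by simp)]
      exact ((k1 _ e4 e5).trans (Plc.get_pw β e _)).symm
    · rw [if_neg (by simp)]
      exact ((k1 _ e4 e5).trans (Plc.get_pw β e _)).symm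

end wall

variable (x : ∀ a (c : {c // (F.g a).wl c ≠ none}), F.WD l a c)

/-- the pre-world -/
abbrev pw : Pw (F.dt l) Sl where
  toPs := F.ps l
  wd a c := ⟨F.L a c, F.R a c, (x a c).1, (x a c).2.1, (x a c).2.2,
    fun β v => F.bl l a c β (some ⟨_, v⟩), fun β v => F.br l a c β (some ⟨_, v⟩)⟩
  s₀ := F.s₀

variable {F l x} {Γ : l.Cx ty} {a : F.Y} {β : Sw.BC (F.dt l) Sl}

theorem vb_iff : (F.pw l x).VB (Γ.ctx Prod.snd) a β ↔ (F.p a).InV Γ β :=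
  ⟨fun h i s hi => h _ s (((F.p a).lev_inf _ l _ s).2 ⟨i, rfl, hi⟩), fun h j s hj => by
    obtain ⟨i, rfl, hi⟩ := ((F.p a).lev_inf _ l j s).1 hj
    exact h i s hi⟩

theorem dom_eq : (F.pw l x).dom a = (F.g a).dom := by
  ext t
  simp [Pw.dom, Bs.dom]

theorem fit_x (hi : Injective ty) {c : {c // (F.g a).wl c ≠ none}} (hx : (x a c).OK)
    (hβ : (F.p a).InV Γ β) {v} (hv : v ∈ Γ.V (x a c).2.2.ε) :
    (F.p (F.L a c)).Fit Γ ((F.p a).pw l β (F.g a).pin false)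
      (bif F.cap a c then (F.p a).pw l β (F.g a).pout true else some ⟨_, v⟩)
      (bif F.cap a c then some ⟨_, v⟩ else none) ∧
    (F.p (F.R a c)).Fit Γ (some ⟨_, v⟩)
      (bif F.cap a c then none else (F.p a).pw l β (F.g a).pout true) none :=
  let ⟨i, hc⟩ := Option.ne_none_iff_exists'.1 c.2
  fit_wl hi hc (hβ.fit (F.gd a).1) (congrArg Prod.fst (hx.nk i hc)) hv

theorem pw_ok (H : LokStmt mk) (hi : Injective ty) (hx : ∀ a c, (x a c).OK) (Γ : l.Cx ty)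
    (a : F.Y) : (F.pw l x).OK (Γ.ctx Prod.snd) a := by
  have he := fun ε => (Γ.ok ε).ok
  have fam := fun a => H.fam _ (F.gd a).1 𝓔 ty Sl (F.p a) l _ Prod.snd (F.tm l a) he Γ.w0
    ((F.ok a).map _)
  have cel : ∀ a β, (F.p a).InV Γ β → (F.cel l a β).OK := fun a β h =>
    ⟨fam a, fun i b hi => (Γ.rs _).gd _ (vb_iff (x := x).2 h i b hi), fun j => j.elim0⟩
  refine ⟨fam a, rfl, fun c c' e => ?_, fun c => ?_,
    H.sz _ (F.gd a).1 𝓔 ty Sl _ l _ _ _ he ((F.ok a).map _)⟩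
  · obtain ⟨i, hc⟩ := Option.ne_none_iff_exists'.1 c.2
    obtain ⟨i', hc'⟩ := Option.ne_none_iff_exists'.1 c'.2
    obtain rfl := (F.p a).inj (((hx a c).nk i hc).symm.trans (e.trans ((hx a c').nk i' hc')))
    exact Subtype.ext (((F.gd a).1.wl _ i hc').2.1 _ hc)
  · obtain ⟨i, hc⟩ := Option.ne_none_iff_exists'.1 c.2
    have h := hx a c
    have e := h.nk i hc
    have w := (F.gd a).1.wl _ i hc
    refine ⟨h.o, ?_, h.bij, h.j, h.iwL, h.iwR, fun t => ?_, fun β => ?_, h.mid, fun β v hv hβ => ?_⟩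
    · show ((F.p a).lev l (F.g a).s).nk ((x a c).2.2.ε, (x a c).2.2.a) = none
      rw [e, Plc.lev_nk, w.1]
      rfl
    · show (_ → ((F.p a).lev l ((F.g a).P t)).len ((x a c).2.2.ε, (x a c).2.2.a) ≤ _) ∧
        (_ → ((F.p a).lev l ((F.g a).P t)).len ((x a c).2.2.ε, (x a c).2.2.a) = _)
      rw [e, Plc.lev_len]
      refine ⟨fun ht => ?_, (w.2.2 t).2.2⟩
      have := (w.2.2 t).1 ht
      rw [Pz.len]
      rcases e' : ((F.g a).P t).nk i with _ | K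
      · norm_num
      · obtain ⟨b, h1, h2⟩ := this K e'
        simp only [Option.elim_some, h1, h2, Option.getD_some]
        linarith
    · show (∃ B, (F.cel l a β).HolB ((x a c).2.2.ε, (x a c).2.2.a) B) ∧
        (F.cel l a β).FoN ((x a c).2.2.ε, (x a c).2.2.a) ∧
        (F.cel l a β).Nul ((x a c).2.2.ε, (x a c).2.2.a)
      rw [e]
      exact H.hol _ (F.gd a) 𝓔 ty Sl _ l _ _ _ he Γ.w0 ((F.ok a).map _) _ i hc β
    · have k := fit_x hi h (vb_iff.1 hβ) hv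
      exact h.spl β v (cel _ _ (vb_iff.1 hβ)) (cel _ _ (k.1.inV (F.gd _).1))
        (cel _ _ (k.2.inV (F.gd _).1))

end Fst

end Crest.Agent.X212.Flo2
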