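import Crest.Agent.X212.Flo2.Iso
import Crest.Agent.X212.Flo2.Cut

/-!
# Row 212, layer AN-S (helper2): the universal skeleton

`End` : a cross-section with finitely many classes.  `Gc` : a level-free family of pieces over a
cube, `Bs` its class-free part.  `Nd g` : the faces of `g`.  `Tr g` : trees of faces.  `KA mk` : the
skeleton of all coherent trees; `mk` are the analytic marks.
-/

set_option autoImplicit false
set_option linter.unusedSectionVars false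
noncomputable section
open scoped Manifold ContDiff Topology InnerProductSpace
open MeasureTheory Set Function Filter

namespace Crest.Agent.X212.Flo2
open An Cyf70 Sw
open Lab56 (M8)
open Nd18 (YD Jv)
open M (Mf)

variable (κ lam ν : Type) [Fintype κ] [Fintype lam] [Fintype ν] [DecidableEq ν]

/-- kinds of ends: rational homology sphere, `S² × S¹` with the torsion class, no critical point -/
inductive Kd | qhs | tor | dead
  deriving DecidableEq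

/-- the lifts at a neck -/
def Kd.Z : Kd → Type
  | .tor => ℤ
  | _ => Unit

def Kd.toZ : ∀ k : Kd, k.Z → ℤ
  | .tor, n => n
  | .qhs, _ => 0
  | .dead, _ => 0

/-- the geometry of a cross-section -/
structure EG : Type 1 where
  Y : Mf 3
  [cpt : CompactSpace Y.M]
  [con : ConnectedSpace Y.M]
  D : YD Y.I Y.M κ lam
  ζ : Y.M → F2 κ

attribute [instance] EG.cpt EG.con

variable {κ lam} in
/-- finitely many classes; `u` generates the components of the gauge group -/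
structure EC (e : EG κ lam) : Type 1 where
  f : ℝ → ℝ
  u : e.Y.M → ℂ
  kd : Kd
  L : Type
  [fin : Finite L]
  m : L → M8 e.Y.M (Option κ) ν
  A : L → κ → e.Y.M → En ν
  h : L → e.Y.M → En ν
  om : L → e.Y.M → F2 κ

attribute [instance] EC.fin

/-- a cross-section with its classes -/
structure End : Type 1 extends EG κ lam, EC ν toEG

variable {κ lam ν}

/-- the level-free cross-section of a class -/
def End.en (e : End κ lam ν) (c : e.L) : En3 κ lam ν :=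
  { Y := e.Y, D := e.D, m := e.m c, A := e.A c, h := e.h c, om := e.om c, ζ := e.ζ, f := e.f,
    w := 1, b := 0, S := ∅, ψ := 0 }

/-- the action of a circle valued function on the cross-section -/
def _root_.Crest.Agent.X212.Sw.En3.YC.act {e : En3 κ lam ν} (u : e.Y.M → ℂ) (v : e.YC) : e.YC :=
  En3.sl (e.cyl.act (fun x => u x.1) (En3.fz v)) 0

variable (κ lam ν) in
/-- types of necks -/
abbrev Ty : Type 1 := Σ e : End κ lam ν, e.L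

/-- the cross-section of a type -/
abbrev Ty.en (ε : Ty κ lam ν) : En3 κ lam ν := ε.1.en ε.2

/-- no terms -/
abbrev d0 {N : Type} (e : N → En3 κ lam ν) : Dt κ lam ν :=
  ⟨N, e, Empty, fun w => w.elim⟩

/-- parameters -/
abbrev Tk (k : ℕ) : Type := Fin k → ℝ

/-- the geometry of a neck -/
abbrev NG (e : EG κ lam) (X : Mf 4) : Type :=
  Option ℝ × Option ℝ × OpenPartialHomeomorph (e.Y.M × ℝ) X.M × (X.M → ℝ)

variable (κ lam ν) in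
/-- the class-free part of a family; the coordinate `c` is a wall if `wl c = some i` -/
structure Bs : Type 1 where
  X : Mf 4
  nc : ℕ
  k : ℕ
  N : Type
  [fN : Fintype N]
  [dN : DecidableEq N]
  eg : N → EG κ lam
  /-- the classes that are allowed at a neck -/
  ens : ∀ i, Set (EC ν (eg i))
  wl : Fin k → Option N
  B : Base X.M (Option κ) lam
  G : Tk k → Geo X.I X.M (Option κ) lam
  ng : Tk k → ∀ i, Option (NG (eg i) X)
  C : ℕ → ℝ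

attribute [instance] Bs.fN Bs.dN

namespace Bs
variable (β : Bs κ lam ν)

/-- the cube -/
def dom : Set (Tk β.k) := {t | ∀ c, 0 ≤ t c ∧ (β.wl c = none → t c ≤ 1)}

/-- the retraction onto the cube -/
def clp (t : Tk β.k) : Tk β.k := fun c => (β.wl c).elim (max 0 (min 1 (t c))) fun _ => max 0 (t c)

/-- the pairing `∫ f ∧ e` -/
def wd (t : Tk β.k) (f e : β.X.M → F2 κ) : ℝ :=
  ∫ x, ⟪f x, idx (β.B.st x) (ContinuousLinearMap.id ℝ ℝ) (e x)⟫_ℝ ∂(β.G t).F.μ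

/-- the differential of a one-form -/
def dd (t : Tk β.k) (a : Option κ → β.X.M → ℝ) (x : β.X.M) : F2 κ := WithLp.toLp 2 fun s =>
  (β.G t).F.D s.1 (a s.2) x - (β.G t).F.D s.2 (a s.1) x - ∑ j, (β.G t).F.c s.1 s.2 j x * a j x

/-- test forms: closed, bounded, on the necks a multiple of the spatial part of `ζ` -/
structure Tf : Type where
  e : Tk β.k → β.X.M → F2 κ
  r : β.N → ℝ
  sm : ∀ t ∈ β.dom, Sm β.X.I (e t)
  a2 : ∀ t ∈ β.dom, ∀ x, idx (β.B.a2 x) (ContinuousLinearMap.id ℝ ℝ) (e t x) = e t x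
  bd : ∃ C, ∀ t ∈ β.dom, ∀ x, ‖e t x‖ ≤ C
  cl : ∀ t ∈ β.dom, ∀ a : Option κ → β.X.M → ℝ, (∀ i, Sm β.X.I (a i) ∧ HasCompactSupport (a i)) →
    (∀ i x, ∑ j, β.B.P i j x * a j x = a i x) → β.wd t (β.dd t a) (e t) = 0
  nk : ∀ t ∈ β.dom, ∀ i, ∀ K ∈ β.ng t i, ∀ y, ∀ s ∈ Jv (K.1.map (· + 1)) (K.2.1.map (· - 1)), ∀ a a',
    e t (K.2.2.1 (y, s)) (a, a') = if a.isSome ∧ a'.isSome then r i * (β.eg i).ζ y (a, a') else 0

end Bs

variable (κ lam ν) in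
/-- a level-free family with its ports: incoming, outgoing, second outgoing end -/
structure Gc : Type 1 extends Bs κ lam ν where
  ec : ∀ i, EC ν (eg i)
  cl : ∀ i, (ec i).L
  s : Pz X 0 fun i => Ty.en ⟨⟨eg i, ec i⟩, cl i⟩
  𝓕 : Fam (d := d0 fun i => Ty.en ⟨⟨eg i, ec i⟩, cl i⟩) (ty := id) s nc (Tk k)
  pin : Option N
  pout : Option N
  p3 : Option N

namespace Gc
variable (g : Gc κ lam ν)

/-- the ends of the necks -/
abbrev en (i : g.N) : End κ lam ν := ⟨g.eg i, g.ec i⟩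

/-- the types of the necks -/
abbrev ty (i : g.N) : Ty κ lam ν := ⟨g.en i, g.cl i⟩

/-- the piece at the parameter `t` -/
abbrev P (t : Tk g.k) : Pz g.X g.nc fun i => (g.ty i).en := (g.𝓕.P t).toPz

/-- no reducible solution, with a margin -/
def NoRed : Prop := ∃ δ : ℝ, 0 < δ ∧ ∀ t ∈ g.dom, ∀ β c, (g.P t).Cr β →
  (∀ i s, (g.P t).Inf i s → (β i s).Φ = 0) → (g.P t).As β c → c.Φ = 0 →
  ENNReal.ofReal δ ≤ ∫⁻ x, ‖(g.P t).bg.eC c x - (g.P t).p0.C c x‖ₑ ^ 2 ∂(g.P t).bg.F.μ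

/-- powers of the generators of the gauge groups, at the port `p` -/
def gau (p : Option g.N) (n : ℤ) (i : g.N) (y : (g.ty i).en.Y.M) : ℂ :=
  if p = some i then (g.en i).u y ^ n else 1

/-- the label of the class, with the lift `n`, at a test form -/
def pr (n : ℤ) (e : g.Tf) : ℝ := sInf ((fun t => |g.wd t ((g.P t).bg.fc
  ((g.P t).base fun i _ => En3.YC.act (g.gau g.pin n i) ⟨0, 0⟩)) (e.e t)|) '' g.dom)

/-- the port `p` has the kind `k` -/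
def Kp (p : Option g.N) (k : Kd) : Prop := ∀ i ∈ p, (g.en i).kd = k

/-- allowed gauge transformations are null-homotopic on the neck `i`, and the curvature bounds the
holonomy at one of its ends -/
structure Hol (i : g.N) : Prop where
  nul : ∀ t, ∀ K ∈ (g.P t).nk i, ∀ u, (g.P t).Al u → ∀ τ ∈ K.J, ∃ χ : (g.en i).Y.M → ℝ,
    Sm (g.en i).Y.I χ ∧ ∀ y, u (K.ψ (y, τ)) = Complex.exp (χ y * Complex.I)
  hol : ∃ C : ℝ, ∀ t, ∀ K ∈ (g.P t).nk i, ∀ c, (g.P t).bg.Adm c → K.deep 3 ≠ ∅ →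
    ∃ τ ∈ K.deep 2, τ ∉ K.deep 3 ∧ |En3.hol (En3.sl (K.pb c) τ)| ≤
      C * (1 + (∫⁻ x in (g.P t).thick 3, ‖(g.P t).bg.fc c x‖ₑ ^ 2 ∂(g.P t).bg.F.μ).toReal)

structure OK : Prop where
  fam : g.𝓕.OK
  Q : g.𝓕.Q = univ
  k2 : g.k ≤ 2
  nc2 : g.k = 2 → g.nc = 0
  B : g.s.bg.B = g.B
  G : ∀ t, (g.P t).bg.G = g.G t
  ret : ∀ t, g.G t = g.G (g.clp t)
  ng : ∀ t i, ((g.P t).nk i).map (fun K => (K.ng : NG (g.eg i) g.X)) = g.ng t i
  bd : ∀ t ∈ g.dom, (g.P t).bg.Bd g.C ∧ (g.P t).bg.F.μ ((g.P t).thick 3) ≤ ENNReal.ofReal (g.C 0)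
  inn : ∀ i, g.s.Inf i false ↔ g.pin = some i
  out : ∀ i, g.s.Inf i true ↔ g.pout = some i ∨ g.p3 = some i
  ne3 : ∀ i, g.p3 = some i → g.pout ≠ some i ∧ g.k = 0
  kout : g.Kp g.pout .qhs
  kin : g.Kp g.pin .qhs ∨ (g.pout = none ∧ g.p3 = none ∧ g.nc = 0 ∧ ∀ c, g.wl c = none)
  wl : ∀ c, ∀ i ∈ g.wl c, g.s.nk i = none ∧ (∀ c', g.wl c' = some i → c' = c) ∧ ∀ t,
    (t c ≤ 0 → (g.P t).Off i) ∧ (t c ≤ 3 → (g.P t).len i ≤ 3) ∧ (3 ≤ t c → (g.P t).len i = t c)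
  off : ∀ i, g.s.nk i = none → (∀ c, g.wl c ≠ some i) → ∀ t, (g.P t).Off i
  hol : ∀ c, ∀ i ∈ g.wl c, (g.en i).kd ≠ .qhs → g.Hol i
  lift : ∀ i ∈ g.p3, (g.en i).kd = .tor → ∃ e : g.Tf, e.r i = 1
  cyl : ∀ i, g.pin = some i → g.pout ≠ some i ∧ g.p3 ≠ some i
  ens : ∀ i, g.ec i ∈ g.ens i ∧ ∀ C, {e ∈ g.ens i | e.kd ≠ .dead ∨
    ∃ c, ∃ v : (End.en ⟨g.eg i, e⟩ c).YC, (End.en ⟨g.eg i, e⟩ c).cyl.Adm (En3.fz v) ∧ v.Φ = 0 ∧
      En3.gn v ≤ C}.Finite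

/-- no reducible solution, if there is no incoming end -/
def Ir : Prop := g.pin = none → g.NoRed

/-- the part `D` of `g` is isomorphic to `g'`; the lift `a` of `g` is the lift `a + n` of `g'` -/
structure Fc (g g' : Gc κ lam ν) (D : Set (Tk g.k)) (ι : Fin g'.k → Fin g.k)
    (φ : OpenPartialHomeomorph g'.X.M g.X.M) (n : ℤ) : Prop where
  inj : Injective ι
  iso : ∃ (h : g.nc = g'.nc) (r : g'.N → g.N → Prop), (∀ i i', r i i' → g'.ty i = g.ty i') ∧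
    (∀ c, (g'.wl c = none ∧ g.wl (ι c) = none) ∨ ∃ i ∈ g'.wl c, ∃ i' ∈ g.wl (ι c), r i i') ∧
    Option.Rel r g'.pin g.pin ∧ Option.Rel r g'.pout g.pout ∧ Option.Rel r g'.p3 g.p3 ∧
    ∀ t ∈ D, ∃ γ U u α, (∀ i, g'.s.nk i ≠ none → γ i = g'.gau g'.pin (-n) i) ∧
      BIso (en := Ty.en) (ty := g'.ty) (ty' := g.ty) (g'.P (t ∘ ι)) (h ▸ g.P t) φ r γ U u α

/-- for `t c ≥ 3` the family `g` is cut along the neck `i` into `g₁` and `g₂` -/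
structure Wl (g g₁ g₂ : Gc κ lam ν) (c : Fin g.k) (i : g.N) (cap : Bool) (ι₁ : Fin g₁.k → Fin g.k)
    (ι₂ : Fin g₂.k → Fin g.k) (l : ℝ → OpenPartialHomeomorph g₁.X.M g.X.M)
    (r : ℝ → OpenPartialHomeomorph g₂.X.M g.X.M) : Prop where
  bij : Bijective (Sum.elim (Sum.elim ι₁ ι₂) fun _ : Unit => c)
  spl : ∃ j₁ ∈ (bif cap then g₁.p3 else g₁.pout), ∃ j₂ ∈ g₂.pin,
    ∃ (r₁ : g₁.N → g.N → Prop) (r₂ : g₂.N → g.N → Prop) (e : Fin g₁.nc ⊕ Fin g₂.nc ≃ Fin g.nc),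
    g₁.ty j₁ = g.ty i ∧ g₂.ty j₂ = g.ty i ∧ (∀ j i', r₁ j i' → g₁.ty j = g.ty i') ∧
    (∀ j i', r₂ j i' → g₂.ty j = g.ty i') ∧
    (∀ c', (g₁.wl c' = none ∧ g.wl (ι₁ c') = none) ∨ ∃ j ∈ g₁.wl c', ∃ i' ∈ g.wl (ι₁ c'), r₁ j i') ∧
    (∀ c', (g₂.wl c' = none ∧ g.wl (ι₂ c') = none) ∨ ∃ j ∈ g₂.wl c', ∃ i' ∈ g.wl (ι₂ c'), r₂ j i') ∧
    Option.Rel r₁ g₁.pin g.pin ∧ g₂.p3 = none ∧ g.p3 = none ∧
    (bif cap then Option.Rel r₁ g₁.pout g.pout ∧ g₂.pout = none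
      else Option.Rel r₂ g₂.pout g.pout ∧ g₁.p3 = none ∧ (g.en i).kd = .qhs) ∧
    (∃ δ : ℝ → ℝ × ℝ, ∀ t, 3 ≤ t c → Sp2 (en := Ty.en) (ty := g.ty) (ty₁ := g₁.ty) (ty₂ := g₂.ty)
      (g.P t) i (g₁.P (t ∘ ι₁)) j₁ (g₂.P (t ∘ ι₂)) j₂ (l (t c)) (r (t c)) (δ (t c)) r₁ r₂ e) ∧
    ∃ ε > 0, (∀ K ∈ g₁.s.nk j₁, ∀ x ∉ K.ψ '' (univ ×ˢ K.deep ε), ∀ v ≥ 3, l v x = l 3 x) ∧
      ∀ K ∈ g₂.s.nk j₂, ∀ x ∉ K.ψ '' (univ ×ˢ K.deep ε), ∀ v ≥ 3, r v x = r 3 x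

end Gc

/-- the faces of a family: the facet `t c = 0` is `g0 c`; the facet `t c = 1` is `g1 c`, or the wall
is the pair of `g1 c` and `g2' c ≅ g2 c` -/
structure Nd (g : Gc κ lam ν) : Type 1 where
  ok : g.OK
  g0 : Fin g.k → Gc κ lam ν
  ι0 : ∀ c, Fin (g0 c).k → Fin g.k
  φ0 : ∀ c, OpenPartialHomeomorph (g0 c).X.M g.X.M
  n0 : Fin g.k → ℤ
  g1 : Fin g.k → Gc κ lam ν
  ι1 : ∀ c, Fin (g1 c).k → Fin g.k
  l : ∀ c, ℝ → OpenPartialHomeomorph (g1 c).X.M g.X.M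
  n1 : Fin g.k → ℤ
  cap : Fin g.k → Bool
  /-- all lifts of the cap are isomorphic -/
  fx : Fin g.k → Bool
  g2' : Fin g.k → Gc κ lam ν
  ι2 : ∀ c, Fin (g2' c).k → Fin g.k
  r : ∀ c, ℝ → OpenPartialHomeomorph (g2' c).X.M g.X.M
  g2 : Fin g.k → Gc κ lam ν
  ι3 : ∀ c, Fin (g2 c).k → Fin (g2' c).k
  φ2 : ∀ c, OpenPartialHomeomorph (g2 c).X.M (g2' c).X.M
  f0 : ∀ c, range (ι0 c) = {c}ᶜ ∧ g.Fc (g0 c) {t ∈ g.dom | t c = 0} (ι0 c) (φ0 c) (n0 c)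
  f1 : ∀ c, g.wl c = none → range (ι1 c) = {c}ᶜ ∧ (∀ v, l c v = l c 3) ∧
    g.Fc (g1 c) {t ∈ g.dom | t c = 1} (ι1 c) (l c 3) (n1 c)
  wl : ∀ c, ∀ i ∈ g.wl c, g.Wl (g1 c) (g2' c) c i (cap c) (ι1 c) (ι2 c) (l c) (r c) ∧ (g2' c).OK ∧
    Surjective (ι3 c) ∧ ((g2' c).Fc (g2 c) (g2' c).dom (ι3 c) (φ2 c) (n1 c) ∧
      (fx c = true → ∀ n, (g2' c).Fc (g2 c) (g2' c).dom (ι3 c) (φ2 c) n))
  /-- at a neck that separates the ends the second piece is literal -/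
  lit : ∀ c, cap c = false → ∃ h : g2' c = g2 c, (∀ j, (ι3 c j).1 = j.1) ∧
    φ2 c = h ▸ OpenPartialHomeomorph.refl _
  /-- caps have no walls -/
  cw : ∀ c, cap c = true → ∀ c', (g2' c).wl c' = none

/-- trees of faces -/
inductive Tr : Gc κ lam ν → Type 1
  | mk {g : Gc κ lam ν} (n : Nd g) (f0 : ∀ c, Tr (n.g0 c)) (f1 : ∀ c, Tr (n.g1 c))
      (f2 : ∀ c, Tr (n.g2 c)) : Tr g

namespace Tr
variable {g : Gc κ lam ν}

def nd : Tr g → Nd g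
  | mk n _ _ _ => n

def f0 : (τ : Tr g) → ∀ c, Tr (τ.nd.g0 c)
  | mk _ f _ _ => f

def f1 : (τ : Tr g) → ∀ c, Tr (τ.nd.g1 c)
  | mk _ _ f _ => f

def f2 : (τ : Tr g) → ∀ c, Tr (τ.nd.g2 c)
  | mk _ _ _ f => f

/-- no reducible solution on any face -/
def Irr : ∀ {g : Gc κ lam ν}, Tr g → Prop
  | g, mk _ f0 f1 f2 => g.Ir ∧ (∀ c, (f0 c).Irr) ∧ (∀ c, (f1 c).Irr) ∧
      ∀ c, g.wl c ≠ none → (f2 c).Irr

end Tr

/-- a tree with its coordinates and its embedding in `g` -/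
structure Pi (g : Gc κ lam ν) : Type 1 where
  g' : Gc κ lam ν
  τ : Tr g'
  ι : Fin g'.k → Fin g.k
  φ : Tk g.k → OpenPartialHomeomorph g'.X.M g.X.M

/-- a piece of a piece -/
def Pi.comp {g : Gc κ lam ν} (p : Pi g) (q : Pi p.g') : Pi g :=
  ⟨q.g', q.τ, p.ι ∘ q.ι, fun t => (q.φ (t ∘ p.ι)).trans (p.φ t)⟩

/-- equal trees, and equal embeddings on long necks -/
def Pi.Eq {g : Gc κ lam ν} (p q : Pi g) : Prop := ∃ h : q.g' = p.g', p.τ = h ▸ q.τ ∧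
  ∀ t : Tk g.k, (∀ c, 3 ≤ t c) → ∀ x ∈ (p.φ t).source,
    ∀ x' ∈ (q.φ t).source, HEq x x' → p.φ t x = q.φ t x'

namespace Tr
variable {g : Gc κ lam ν} (τ : Tr g)

/-- the pieces of the face `(c, s)` -/
def pcs (c : Fin g.k) : Bool → List (Pi g)
  | false => [⟨_, τ.f0 c, τ.nd.ι0 c, fun _ => τ.nd.φ0 c⟩]
  | true => ⟨_, τ.f1 c, τ.nd.ι1 c, fun t => τ.nd.l c (t c)⟩ ::
      if g.wl c = none then [] else [⟨_, τ.f2 c, τ.nd.ι2 c ∘ τ.nd.ι3 c,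
        fun t => (τ.nd.φ2 c).trans (τ.nd.r c (t c))⟩]

/-- the pieces of a corner of a square: first `(c, s)`, then the other coordinate at `s'` -/
def crn (c : Fin g.k) (s s' : Bool) : List (Pi g) := (τ.pcs c s).flatMap fun p =>
  if h : 0 < p.g'.k then (p.τ.pcs ⟨0, h⟩ s').map p.comp else [p]

/-- the corners are coherent -/
def Coh : Prop := ∀ c c', c ≠ c' → ∀ s s',
  ∃ l, (τ.crn c' s' s).Perm l ∧ List.Forall₂ Pi.Eq (τ.crn c s s') l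

end Tr

variable (κ lam ν) in
/-- the analytic marks -/
structure Mk : Type 1 where
  qhs : End κ lam ν → Prop
  tor : End κ lam ν → Prop
  dead : End κ lam ν → Prop
  psc : End κ lam ν → Prop
  sph : End κ lam ν → Prop
  /-- a lower bound of the degrees -/
  lw : Ty κ lam ν → ℚ
  tp : Gc κ lam ν → ℚ → Prop
  hi1 : Gc κ lam ν → Prop
  al1 : Gc κ lam ν → Prop
  ex1 : Gc κ lam ν → Prop

variable (mk : Mk κ lam ν)

/-- good ends -/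
structure End.OK (e : End κ lam ν) : Prop where
  ok : ∀ c, (e.en c).OK
  u : Gau e.Y.I e.u
  lg : ∀ v, Gau e.Y.I v → ∃ (n : ℤ) (χ : e.Y.M → ℝ), Sm e.Y.I χ ∧
    ∀ y, v y = e.u y ^ n * Complex.exp (χ y * Complex.I)
  qhs : e.kd = .qhs → mk.qhs e ∧ e.u = 1 ∧ e.ζ = 0 ∧ e.f = 0 ∧ ∀ c, (e.en c).H1
  tor : e.kd = .tor → mk.tor e ∧ Subsingleton e.L
  dead : e.kd = .dead → mk.dead e ∧ e.f = 0 ∧ e.om = 0

/-- families whose counts are not used -/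
def Gc.Neg (g : Gc κ lam ν) : Prop :=
  g.p3 ≠ none ∨ ∃ x, mk.tp g x ∧ x < (g.pout.map g.ty).elim 0 mk.lw

/-- well formed trees -/
def Tr.WF : ∀ {g : Gc κ lam ν}, Tr g → Prop
  | g, .mk n f0 f1 f2 => (∀ i, (g.en i).OK mk) ∧ (Tr.mk n f0 f1 f2).Coh ∧ (∀ c, (f0 c).WF) ∧
      (∀ c, (f1 c).WF) ∧ (∀ c, g.wl c ≠ none → (f2 c).WF) ∧ ((Tr.mk n f0 f1 f2).Irr ∨ g.Neg mk) ∧
      ∀ c, g.wl c ≠ none → ∀ i, ((n.g2' c).en i).OK mk

/-- ends of the skeleton; `none` is the empty end -/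
abbrev EE : Type 1 := Option {e : End κ lam ν // e.OK mk}

variable {mk}

/-- classes -/
def EE.L : EE mk → Type
  | none => Unit
  | some e => e.1.L

/-- the type of a class -/
def EE.ty : ∀ a : EE mk, a.L → Option (Ty κ lam ν)
  | none, _ => none
  | some e, c => some ⟨e.1, c⟩

/-- a property of a nonempty end -/
def EE.P (p : End κ lam ν → Prop) (a : EE mk) : Prop := ∃ e ∈ a, p e.1

/-- cells with three ports; `n` is the lift -/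
structure C3 (a b x : EE mk) : Type 1 where
  g : Gc κ lam ν
  τ : Tr g
  wf : τ.WF mk
  s : a.L
  t : b.L
  u : x.L
  n : ℤ
  hs : g.pin.map g.ty = a.ty s
  ht : g.pout.map g.ty = b.ty t
  hu : g.p3.map g.ty = x.ty u

/-- cells with two ports -/
abbrev C2 (a b : EE mk) : Type 1 := C3 a b none

theorem rel_map {N N' T : Type*} {r : N → N' → Prop} {f : N → T} {f' : N' → T}
    (h : ∀ i i', r i i' → f i = f' i') {p : Option N} {p' : Option N'} (hp : Option.Rel r p p') :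
    p.map f = p'.map f' := by
  cases hp with
  | some e => exact congrArg some (h _ _ e)
  | none => rfl

theorem Gc.Fc.ports {g g' : Gc κ lam ν} {D ι φ n} (h : g.Fc g' D ι φ n) :
    g'.pin.map g'.ty = g.pin.map g.ty ∧ g'.pout.map g'.ty = g.pout.map g.ty ∧
      g'.p3.map g'.ty = g.p3.map g.ty := by
  obtain ⟨_, r, h1, -, h2, h3, h4, -⟩ := h.iso
  exact ⟨rel_map h1 h2, rel_map h1 h3, rel_map h1 h4⟩

theorem Gc.Wl.nk {g g₁ g₂ : Gc κ lam ν} {c i ι₁ ι₂ l r} (h : g.Wl g₁ g₂ c i false ι₁ ι₂ l r) :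
    g₁.pin.map g₁.ty = g.pin.map g.ty ∧ g₁.pout.map g₁.ty = some (g.ty i) ∧ g₁.p3 = none ∧
      g₂.pin.map g₂.ty = some (g.ty i) ∧ g₂.pout.map g₂.ty = g.pout.map g.ty ∧ g₂.p3 = none := by
  obtain ⟨j₁, h1, j₂, h2, r₁, r₂, e, h3, h4, h5, h6, -, -, h7, h8, -, ⟨h9, h10, -⟩, -⟩ := h.spl
  exact ⟨rel_map h5 h7, by rw [show g₁.pout = some j₁ from h1, ← h3]; rfl, h10,
    by rw [show g₂.pin = some j₂ from h2, ← h4]; rfl, rel_map h6 h9, h8⟩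

theorem Gc.Wl.cap {g g₁ g₂ : Gc κ lam ν} {c i ι₁ ι₂ l r} (h : g.Wl g₁ g₂ c i true ι₁ ι₂ l r) :
    g₁.pin.map g₁.ty = g.pin.map g.ty ∧ g₁.pout.map g₁.ty = g.pout.map g.ty ∧
      g₁.p3.map g₁.ty = some (g.ty i) ∧ g₂.pin.map g₂.ty = some (g.ty i) ∧ g₂.pout = none ∧
        g₂.p3 = none := by
  obtain ⟨j₁, h1, j₂, h2, r₁, r₂, e, h3, h4, h5, h6, -, -, h7, h8, -, ⟨h9, h10⟩, -⟩ := h.spl
  exact ⟨rel_map h5 h7, rel_map h5 h9, by rw [show g₁.p3 = some j₁ from h1, ← h3]; rfl,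
    by rw [show g₂.pin = some j₂ from h2, ← h4]; rfl, h10, h8⟩

theorem Tr.WF.all {g : Gc κ lam ν} {τ : Tr g} (h : τ.WF mk) : (∀ i, (g.en i).OK mk) ∧ τ.Coh ∧
    (∀ c, (τ.f0 c).WF mk) ∧ (∀ c, (τ.f1 c).WF mk) ∧ (∀ c, g.wl c ≠ none → (τ.f2 c).WF mk) ∧
      (τ.Irr ∨ g.Neg mk) ∧ ∀ c, g.wl c ≠ none → ∀ i, ((τ.nd.g2' c).en i).OK mk := by
  cases τ
  exact h

theorem Tr.Irr.all {g : Gc κ lam ν} {τ : Tr g} (h : τ.Irr) : g.Ir ∧ (∀ c, (τ.f0 c).Irr) ∧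
    (∀ c, (τ.f1 c).Irr) ∧ ∀ c, g.wl c ≠ none → (τ.f2 c).Irr := by
  cases τ
  exact h

theorem Tr.irr_of {g : Gc κ lam ν} (τ : Tr g) (h : g.pin ≠ none) : τ.Irr := by
  induction τ with
  | @mk g n f0 f1 f2 h0 h1 h2 =>
    have k : ∀ {g g' : Gc κ lam ν}, g'.pin.map g'.ty = g.pin.map g.ty → g.pin ≠ none →
        g'.pin ≠ none := fun e h h' => h (by rw [h'] at e; simpa using e.symm)
    refine ⟨fun h' => (h h').elim, fun c => h0 c (k (n.f0 c).2.ports.1 h), fun c => h1 c ?_,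
      fun c hc => h2 c ?_⟩
    · rcases e : g.wl c with _ | i
      · exact k (n.f1 c e).2.2.ports.1 h
      · obtain ⟨j₁, -, j₂, -, r₁, r₂, e, -, -, h5, -, -, -, h7, -⟩ := (n.wl c i e).1.spl
        exact k (rel_map h5 h7) h
    · obtain ⟨i, e⟩ := Option.ne_none_iff_exists'.1 hc
      obtain ⟨j₁, -, j₂, h2, -⟩ := (n.wl c i e).1.spl
      exact k (n.wl c i e).2.2.2.1.ports.1 (by rw [show (n.g2' c).pin = some j₂ from h2]; simp)

namespace C3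
variable {a b : EE mk} (σ : C2 a b)

/-- the facet `t c = 0` -/
def f0 (c : Fin σ.g.k) : C2 a b :=
  have h := (σ.τ.nd.f0 c).2.ports
  ⟨_, σ.τ.f0 c, σ.wf.all.2.2.1 c, σ.s, σ.t, (), 0, h.1.trans σ.hs, h.2.1.trans σ.ht, h.2.2.trans σ.hu⟩

/-- the facet `t c = 1` -/
def f1 (c : Fin σ.g.k) (hc : σ.g.wl c = none) : C2 a b :=
  have h := (σ.τ.nd.f1 c hc).2.2.ports
  ⟨_, σ.τ.f1 c, σ.wf.all.2.2.2.1 c, σ.s, σ.t, (), 0, h.1.trans σ.hs, h.2.1.trans σ.ht,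
    h.2.2.trans σ.hu⟩

/-- the end of the neck `i` -/
def en (i : σ.g.N) : EE mk := some ⟨σ.g.en i, σ.wf.all.1 i⟩

/-- the pieces at a neck that separates the two ends -/
def nk (c : Fin σ.g.k) (i : σ.g.N) (hi : σ.g.wl c = some i) (hc : σ.τ.nd.cap c = false) :
    Σ x, C2 a x × C2 x b :=
  have h0 := σ.τ.nd.wl c i hi
  have h := (hc ▸ h0.1).nk
  have h' := h0.2.2.2.1.ports
  ⟨σ.en i, ⟨_, σ.τ.f1 c, σ.wf.all.2.2.2.1 c, σ.s, σ.g.cl i, (), 0, h.1.trans σ.hs, h.2.1,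
      by rw [h.2.2.1]; rfl⟩,
    ⟨_, σ.τ.f2 c, σ.wf.all.2.2.2.2.1 c (by simp [hi]), σ.g.cl i, σ.t, (), 0, h'.1.trans h.2.2.2.1,
      h'.2.1.trans (h.2.2.2.2.1.trans σ.ht), h'.2.2.trans (by rw [h.2.2.2.2.2]; rfl)⟩⟩

/-- the pieces at a neck that cuts off a cap, with the lift `n` -/
def cp (c : Fin σ.g.k) (i : σ.g.N) (hi : σ.g.wl c = some i) (hc : σ.τ.nd.cap c = true) (n : ℤ) :
    Σ x, C3 a b x × C2 x none :=
  have h0 := σ.τ.nd.wl c i hi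
  have h := (hc ▸ h0.1).cap
  have h' := h0.2.2.2.1.ports
  ⟨σ.en i, ⟨_, σ.τ.f1 c, σ.wf.all.2.2.2.1 c, σ.s, σ.t, σ.g.cl i, n, h.1.trans σ.hs,
      h.2.1.trans σ.ht, h.2.2.1⟩,
    ⟨_, σ.τ.f2 c, σ.wf.all.2.2.2.2.1 c (by simp [hi]), σ.g.cl i, (), (),
      bif σ.τ.nd.fx c then 0 else n + σ.τ.nd.n1 c,
      h'.1.trans h.2.2.2.1, h'.2.1.trans (by rw [h.2.2.2.2.1]; rfl),
      h'.2.2.trans (by rw [h.2.2.2.2.2]; rfl)⟩⟩

/-- the lifts at the caps -/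
def C : Type := Σ p : {p : Fin σ.g.k × σ.g.N // σ.g.wl p.1 = some p.2 ∧ σ.τ.nd.cap p.1 = true},
  (σ.g.en p.1.2).kd.Z

end C3

variable (mk) in
open Classical in
/-- **the universal skeleton** -/
def KA : Sk.{1} where
  E := EE mk
  L := EE.L
  one := none
  sub _ _ := rfl
  F := C2
  F3 := C3
  s σ := σ.s
  t σ := σ.t
  s3 σ := σ.s
  t3 σ := σ.t
  u3 σ := σ.u
  fc σ := if σ.g.Kp σ.g.pin .qhs then (List.finRange σ.g.k).flatMap fun c =>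
    σ.f0 c :: if h : σ.g.wl c = none then [σ.f1 c h] else [] else []
  nk σ := (List.finRange σ.g.k).flatMap fun c =>
    if h : (σ.g.wl c).isSome ∧ σ.τ.nd.cap c = false then
      [σ.nk c _ (Option.some_get h.1).symm h.2] else []
  C σ := σ.C
  cp σ c := σ.cp c.1.1.1 c.1.1.2 c.1.2.1 c.1.2.2 (Kd.toZ _ c.2)
  B := Bs κ lam ν
  base σ := σ.g.toBs
  T β := β.Tf
  pr σ e := σ.g.pr σ.n e
  tp σ r := mk.tp σ.g r
  qhs := EE.P fun e => e.kd = .qhs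
  psc := EE.P fun e => e.kd = .qhs ∧ mk.psc e
  sph := EE.P fun e => e.kd = .qhs ∧ mk.sph e ∧ Subsingleton e.L
  thin := EE.P fun e => e.kd = .tor ∨ (e.kd = .qhs ∧ mk.psc e ∧ Subsingleton e.L)
  dead := EE.P fun e => e.kd = .dead
  idn _ := False
  hi1 σ := σ.τ.Irr ∧ mk.hi1 σ.g
  hi0 σ := σ.g.NoRed ∧ σ.g.Kp σ.g.pin .qhs ∧ ∀ c, σ.g.wl c = none
  al1 σ := σ.τ.Irr ∧ mk.al1 σ.g
  ex1 σ := σ.τ.Irr ∧ mk.ex1 σ.g
  al0 _ := False

variable (mk) in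
/-- THE ANALYSIS -/
def AnStmt : Prop := ∀ A : (KA mk).Sub, Nonempty (Cs ((KA mk).cut A))

theorem KA.cnt (a b : (KA mk).E) (σ : (KA mk).F a b) : Countable ((KA mk).C σ) := by
  have : ∀ k : Kd, Countable k.Z := by
    rintro (_ | _ | _) <;> unfold Kd.Z <;> infer_instance
  show Countable (C3.C σ)
  unfold C3.C
  infer_instance

end Crest.Agent.X212.Flo2
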